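import Crest.Agent.X326.FB.PolyDefs
import Crest.Agent.X326.M4.Defs
import Crest.Agent.X326.TC.IntLin
import Crest.Agent.X326.TC.Zip

/-!
# Row 326, filter bank: the middle product of two integer lists

`mid f col` is computed by four convolutions of lists of naturals (positive and negative parts).
-/

set_option autoImplicit false

namespace Crest.Agent.X326.FB

open Crest.Agent.Lib.PT Finset

namespace MidTC

/-- positive parts -/
def pos (l : List ℤ) : List ℕ := l.map Int.toNat

/-- negative parts -/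
def neg (l : List ℤ) : List ℕ := l.map fun z => (-z).toNat

/-- the window of `n` entries starting at `n - 1` -/
def win (n : ℕ) (c : List ℕ) : List ℕ := List.takeD n (c.drop (n - 1)) 0

theorem win_eq (n : ℕ) (c : List ℕ) : win n c = tab n fun t => c.getD (n - 1 + t) 0 := by
  have key : ∀ (m : ℕ) (l : List ℕ), List.takeD m l 0 = tab m fun t => l.getD t 0 := by
    intro m
    induction m with
    | zero => intro l; rfl
    | succ m ih =>
      intro l
      cases l with
      | nil => simp [replicate_eq_tab, tab_succ]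
      | cons a l => rw [List.takeD_succ, tab_succ]; simp [ih]
  rw [win, key]
  refine tab_congr fun t _ => ?_
  simp [List.getD_eq_getElem?_getD]

theorem getD_pos (l : List ℤ) (i : ℕ) : (pos l).getD i 0 = (l.getD i 0).toNat := by
  simp only [pos, List.getD_eq_getElem?_getD, List.getElem?_map]
  cases l[i]? <;> rfl

theorem getD_neg (l : List ℤ) (i : ℕ) : (neg l).getD i 0 = (-(l.getD i 0)).toNat := by
  simp only [neg, List.getD_eq_getElem?_getD, List.getElem?_map]
  cases l[i]? <;> rfl

theorem mid_eq {conv : List ℕ → List ℕ → List ℕ} (hc : M4.IsConv conv) (f col : List ℤ) :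
    mid f col = List.zipWith (fun x y : ℕ => (x : ℤ) - (y : ℤ))
      (List.zipWith (· + ·) (win f.length (conv (pos f) (pos col)))
        (win f.length (conv (neg f) (neg col))))
      (List.zipWith (· + ·) (win f.length (conv (pos f) (neg col)))
        (win f.length (conv (neg f) (pos col)))) := by
  simp only [win_eq, zipWith_tab, mid]
  refine tab_congr fun t ht => ?_
  simp only [hc _ _ _, getD_pos, getD_neg]
  push_cast
  rw [← sum_add_distrib, ← sum_add_distrib, ← sum_sub_distrib]
  have hsub : range f.length ⊆ range (f.length - 1 + t + 1) := by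
    intro i hi
    simp only [mem_range] at hi ⊢
    omega
  rw [sum_subset hsub]
  · refine sum_congr rfl fun i _ => ?_
    generalize f.getD i 0 = a
    generalize col.getD (f.length - 1 + t - i) 0 = b
    have ha := Int.toNat_sub_toNat_neg a
    have hb := Int.toNat_sub_toNat_neg b
    generalize ((a.toNat : ℕ) : ℤ) = a1 at ha ⊢
    generalize (((-a).toNat : ℕ) : ℤ) = a2 at ha ⊢
    generalize ((b.toNat : ℕ) : ℤ) = b1 at hb ⊢
    generalize (((-b).toNat : ℕ) : ℤ) = b2 at hb ⊢
    subst ha hb
    ring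
  · intro i _ hi
    rw [List.getD_eq_default _ _ (by simpa using hi), zero_mul]

theorem pos_lt {w : ℕ} {l : List ℤ} (h : Wd w l) : ∀ c ∈ pos l, c < 2 ^ w := by
  intro c hc
  obtain ⟨z, hz, rfl⟩ := List.mem_map.1 hc
  have h1 := abs_lt.1 (h z hz)
  have h2 : (0 : ℤ) < 2 ^ w := by positivity
  zify
  omega

theorem neg_lt {w : ℕ} {l : List ℤ} (h : Wd w l) : ∀ c ∈ neg l, c < 2 ^ w := by
  intro c hc
  obtain ⟨z, hz, rfl⟩ := List.mem_map.1 hc
  have h1 := abs_lt.1 (h z hz)
  have h2 : (0 : ℤ) < 2 ^ w := by positivity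
  zify
  omega

section tc

variable {ι : Type} [PTCode ι] {D : ι → Prop} {T : ι → ℕ}

theorem tc_pos {l : ι → List ℤ} (hl : TC D T l) : TC D T (fun x => pos (l x)) :=
  TC.map (TC.intToNat TC.id) hl

theorem tc_neg {l : ι → List ℤ} (hl : TC D T l) : TC D T (fun x => neg (l x)) :=
  TC.map (TC.intToNat (TC.intNeg TC.id)) hl

theorem tc_win {n : ι → ℕ} {c : ι → List ℕ} (hn : TU D T n) (hc : TC D T c) :
    TC D T (fun x => win (n x) (c x)) :=
  TC.takeD hn (TC.drop (hn.sub (TU.const 1)) hc) (TC.const 0)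
    ((Bud.const 0).mono fun x _ => by simp [sz_nat])

end tc

end MidTC

open MidTC

/-- **the middle product** from the convolution of lists of naturals; general length bound -/
theorem tc_mid' {μ : ℕ → ℕ → ℕ} (h : M4.SpecConv μ) :
    ∃ S : List ℤ × List ℤ → ℕ, TC (fun _ => True) S (fun q => mid q.1 q.2) ∧
      ∀ (r w : ℕ) (f col : List ℤ), f.length ≤ r → col.length ≤ r → Wd w f → Wd w col →
        S (f, col) ≤ μ r w := by
  obtain ⟨conv, T, hc, hT, hμ⟩ := h
  refine ⟨fun q => max (max (T (pos q.1, pos q.2)) (T (neg q.1, neg q.2)))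
    (max (T (pos q.1, neg q.2)) (T (neg q.1, pos q.2))), ?_, ?_⟩
  · have hn : ∀ S : List ℤ × List ℤ → ℕ, TU (fun _ => True) S (fun q => q.1.length) :=
      fun S => TU.length TC.id.fst
    have key : ∀ (S : List ℤ × List ℤ → ℕ) (a b : List ℤ × List ℤ → List ℕ),
        TC (fun _ => True) S a → TC (fun _ => True) S b → (∀ q, T (a q, b q) ≤ S q) →
        TC (fun _ => True) S (fun q => win q.1.length (conv (a q) (b q))) :=
      fun S a b ha hb hS => tc_win (hn S) (TC.comp (f := fun q => (a q, b q)) hT (ha.prodMk hb)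
        (fun _ _ => trivial) (Bud.self.mono fun q _ => hS q))
    refine (TC.zipWith (f := fun x y : ℕ => (x : ℤ) - (y : ℤ))
      (TC.intSub TC.id.fst.intNatCast TC.id.snd.intNatCast)
      (TC.zipWith (f := fun x y : ℕ => x + y) (TC.natAdd TC.id.fst TC.id.snd)
        (key _ _ _ (tc_pos TC.id.fst) (tc_pos TC.id.snd) ?_)
        (key _ _ _ (tc_neg TC.id.fst) (tc_neg TC.id.snd) ?_))
      (TC.zipWith (f := fun x y : ℕ => x + y) (TC.natAdd TC.id.fst TC.id.snd)
        (key _ _ _ (tc_pos TC.id.fst) (tc_neg TC.id.snd) ?_)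
        (key _ _ _ (tc_neg TC.id.fst) (tc_pos TC.id.snd) ?_))).of_eq
      (fun q => (mid_eq hc q.1 q.2).symm) <;> intro q <;> omega
  · intro r w f col hf hcol wf wc
    have h1 := hμ r w (pos f) (pos col) (by simpa [pos] using hf) (by simpa [pos] using hcol)
      (pos_lt wf) (pos_lt wc)
    have h2 := hμ r w (neg f) (neg col) (by simpa [neg] using hf) (by simpa [neg] using hcol)
      (neg_lt wf) (neg_lt wc)
    have h3 := hμ r w (pos f) (neg col) (by simpa [pos] using hf) (by simpa [neg] using hcol)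
      (pos_lt wf) (neg_lt wc)
    have h4 := hμ r w (neg f) (pos col) (by simpa [neg] using hf) (by simpa [pos] using hcol)
      (neg_lt wf) (pos_lt wc)
    simp only
    omega

/-- **the middle product of one column** (the form consumed by `FB/PolyTC.lean`) -/
theorem tc_mid {μ : ℕ → ℕ → ℕ} (h : M4.SpecConv μ) :
    ∃ S : List ℤ × List ℤ → ℕ, TC (fun _ => True) S (fun q => mid q.1 q.2) ∧
      ∀ (β w : ℕ) (f col : List ℤ), f.length = 2 ^ β → col.length = 2 ^ (β + 1) → Wd w f →
        Wd w col → S (f, col) ≤ μ (2 ^ (β + 1)) w + 2 ^ β * (w + β + 1) := by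
  obtain ⟨S, hS, hb⟩ := tc_mid' h
  refine ⟨S, hS, fun β w f col hf hcol wf wc => ?_⟩
  refine (hb (2 ^ (β + 1)) w f col ?_ hcol.le wf wc).trans (Nat.le_add_right _ _)
  rw [hf, pow_succ]
  omega

end Crest.Agent.X326.FB
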