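import Crest.Agent.X326.FB.PolyWd
import Crest.Agent.X326.FB.MidTC
import Crest.Agent.X326.TC.MergeSpec

/-!
# Row 326, filter bank: running time of one level on lists
-/

set_option autoImplicit false

namespace Crest.Agent.X326.FB

open Crest.Agent.Lib.PT Finset

namespace PolyTC

section lin

variable {α : Type} [PTCode α]

theorem lin_glueCols : Lin (fun q : List (List α) × List (List α) => glueCols q.1 q.2) :=
  TC.zipWith (f := fun a b : List α => a ++ b) (TC.append TC.id.fst TC.id.snd) TC.id.fst TC.id.snd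

theorem lin_pairUp : Lin (pairUp (α := α)) :=
  TC.map (TC.comp₂ lin_glueCols (TC.headD TC.id (TC.const [])) (TC.headD TC.id.tail (TC.const [])))
    (TC.chunks (TU.const 2) TC.id)

theorem lin_halve : Lin (halve (α := α)) := by
  have h2 : LinU (fun c : List α => c.length / 2) := TU.div (TU.length TC.id) (TU.const 2)
  exact TC.flatMap (TC.listCons (TC.map (TC.take h2 TC.id) TC.id)
    (TC.listCons (TC.map (TC.drop h2 TC.id) TC.id) (TC.const []))) TC.id

theorem sz_tab3 {n X c s : ℕ} (hX : 0 < X) (hc : 0 < c) {f : ℕ → ℕ → ℕ → α}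
    (h : ∀ i x j, sz (f i x j) ≤ s) :
    sz (tab n fun i => tab X fun x => tab c (f i x)) ≤ n * c * X * (8 * s + 7) := by
  refine (sz_tab_le (s := X * (2 * (c * (2 * s + 1)) + 1)) fun i _ =>
    sz_tab_le (s := c * (2 * s + 1)) fun x _ => sz_tab_le fun j _ => h i x j).trans ?_
  obtain ⟨X, rfl⟩ : ∃ k, X = k + 1 := ⟨X - 1, by omega⟩
  obtain ⟨c, rfl⟩ : ∃ k, c = k + 1 := ⟨c - 1, by omega⟩
  rw [mul_assoc, mul_assoc]
  refine Nat.mul_le_mul_left n ?_
  nlinarith [Nat.zero_le (c * X), Nat.zero_le (c * X * s), Nat.zero_le (c * s), Nat.zero_le (X * s)]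

theorem sz_tab2 {n c s : ℕ} (hc : 0 < c) {f : ℕ → ℕ → α} (h : ∀ i j, sz (f i j) ≤ s) :
    sz (tab n fun i => tab c (f i)) ≤ n * c * (4 * s + 3) := by
  refine (sz_tab_le (s := c * (2 * s + 1)) fun i _ => sz_tab_le fun j _ => h i j).trans ?_
  obtain ⟨c, rfl⟩ : ∃ k, c = k + 1 := ⟨c - 1, by omega⟩
  rw [mul_assoc]
  refine Nat.mul_le_mul_left n ?_
  nlinarith [Nat.zero_le (c * s)]

end lin

/-- normal form of the inputs of `core`; `N` bounds the number of entries -/
def CoreOk (Z β w N : ℕ) (tb up : List (List ℤ)) : Prop :=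
  ∃ (n P : ℕ) (F U : ℕ → ℕ → ℤ), 0 < n ∧ 0 < P ∧ 0 < Z ∧
    tb = (tab P fun ρ => tab (2 ^ β) (F ρ)) ∧ up = (tab (n * 2 ^ β) fun i => tab (P * Z) (U i)) ∧
    (∀ ρ m, |F ρ m| < 2 ^ w) ∧ (∀ i x, |U i x| < 2 ^ w) ∧ n * 2 ^ β * (P * Z) ≤ N

theorem CoreOk.sz_pairUp {Z β w N : ℕ} {tb up : List (List ℤ)} (h : CoreOk Z β w N tb up)
    {i : ℕ} (hi : i ≤ β) :
    sz (pairUp^[i] (up.map (List.map fun v => [v]))) ≤ N * (8 * (w + 3) + 7) := by
  obtain ⟨n, P, F, U, -, hP, hZ, -, rfl, -, hU, hN⟩ := h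
  obtain ⟨j, rfl⟩ : ∃ j, β = j + i := ⟨β - i, by omega⟩
  have e : (tab (n * 2 ^ (j + i)) fun i => tab (P * Z) (U i)).map (List.map fun v => [v]) =
      tab (n * 2 ^ j * 2 ^ i) fun k => tab (P * Z) fun x => tab 1 fun t => U (k * 1 + t) x := by
    rw [map_tab]
    refine tab_congr' (by ring) fun k _ => ?_
    rw [map_tab]
    exact tab_congr fun x _ => by simp [tab_one]
  rw [e, pairUp_iter]
  refine (sz_tab3 (Nat.mul_pos hP hZ) (by positivity)
    fun _ _ _ => sz_int_le_of_abs_lt (hU _ _)).trans (Nat.mul_le_mul_right _ (le_trans ?_ hN))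
  exact le_of_eq (by ring)

theorem CoreOk.sz_halve {Z β w N : ℕ} {tb up : List (List ℤ)} (h : CoreOk Z β w N tb up)
    {i : ℕ} (hi : i ≤ β) :
    sz (halve^[i] (filtered Z β tb up)) ≤ N * (8 * (w + w + β + 3) + 7) := by
  obtain ⟨n, P, F, U, -, hP, hZ, rfl, rfl, hF, hU, hN⟩ := h
  have hc := fun N x => abs_corr_lt (L := n * 2 ^ β) (β := β) (Z := Z) hF hU N x
  rw [filtered_tab]
  generalize corr (n * 2 ^ β) (2 ^ β) Z F U = G at hc
  have e : 2 ^ β = 2 ^ (β - i) * 2 ^ i := by rw [← pow_add, Nat.sub_add_cancel hi]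
  rw [e] at hN ⊢
  rw [halve_iter]
  refine (sz_tab3 (Nat.mul_pos hP hZ) (by positivity)
    fun _ _ _ => sz_int_le_of_abs_lt (hc _ _)).trans (Nat.mul_le_mul_right _ (le_trans ?_ hN))
  exact le_of_eq (by ring)

theorem flatMap_replicate_tab (P Z B : ℕ) (F : ℕ → ℕ → ℤ) :
    (tab P fun ρ => tab B (F ρ)).flatMap (List.replicate Z) =
      tab (P * Z) fun x => tab B (F (x / Z)) :=
  flatMap_tab P Z _ _ (fun ρ _ => tab B (F ρ)) (fun _ _ => replicate_eq_tab _ _)

theorem CoreOk.sz_tb {Z β w N : ℕ} {tb up : List (List ℤ)} (h : CoreOk Z β w N tb up) :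
    Z * sz tb ≤ N * (4 * (w + 3) + 3) ∧ tb.length * Z ≤ N := by
  obtain ⟨n, P, F, U, hn, hP, hZ, rfl, -, hF, -, hN⟩ := h
  have h1 := sz_tab2 (n := P) (c := 2 ^ β) (f := F) (by positivity)
    fun _ _ => sz_int_le_of_abs_lt (hF _ _)
  have h2 : 1 * 2 ^ β * (P * Z) ≤ N :=
    le_trans (Nat.mul_le_mul_right _ (Nat.mul_le_mul_right _ hn)) hN
  refine ⟨(Nat.mul_le_mul_left Z h1).trans ?_, ?_⟩
  · rw [← mul_assoc]
    exact Nat.mul_le_mul_right _ (le_trans (le_of_eq (by ring)) h2)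
  · rw [length_tab]
    refine le_trans ?_ h2
    exact Nat.le_mul_of_pos_left _ (by positivity)

/-- the blocks glued with their successors -/
def doubled (β : ℕ) (up : List (List ℤ)) : List (List (List ℤ)) :=
  List.zipWith glueCols (blocksOf β up) ((blocksOf β up).rotate 1)

theorem CoreOk.sz_ctx {Z β w N : ℕ} {tb up : List (List ℤ)} (h : CoreOk Z β w N tb up) :
    (doubled β up).length * sz (tb.flatMap (List.replicate Z)) ≤ N * (4 * (w + 3) + 3) := by
  obtain ⟨n, P, F, U, hn, hP, hZ, rfl, rfl, hF, -, hN⟩ := h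
  rw [doubled, doubled_tab, length_tab, flatMap_replicate_tab]
  have h1 := sz_tab2 (n := P * Z) (c := 2 ^ β) (f := fun x => F (x / Z)) (by positivity)
    fun _ _ => sz_int_le_of_abs_lt (hF _ _)
  refine (Nat.mul_le_mul_left n h1).trans ?_
  rw [← mul_assoc]
  exact Nat.mul_le_mul_right _ (le_trans (le_of_eq (by ring)) hN)

theorem wd_tab {w n : ℕ} {f : ℕ → ℤ} (h : ∀ i, |f i| < 2 ^ w) : Wd w (tab n f) :=
  forall_mem_tab.2 fun i _ => h i

theorem CoreOk.sum_mid {Z β w N : ℕ} {tb up : List (List ℤ)} (h : CoreOk Z β w N tb up)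
    {S : List ℤ × List ℤ → ℕ} {m : ℕ}
    (hS : ∀ f col : List ℤ, f.length ≤ 2 ^ (β + 1) → col.length ≤ 2 ^ (β + 1) → Wd w f →
      Wd w col → S (f, col) ≤ m) :
    ((doubled β up).map fun b => (((tb.flatMap (List.replicate Z)).zip b).map S).sum).sum ≤
      N / 2 ^ β * m := by
  obtain ⟨n, P, F, U, hn, hP, hZ, rfl, rfl, hF, hU, hN⟩ := h
  rw [doubled, doubled_tab, flatMap_replicate_tab, map_tab, sum_tab]
  have h1 : n * (P * Z) ≤ N / 2 ^ β :=
    (Nat.le_div_iff_mul_le (by positivity)).2 (le_trans (le_of_eq (by ring)) hN)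
  refine le_trans (sum_le_card_nsmul _ _ (P * Z * m) fun b _ => ?_) ?_
  · rw [zip_tab, map_tab, sum_tab]
    refine le_trans (sum_le_card_nsmul _ _ m fun x _ => hS _ _ ?_ ?_ (wd_tab fun _ => hF _ _)
      (wd_tab fun _ => hU _ _)) (by simp)
    · rw [length_tab, pow_succ]; omega
    · rw [length_tab, pow_succ]; omega
  · rw [card_range, smul_eq_mul, ← mul_assoc]
    exact Nat.mul_le_mul_right _ h1

section tc

variable {ι : Type} [PTCode ι] {D : ι → Prop} {T : ι → ℕ} {μ : ℕ → ℕ → ℕ}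

theorem bud_lin {N β w : ι → ℕ} (hB : Bud D T (fun a => bandCost μ (N a) (β a) (w a))) :
    Bud D T (fun a => (β a + 1) * (N a * (31 * (w a + β a + 1)))) :=
  (hB.const_mul 31).mono fun a _ => by
    unfold bandCost
    refine le_trans ?_ (Nat.mul_le_mul_left 31 (Nat.le_add_right _ _))
    exact le_of_eq (by ring)

theorem bud_one {N β w g : ι → ℕ} (hB : Bud D T (fun a => bandCost μ (N a) (β a) (w a)))
    (h : ∀ a, D a → g a ≤ N a * (31 * (w a + β a + 1))) : Bud D T g :=
  (bud_lin hB).mono fun a ha => (h a ha).trans (Nat.le_mul_of_pos_left _ (Nat.succ_pos _))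

theorem tc_upRows {ai : ι → ℕ} {rows : ι → List (List ℤ)} (hai : TU D T ai) (hr : TC D T rows)
    (hB : Bud D T (fun a => ai a * ((rows a).length + (rows a).flatten.length))) :
    TC D T (fun a => upRows (ai a) (rows a)) := by
  have h0 : TC (fun _ => True) (fun q : Un × List ℤ => q.1.val * q.2.length)
      (fun q => q.2 :: List.replicate q.1.val (q.2.map fun _ => (0 : ℤ))) := by
    refine TC.listCons TC.id.snd (TC.replicate (TU.val TC.id.fst)
      (TC.map (TC.const 0) TC.id.snd) ((Bud.self.mul_const (2 * sz (0 : ℤ) + 1)).mono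
        fun q _ => ?_))
    rw [List.map_const', sz_replicate, mul_assoc]
  refine TC.flatMapCtx (c := fun a => Un.mk (ai a - 1))
    (f := fun k r => r :: List.replicate k.val (r.map fun _ => (0 : ℤ))) h0
    (hai.sub (TU.const 1)) hr (fun _ _ _ _ => trivial) (hB.mono fun a _ => ?_)
    (hB.mono fun a _ => ?_)
  · simp only [List.sum_map_mul_left, ← List.length_flatten]
    exact Nat.mul_le_mul (Nat.sub_le _ _) (Nat.le_add_left _ _)
  · rw [sz_un, mul_comm]
    exact Nat.mul_le_mul (Nat.sub_le _ _) (Nat.le_add_right _ _)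

theorem tc_downRows {α : Type} [PTCode α] {ao : ι → ℕ} {rows : ι → List (List α)}
    (hao : TU D T ao) (hr : TC D T rows) : TC D T (fun a => downRows (ao a) (rows a)) :=
  TC.map (TC.headD TC.id (TC.const [])) (TC.chunks hao hr)

theorem tc_core (hμ : M4.SpecConv μ) {Z ao β w N : ι → ℕ} {tb up : ι → List (List ℤ)}
    (hZ : TU D T Z) (hao : TU D T ao) (hβ : TU D T β) (htb : TC D T tb) (hup : TC D T up)
    (hok : ∀ a, D a → CoreOk (Z a) (β a) (w a) (N a) (tb a) (up a))
    (hB : Bud D T (fun a => bandCost μ (N a) (β a) (w a))) :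
    TC D T (fun a => core (Z a) (ao a) (β a) (tb a) (up a)) := by
  obtain ⟨S, hS, hSb⟩ := tc_mid' hμ
  have hblk : TC D T (fun a => blocksOf (β a) (up a)) := by
    refine TC.iterate_le lin_pairUp hβ (TC.map (TC.map (TC.singleton TC.id) TC.id) hup)
      (fun a => N a * (31 * (w a + β a + 1))) (fun a ha i hi => ⟨trivial, ?_⟩)
      ((bud_lin hB).mono fun a _ => Nat.mul_le_mul_right _ (Nat.le_succ _))
    rw [Nat.zero_add]
    exact ((hok a ha).sz_pairUp hi.le).trans (Nat.mul_le_mul_left _ (by omega))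
  have hdbl : TC D T (fun a => doubled (β a) (up a)) :=
    TC.zipWith lin_glueCols hblk (TC.rotate_of_mod hblk (TU.mod (TU.const 1) (TU.length hblk)))
  have hctx : TC D T (fun a => (tb a).flatMap (List.replicate (Z a))) := by
    refine TC.flatMapCtx (c := fun a => Un.mk (Z a)) (f := fun k r => List.replicate k.val r)
      TC.replicateU hZ htb (fun _ _ _ _ => trivial) (bud_one hB fun a ha => ?_)
      (bud_one hB fun a ha => ?_)
    · obtain ⟨h1, h2⟩ := (hok a ha).sz_tb
      have h3 := Nat.mul_le_mul_left (Z a) (sum_map_sz_le (tb a))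
      simp only [List.sum_map_mul_left]
      rw [sum_map_add_const, mul_add, mul_one, mul_comm (Z a) (tb a).length]
      refine (Nat.add_le_add (h3.trans h1) h2).trans ?_
      rw [← mul_add_one]
      exact Nat.mul_le_mul_left _ (by omega)
    · rw [sz_un]
      exact (hok a ha).sz_tb.2.trans (Nat.le_mul_of_pos_right _ (by omega))
  have hzip : TC (fun _ => True) (fun q : List (List ℤ) × List (List ℤ) => ((q.1.zip q.2).map S).sum)
      (fun q => List.zipWith mid q.1 q.2) :=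
    TC.zipWith' hS TC.id.fst TC.id.snd (fun _ _ _ _ => trivial) Bud.self
  have hfil : TC D T (fun a => filtered (Z a) (β a) (tb a) (up a)) := by
    refine TC.mapCtx (f := fun c m => List.zipWith mid c m) hzip hctx hdbl (fun _ _ _ _ => trivial)
      (hB.mono fun a ha => ?_) (bud_one hB fun a ha => ?_)
    · exact ((hok a ha).sum_mid (hSb (2 ^ (β a + 1)) (w a))).trans (Nat.le_add_left _ _)
    · exact (hok a ha).sz_ctx.trans (Nat.mul_le_mul_left _ (by omega))
  have hhalf : TC D T (fun a => halve^[β a] (filtered (Z a) (β a) (tb a) (up a))) := by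
    refine TC.iterate_le lin_halve hβ hfil
      (fun a => N a * (31 * (w a + β a + 1))) (fun a ha i hi => ⟨trivial, ?_⟩)
      ((bud_lin hB).mono fun a _ => Nat.mul_le_mul_right _ (Nat.le_succ _))
    rw [Nat.zero_add]
    exact ((hok a ha).sz_halve hi.le).trans (Nat.mul_le_mul_left _ (by omega))
  exact (tc_downRows hao (TC.map Lin.flatten hhalf)).flatten

theorem coreOk_level {Z ν ai β w : ℕ} {tb : List (List ℤ)} {x : List ℤ} (hai : 0 < ai)
    (hν : ai ≤ ν) (h : LevelOk Z ν ai β tb x) (ht : ∀ r ∈ tb, Wd w r) (hx : Wd w x) (s : ℕ) :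
    CoreOk Z β w (ν * x.length) tb ((upRows ai (chunks (tb.length * Z) x)).rotate s) := by
  obtain ⟨R, hR, hl, n, hn⟩ := h.shape
  have hn0 : 0 < n := by
    rcases Nat.eq_zero_or_pos n with rfl | h0
    · exact absurd hn (Nat.mul_pos hR hai).ne'
    · exact h0
  refine ⟨n, tb.length, fun ρ m => (tb.getD ρ []).getD m 0,
    upFun (tb.length * Z) ai (n * 2 ^ β) s x, hn0, h.tb_pos, h.Z_pos, eq_tab_tab h.row_len, ?_,
    abs_getD_getD_lt ht, abs_upFun_lt hx _ _ _ _, ?_⟩
  · rw [up_eq_tab (R := R) (Nat.mul_pos h.tb_pos h.Z_pos) hai (by rw [hl, mul_assoc]) s, hn,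
      Nat.mul_comm (2 ^ β) n]
  · rw [Nat.mul_comm n, ← hn, hl]
    exact le_trans (le_of_eq (by ring)) (Nat.mul_le_mul_right _ hν)

theorem tc_up {Z ν ai β w : ι → ℕ} {tb : ι → List (List ℤ)} {x : ι → List ℤ}
    (hZ : TU D T Z) (hai : TU D T ai) (htb : TC D T tb) (hx : TC D T x)
    (hν : ∀ a, ai a ≤ ν a) (hok : ∀ a, D a → LevelOk (Z a) (ν a) (ai a) (β a) (tb a) (x a))
    (hB : Bud D T (fun a => bandCost μ (ν a * (x a).length) (β a) (w a))) :
    TC D T (fun a => upRows (ai a) (chunks ((tb a).length * Z a) (x a))) := by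
  have hX : TU D T (fun a => (tb a).length * Z a) := by
    refine TU.mul (TU.length htb) hZ ((TC.bud_length hx).mono fun a ha => ?_)
    obtain ⟨R, hR, hl, -⟩ := (hok a ha).shape
    rw [hl, mul_assoc]
    exact Nat.le_mul_of_pos_left _ hR
  refine tc_upRows hai (TC.chunks hX hx) (bud_one hB fun a ha => ?_)
  rw [flatten_chunks (Nat.mul_pos (hok a ha).tb_pos (hok a ha).Z_pos), mul_assoc]
  refine Nat.mul_le_mul (hν a) ?_
  have h1 := length_chunks_le ((tb a).length * Z a) (x a)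
  have h2 : (x a).length * 2 ≤ (x a).length * (31 * (w a + β a + 1)) :=
    Nat.mul_le_mul_left _ (by omega)
  omega

end tc

end PolyTC

open PolyTC

/-- **time of one analysis level** -/
theorem anaLTC {μ : ℕ → ℕ → ℕ} (hμ : M4.SpecConv μ) : AnaLTC μ := by
  intro ι _ D T Z ν β w tb x hZ hν hβ htb hx hok hB
  have hup := tc_up hZ hν htb hx (fun _ => le_rfl) (fun a ha => (hok a ha).1) hB
  refine tc_core hμ hZ (hν.sub (TU.const 1)) hβ htb
    (TC.rotate_of_mod hup (TU.mod (((TU.length hup).add (TU.const 1)).sub hν) (TU.length hup)))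
    (fun a ha => coreOk_level ?_ le_rfl (hok a ha).1 (hok a ha).2.1 (hok a ha).2.2 _) hB
  have := (hok a ha).1.two_le
  omega

/-- **time of one synthesis level** -/
theorem synLTC {μ : ℕ → ℕ → ℕ} (hμ : M4.SpecConv μ) : SynLTC μ := by
  intro ι _ D T Z ν β w tb x hZ hν hβ htb hx hok hB
  have hup := tc_up hZ (hν.sub (TU.const 1)) htb hx (fun _ => Nat.sub_le _ _)
    (fun a ha => (hok a ha).1) hB
  have h2 : TU D T (fun a => 2 ^ β a) := by
    refine TU.twoPow hβ (bud_one hB fun a ha => ?_)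
    obtain ⟨R, hR, hl, hd⟩ := (hok a ha).1.shape
    have h1 := (hok a ha).1.two_le
    have h3 : R ≤ (x a).length := by
      rw [hl, mul_assoc]
      exact Nat.le_mul_of_pos_right _ (Nat.mul_pos (hok a ha).1.tb_pos (hok a ha).1.Z_pos)
    refine (Nat.le_of_dvd (Nat.mul_pos hR (by omega)) hd).trans ?_
    rw [mul_comm]
    exact (Nat.mul_le_mul (Nat.sub_le _ _) h3).trans (Nat.le_mul_of_pos_right _ (by omega))
  refine tc_core hμ hZ hν hβ htb
    (TC.rotate_of_mod hup (TU.mod (((TU.length hup).add hν).sub h2) (TU.length hup)))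
    (fun a ha => coreOk_level ?_ (Nat.sub_le _ _) (hok a ha).1 (hok a ha).2.1 (hok a ha).2.2 _) hB
  have := (hok a ha).1.two_le
  omega

end Crest.Agent.X326.FB
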