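import Crest.Agent.X326.FB.Kernel

/-!
# Row 326, filter bank: the one-level identity for the flat operators `ana`, `syn`
-/

set_option autoImplicit false

namespace Crest.Agent.X326.FB

open Finset

/-! ### the operator `band` -/

theorem band_apply' {P Z ρ z : ℕ} (R ao ai j : ℕ) (φ : ℕ → ℤ → ℤ) (a : Arr) (hρ : ρ < P)
    (hz : z < Z) :
    band P Z R ao ai φ a ((j * P + ρ) * Z + z) =
      ∑ i ∈ range R, (φ ρ ((j : ℤ) * ao - i * ai) + φ ρ ((j : ℤ) * ao - i * ai - R * ai)) *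
        a ((i * P + ρ) * Z + z) := by
  rw [band_apply _ _ hρ hz, two_mul, sum_range_add, ← sum_add_distrib]
  simp only [Nat.cast_mul]
  refine sum_congr rfl fun i hi => ?_
  have hi' := mem_range.1 hi
  have e : (j : ℤ) * ao - ((R + i : ℕ) : ℤ) * ai = j * ao - i * ai - R * ai := by
    push_cast
    ring
  rw [Nat.add_mod_left, Nat.mod_eq_of_lt hi', e, add_mul (φ ρ _)]

/-! ### the groups -/

section Groups

variable {N M' Q P : ℕ}

/-- the map `j ↦ j Q` -/
noncomputable def iota (hN : N = M' * Q) : ZMod M' →+ ZMod N :=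
  ZMod.lift M' ⟨zmultiplesHom (ZMod N) (Q : ZMod N), by
    rw [zmultiplesHom_apply, natCast_zsmul, nsmul_eq_mul, ← Nat.cast_mul, ← hN,
      ZMod.natCast_self]⟩

theorem iota_intCast (hN : N = M' * Q) (c : ℤ) :
    iota hN (c : ZMod M') = ((c * Q : ℤ) : ZMod N) := by
  rw [iota, ZMod.lift_coe]
  simp

theorem iota_val [NeZero M'] (hN : N = M' * Q) (j : ZMod M') :
    iota hN j = ((j.val * Q : ℤ) : ZMod N) := by
  rw [← iota_intCast hN]
  simp

/-- reduction modulo `P` -/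
def piP (hP : P ∣ N) : ZMod N →+ ZMod P := (ZMod.castHom hP (ZMod P)).toAddMonoidHom

theorem piP_val [NeZero N] (hP : P ∣ N) (l : ZMod N) : piP hP l = (l.val : ZMod P) := by
  simp [piP]

theorem intCast_val_of_nonneg [NeZero N] {t : ℤ} (h0 : 0 ≤ t) (h1 : t < N) :
    (((t : ZMod N).val : ℕ) : ℤ) = t := by
  rw [ZMod.val_intCast, Int.emod_eq_of_lt h0 h1]

theorem intCast_val_of_neg [NeZero N] {t : ℤ} (h0 : -(N : ℤ) ≤ t) (h1 : t < 0) :
    (((t : ZMod N).val : ℕ) : ℤ) = t + N := by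
  rw [ZMod.val_intCast, ← Int.add_emod_right, Int.emod_eq_of_lt (by omega) (by omega)]

/-- periodisation of a function supported in `[0, N)` -/
theorem fold_val [NeZero N] {f : ℤ → ℤ} (hf : ∀ t, t < 0 ∨ (N : ℤ) ≤ t → f t = 0) {t : ℤ}
    (h0 : -(N : ℤ) ≤ t) (h1 : t < N) : f t + f (t + N) = f (t : ZMod N).val := by
  rcases lt_or_ge t 0 with h | h
  · rw [intCast_val_of_neg h0 h, hf t (Or.inl h), zero_add]
  · rw [intCast_val_of_nonneg h h1, hf (t + N) (Or.inr (by omega)), add_zero]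

theorem sum_iota [NeZero N] [NeZero M'] (hN : N = M' * Q) (y : ZMod N) (f : ℕ → ℤ) :
    ∑ j : ZMod M', f (y - iota hN j).val =
      ∑ t ∈ (range N).filter (fun t : ℕ => (t : ℤ) ≡ y.val [ZMOD Q]), f t := by
  have hQ : 0 < Q := Nat.pos_of_ne_zero fun h => NeZero.ne N (by rw [hN, h, Nat.mul_zero])
  have hQN : (Q : ℤ) ∣ N := ⟨M', by rw [hN]; push_cast; ring⟩
  refine sum_bij (fun j _ => (y - iota hN j).val) ?_ ?_ ?_ ?_
  · intro j _
    refine mem_filter.2 ⟨mem_range.2 (ZMod.val_lt _), ?_⟩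
    have h1 : y - iota hN j = (((y.val : ℤ) - j.val * Q : ℤ) : ZMod N) := by
      rw [iota_val]
      simp
    rw [h1, ZMod.val_intCast]
    refine ((Int.mod_modEq _ _).of_dvd hQN).trans ?_
    exact Int.modEq_iff_dvd.2 ⟨j.val, by ring⟩
  · intro j₁ _ j₂ _ h
    have h1 : iota hN j₁ = iota hN j₂ := sub_right_injective (ZMod.val_injective N h)
    rw [iota_val, iota_val, ZMod.intCast_eq_intCast_iff_dvd_sub, hN, ← sub_mul] at h1
    push_cast at h1
    have h2 := Int.dvd_of_mul_dvd_mul_right (by exact_mod_cast hQ.ne') h1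
    have h3 := (ZMod.intCast_eq_intCast_iff_dvd_sub (j₁.val : ℤ) j₂.val M').2 h2
    simpa using h3
  · intro t ht
    obtain ⟨ht1, ht2⟩ := mem_filter.1 ht
    obtain ⟨c, hc⟩ := Int.modEq_iff_dvd.1 ht2
    refine ⟨(c : ZMod M'), mem_univ _, ?_⟩
    have h1 : y - iota hN (c : ZMod M') = (t : ZMod N) := by
      rw [iota_intCast, mul_comm c, ← hc]
      simp
    rw [h1, ZMod.val_cast_of_lt (mem_range.1 ht1)]
  · intro j _
    rfl

end Groups

/-! ### the taps on `ZMod N` -/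

section Taps

variable {N M M' Q P p δ E : ℕ} {g h : ℤ → ℤ}

/-- the causal synthesis taps on `ZMod N` -/
def Gz (N δ : ℕ) (g : ℤ → ℤ) (x : ZMod N) : ℤ := g ((x.val : ℤ) - 2 * δ)

/-- the causal analysis taps on `ZMod N` -/
def Hz (N δ : ℕ) (h : ℤ → ℤ) (x : ZMod N) : ℤ := h ((δ : ℤ) - x.val)

theorem Taps.g_zero (T : Taps P Q p δ E g h) {t : ℤ} (ht : t < 0 ∨ (4 * δ : ℤ) < t) :
    g (t - 2 * δ) = 0 := by
  refine T.supp_g _ ?_
  rcases ht with ht | ht
  · rw [abs_of_neg (by omega)]; omega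
  · rw [abs_of_pos (by omega)]; omega

theorem Taps.h_zero (T : Taps P Q p δ E g h) {t : ℤ} (ht : t < 0 ∨ (2 * δ : ℤ) < t) :
    h (δ - t) = 0 := by
  refine T.supp_h _ ?_
  rcases ht with ht | ht
  · rw [abs_of_pos (by omega)]; omega
  · rw [abs_of_neg (by omega)]; omega

theorem Taps.Gz_cast [NeZero N] (T : Taps P Q p δ E g h) (hδ : 6 * δ < N) {D : ℤ}
    (h0 : -(2 * δ : ℤ) ≤ D) (h1 : D < N) : Gz N δ g (D : ZMod N) = g (D - 2 * δ) := by
  unfold Gz
  rcases lt_or_ge D 0 with h | h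
  · rw [intCast_val_of_neg (by omega) h, T.g_zero (Or.inr (by omega)), T.g_zero (Or.inl h)]
  · rw [intCast_val_of_nonneg h h1]

theorem sum_abs_le_of_supp [NeZero N] {f : ℕ → ℤ} {K : ℕ} {B : ℤ} (hB : ∀ t, |f t| ≤ B)
    (hf : ∀ t, K ≤ t → f t = 0) : ∑ x : ZMod N, |f x.val| ≤ K * B := by
  have hB0 : 0 ≤ B := (abs_nonneg _).trans (hB 0)
  rw [sum_zmod N fun t => |f t|]
  calc ∑ t ∈ range N, |f t| ≤ ∑ t ∈ range N ∪ range K, |f t| :=
        sum_le_sum_of_subset_of_nonneg subset_union_left fun _ _ _ => abs_nonneg _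
    _ = ∑ t ∈ range K, |f t| := by
        refine (sum_subset subset_union_right fun t _ ht => ?_).symm
        rw [hf t (by simpa using ht), abs_zero]
    _ ≤ ∑ _t ∈ range K, B := sum_le_sum fun t _ => hB t
    _ = K * B := by simp

theorem Taps.sum_Gz [NeZero N] (T : Taps P Q p δ E g h) :
    ∑ x, |Gz N δ g x| ≤ 2 ^ p * gain P δ := by
  refine (sum_abs_le_of_supp (N := N) (f := fun t => g ((t : ℤ) - 2 * δ)) (K := 4 * δ + 1)
    (fun t => T.abs_g _) fun t ht => T.g_zero (Or.inr (by omega))).trans (le_of_eq ?_)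
  simp only [gain]
  push_cast
  ring

theorem Taps.sum_Hz [NeZero N] (T : Taps P Q p δ E g h) :
    ∑ x, |Hz N δ h x| ≤ 2 ^ p * gain P δ := by
  refine (sum_abs_le_of_supp (N := N) (f := fun t => h ((δ : ℤ) - t)) (K := 4 * δ + 1)
    (fun t => T.abs_h _) fun t ht => T.h_zero (Or.inr (by omega))).trans (le_of_eq ?_)
  simp only [gain]
  push_cast
  ring

theorem Taps.sum_Hz_iota [NeZero N] [NeZero M'] (T : Taps P Q p δ E g h) (hN : N = M' * Q)
    (y : ZMod N) : ∑ j, |Hz N δ h (y - iota hN j)| ≤ 2 ^ p * gain P δ := by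
  refine le_trans ?_ (T.sum_Hz (N := N))
  unfold Hz
  rw [sum_iota hN y fun t => |h ((δ : ℤ) - t)|, sum_zmod N fun t => |h ((δ : ℤ) - t)|]
  exact sum_le_sum_of_subset_of_nonneg (filter_subset _ _) fun _ _ _ => abs_nonneg _

theorem Taps.interp_zmod [NeZero N] [NeZero M'] (T : Taps P Q p δ E g h) (hN : N = M' * Q)
    (hδ : 6 * δ < N) (x y : ZMod N) :
    |∑ j, Gz N δ g (x - iota hN j) * Hz N δ h (y - iota hN j) -
      2 ^ p * Gz N δ g (x - y + (δ : ZMod N))| ≤ E := by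
  set D : ℤ := ((x - y + 2 * δ : ZMod N).val : ℤ) - 2 * δ with hD
  have hD0 : -(2 * δ : ℤ) ≤ D := by omega
  have hD1 : D + 2 * δ < N := by
    have := ZMod.val_lt (x - y + 2 * δ : ZMod N)
    omega
  have hDc : (D : ZMod N) = x - y := by
    rw [hD]
    simp
  have h1 : ∀ j, Gz N δ g (x - iota hN j) * Hz N δ h (y - iota hN j) =
      g (D + (y - iota hN j).val - 2 * δ) * h ((δ : ℤ) - (y - iota hN j).val) := by
    intro j
    by_cases ht : (2 * δ : ℤ) < (y - iota hN j).val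
    · unfold Hz
      rw [T.h_zero (Or.inr ht), mul_zero, mul_zero]
    · rw [← T.Gz_cast hδ (by omega) (by omega)]
      unfold Hz
      congr 2
      push_cast
      rw [hDc]
      simp
  have h2 : Gz N δ g (x - y + (δ : ZMod N)) = g (D - δ) := by
    rw [show D - δ = D + δ - 2 * δ by ring, ← T.Gz_cast hδ (by omega) (by omega)]
    congr 1
    push_cast
    rw [hDc]
  simp only [h1]
  rw [h2, sum_iota hN y fun t => g (D + t - 2 * δ) * h ((δ : ℤ) - t)]
  have h3 := T.interp (D - δ) ((δ : ℤ) - y.val)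
  convert h3 using 3
  symm
  refine sum_bij_ne_zero (fun m _ _ => ((δ : ℤ) - m).toNat) ?_ ?_ ?_ ?_
  · intro m hm _
    obtain ⟨hm1, hm2⟩ := mem_filter.1 hm
    rw [mem_Icc] at hm1
    refine mem_filter.2 ⟨mem_range.2 (by omega), ?_⟩
    rw [Int.toNat_of_nonneg (by omega)]
    have := (Int.ModEq.refl (δ : ℤ)).sub hm2
    simpa using this
  · intro m₁ hm₁ _ m₂ hm₂ _ hm
    have h₁ := mem_Icc.1 (mem_filter.1 hm₁).1
    have h₂ := mem_Icc.1 (mem_filter.1 hm₂).1
    omega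
  · intro t ht hne
    obtain ⟨_, ht2⟩ := mem_filter.1 ht
    have ht3 : ¬ (2 * δ : ℤ) < t := fun hlt => hne (by rw [T.h_zero (Or.inr hlt), mul_zero])
    refine ⟨(δ : ℤ) - t, mem_filter.2 ⟨mem_Icc.2 ⟨by omega, by omega⟩,
      (Int.ModEq.refl (δ : ℤ)).sub ht2⟩, ?_, by simp⟩
    rwa [show D - δ - (δ - t) = D + t - 2 * δ by ring]
  · intro m hm _
    have h₁ := mem_Icc.1 (mem_filter.1 hm).1
    rw [Int.toNat_of_nonneg (by omega)]
    congr 2 <;> ring

theorem Taps.nyq_zmod [NeZero N] (T : Taps P Q p δ E g h) (hP : P ∣ N) (hδ : 6 * δ < N)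
    (x : ZMod N) (hx : piP hP x = 0) :
    Gz N δ g (x + (δ : ZMod N) + (δ : ZMod N)) = if x = 0 then 2 ^ p else 0 := by
  rw [piP_val, ZMod.natCast_eq_zero_iff] at hx
  obtain ⟨n, hn⟩ := hx
  obtain ⟨M, hM⟩ := hP
  have hxN := ZMod.val_lt x
  have hP0 : 0 < P := Nat.pos_of_ne_zero fun h => NeZero.ne N (by rw [hM, h, Nat.zero_mul])
  by_cases hlt : (x.val : ℤ) + 2 * δ < N
  · have h1 : x + (δ : ZMod N) + (δ : ZMod N) = (((x.val : ℤ) + 2 * δ : ℤ) : ZMod N) := by
      push_cast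
      simp only [ZMod.natCast_val, ZMod.cast_id', id_eq]
      ring
    rw [h1, T.Gz_cast hδ (by omega) hlt, add_sub_cancel_right, hn, Nat.cast_mul, mul_comm, T.nyq]
    have : ((n : ℤ) = 0) ↔ x = 0 := by
      rw [← ZMod.val_eq_zero, hn]
      constructor
      · intro h0
        have : n = 0 := by exact_mod_cast h0
        simp [this]
      · intro h0
        rcases Nat.mul_eq_zero.1 h0 with h0 | h0
        · omega
        · simp [h0]
    simp only [this]
  · have h1 : x + (δ : ZMod N) + (δ : ZMod N) = (((x.val : ℤ) + 2 * δ - N : ℤ) : ZMod N) := by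
      push_cast
      simp only [ZMod.natCast_val, ZMod.cast_id', id_eq, ZMod.natCast_self]
      ring
    have hnM : n < M := by
      rw [hn, hM] at hxN
      exact Nat.lt_of_mul_lt_mul_left hxN
    have h2 : (x.val : ℤ) + 2 * δ - N - 2 * δ = ((n : ℤ) - M) * P := by
      rw [hn, hM]
      push_cast
      ring
    rw [h1, T.Gz_cast hδ (by omega) (by omega), h2, T.nyq, if_neg (by omega), if_neg]
    rintro rfl
    simp at hlt
    omega

end Taps

/-! ### `ana`, `syn` and `cyc` in terms of the groups -/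

section Level

variable {N M M' Q P p δ E Z : ℕ} {g h : ℤ → ℤ}

theorem ana_blk [NeZero N] [NeZero M'] [NeZero P] (T : Taps P Q p δ E g h) (hM : N = M * P)
    (hN : N = M' * Q) (hP : P ∣ N) (hδ : 6 * δ < N) (a : Arr) (j : ZMod M') (ρ : ZMod P) :
    Agree Z (blk Z (j.val * P + ρ.val) (ana P Q M Z δ h a))
      (anaG (iota hN) (piP hP) (Hz N δ h) (fun l => blk Z l.val a) j ρ) := by
  intro z hz
  have hρ := ZMod.val_lt ρ
  have hj : (j.val : ℤ) * Q < N := by
    have hQ : 0 < Q := Nat.pos_of_ne_zero fun h => NeZero.ne N (by rw [hN, h, Nat.mul_zero])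
    have : j.val * Q < N := by
      rw [hN]
      exact Nat.mul_lt_mul_of_pos_right (ZMod.val_lt j) hQ
    exact_mod_cast this
  have hj0 : 0 ≤ (j.val : ℤ) * Q := by positivity
  simp only [blk, ana, anaG, Finset.sum_apply, Pi.smul_apply, smul_eq_mul, piP_val]
  rw [band_apply' _ _ _ _ _ _ hρ hz]
  have h1 := sum_zmod N fun l : ℕ => (if (l : ZMod P) = ρ then
    Hz N δ h ((l : ZMod N) - iota hN j) else 0) * a (l * Z + z)
  simp only [ZMod.natCast_val, ZMod.cast_id', id_eq] at h1 ⊢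
  rw [h1]
  rw [show range N = range (M * P) by rw [hM], sum_range_mul]
  refine sum_congr rfl fun i hi => ?_
  have hi' : i * P + ρ.val < N := hM ▸ idx_lt (mem_range.1 hi) hρ
  rw [sum_eq_single ρ.val]
  · rw [if_pos (by simp)]
    congr 1
    have h2 := fold_val (N := N) (f := fun t => h ((δ : ℤ) - t))
      (fun t ht => T.h_zero (by omega)) (t := ((i * P + ρ.val : ℕ) : ℤ) - j.val * Q)
      (by omega) (by omega)
    have h3 : ((((i * P + ρ.val : ℕ) : ℤ) - j.val * Q : ℤ) : ZMod N) =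
        ((i * P + ρ.val : ℕ) : ZMod N) - iota hN j := by
      rw [iota_val]
      simp
    rw [h3] at h2
    unfold Hz
    rw [← h2]
    have hMP : (N : ℤ) = M * P := by exact_mod_cast hM
    simp only [ZMod.natCast_val]
    congr 2 <;> · push_cast [hMP]; simp only [ZMod.natCast_val]; ring
  · intro ρ' hρ' hne
    rw [if_neg, zero_mul]
    intro h0
    apply hne
    have : (ρ' : ZMod P) = ρ := by simpa using h0
    rw [← this, ZMod.val_cast_of_lt (mem_range.1 hρ')]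
  · intro h0
    exact absurd (mem_range.2 hρ) h0

theorem syn_blk [NeZero N] [NeZero M'] [NeZero P] (T : Taps P Q p δ E g h)
    (hN : N = M' * Q) (hP : P ∣ N) (hδ : 6 * δ < N) (c : Arr) (l : ZMod N) :
    Agree Z (blk Z l.val (syn P Q M' Z δ g c))
      (synG (iota hN) (piP hP) (Gz N δ g) (fun j ρ => blk Z (j.val * P + ρ.val) c) l) := by
  intro z hz
  have hP0 : 0 < P := Nat.pos_of_ne_zero (NeZero.ne P)
  have hQ : 0 < Q := Nat.pos_of_ne_zero fun h => NeZero.ne N (by rw [hN, h, Nat.mul_zero])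
  have hl := ZMod.val_lt l
  simp only [blk, syn, synG, Finset.sum_apply, Pi.smul_apply, smul_eq_mul, piP_val,
    ZMod.val_natCast]
  conv_lhs => rw [← Nat.div_add_mod' l.val P]
  rw [band_apply' _ _ _ _ _ _ (Nat.mod_lt _ hP0) hz, ← sum_zmod M']
  refine sum_congr rfl fun j _ => ?_
  congr 1
  have hj : (j.val : ℤ) * Q < N := by
    have : j.val * Q < N := by
      rw [hN]
      exact Nat.mul_lt_mul_of_pos_right (ZMod.val_lt j) hQ
    exact_mod_cast this
  have hj0 : 0 ≤ (j.val : ℤ) * Q := by positivity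
  have h2 := fold_val (N := N) (f := fun t => g (t - 2 * δ))
    (fun t ht => T.g_zero (by omega)) (t := (l.val : ℤ) - j.val * Q) (by omega) (by omega)
  have h3 : (((l.val : ℤ) - j.val * Q : ℤ) : ZMod N) = l - iota hN j := by
    rw [iota_val]
    simp
  rw [h3] at h2
  unfold Gz
  rw [← h2, add_comm]
  have hMQ : (N : ℤ) = M' * Q := by exact_mod_cast hN
  have hl2 : (l.val : ℤ) = (l.val / P : ℕ) * P + (l.val % P : ℕ) := by
    exact_mod_cast (Nat.div_add_mod' l.val P).symm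
  congr 2
  · rw [hl2, Nat.cast_mul]
    ring
  · rw [hl2, hMQ, Nat.cast_mul]
    ring

theorem cyc2_blk [NeZero M'] [NeZero P] {μ : Arr → Arr → Arr} (A B : Arr) (j : ZMod M')
    (ρ : ZMod P) :
    Agree Z (blk Z (j.val * P + ρ.val) (cyc M' (P * Z) (cyc P Z μ) A B))
      (∑ j₁ : ZMod M', ∑ ρ₁ : ZMod P, μ (blk Z (j₁.val * P + ρ₁.val) A)
        (blk Z ((j - j₁).val * P + (ρ - ρ₁).val) B)) := by
  rw [← blk_blk]
  refine ((cyc_blk (cyc P Z μ) A B j).blk (ZMod.val_lt ρ)).trans fun z hz => ?_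
  simp only [blk, Finset.sum_apply]
  refine sum_congr rfl fun j₁ _ => ?_
  have := cyc_blk μ (blk (P * Z) j₁.val A) (blk (P * Z) (j - j₁).val B) ρ z hz
  simp only [blk_blk, Finset.sum_apply] at this
  exact this

theorem l1_grid [NeZero M'] [NeZero P] (c : Arr) :
    l1 (M' * (P * Z)) c = ∑ j : ZMod M', ∑ ρ : ZMod P, l1 Z (blk Z (j.val * P + ρ.val) c) := by
  rw [l1_zmod]
  refine sum_congr rfl fun j _ => ?_
  rw [l1_zmod]
  simp only [blk_blk]

theorem synG_congr {X J R : Type*} [AddCommGroup X] [AddCommGroup J] [Fintype J]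
    [AddCommGroup R] (ι : J →+ X) (π : X →+ R) (G : X → ℤ) {c c' : J → R → Arr}
    (hc : ∀ j ρ, Agree Z (c j ρ) (c' j ρ)) (l : X) : Agree Z (synG ι π G c l) (synG ι π G c' l) := by
  intro z hz
  simp only [synG, Finset.sum_apply, Pi.smul_apply]
  exact sum_congr rfl fun j _ => by rw [hc j _ z hz]

/-- **the one-level identity** -/
theorem bank_level {μ : Arr → Arr → Arr} (hμ : Bil Z μ) (T : Taps P Q p δ E g h)
    (hM : N = M * P) (hN : N = M' * Q) (hδ : 6 * δ < N) (a b : Arr) :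
    l1 (N * Z) (syn P Q M' Z δ g (cyc M' (P * Z) (cyc P Z μ) (ana P Q M Z δ h a)
        (ana P Q M Z δ h b)) - ((2 : ℤ) ^ (3 * p)) • cyc N Z μ a b) ≤
      N * ((2 ^ p * gain P δ + 2 ^ p) * E) * (l1 (N * Z) a * l1 (N * Z) b) := by
  have : NeZero N := ⟨by omega⟩
  have : NeZero M' := ⟨fun h0 => NeZero.ne N (by rw [hN, h0, Nat.zero_mul])⟩
  have : NeZero P := ⟨fun h0 => NeZero.ne N (by rw [hM, h0, Nat.mul_zero])⟩
  have hP : P ∣ N := ⟨M, by rw [hM, Nat.mul_comm]⟩
  have key := bank_abstract hμ (iota hN) (piP hP) (Gz N δ g) (Hz N δ h) (δ : ZMod N) (2 ^ p) E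
    (2 ^ p * gain P δ) (T.interp_zmod hN hδ) (T.sum_Hz_iota hN) (T.nyq_zmod hP hδ)
    (fun l => blk Z l.val a) (fun l => blk Z l.val b)
  rw [l1_zmod, l1_zmod N Z a, l1_zmod N Z b]
  rw [ZMod.card, abs_of_pos (by positivity), ← add_mul] at key
  refine le_trans (le_of_eq (sum_congr rfl fun l _ => l1_congr fun z hz => ?_)) key
  rw [blk_sub, blk_smul]
  simp only [Pi.sub_apply, Pi.smul_apply]
  rw [cyc_blk μ a b l z hz, syn_blk T hN hP hδ _ l z hz,
    show (2 : ℤ) ^ (3 * p) = 2 ^ p * 2 ^ p * 2 ^ p by ring]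
  congr 1
  refine synG_congr _ _ _ (fun j ρ => (cyc2_blk _ _ j ρ).trans fun z hz => ?_) l z hz
  simp only [Finset.sum_apply]
  refine sum_congr rfl fun j₁ _ => sum_congr rfl fun ρ₁ _ => ?_
  exact hμ.congr (ana_blk T hM hN hP hδ a _ _) (ana_blk T hM hN hP hδ b _ _) hz

end Level

end Crest.Agent.X326.FB
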