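import Crest.Agent.X326.FB.Norms

/-!
# Row 326, filter bank: elementary lemmas on `l1`, `blk`, `Bil`, `nega`, `cyc`, `tower`
-/

set_option autoImplicit false

namespace Crest.Agent.X326.FB

open Finset

/-- two arrays agree on the first `n` entries -/
def Agree (n : ℕ) (a b : Arr) : Prop := ∀ x < n, a x = b x

theorem Agree.refl (n : ℕ) (a : Arr) : Agree n a a := fun _ _ => rfl

theorem Agree.symm {n : ℕ} {a b : Arr} (h : Agree n a b) : Agree n b a :=
  fun x hx => (h x hx).symm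

theorem Agree.trans {n : ℕ} {a b c : Arr} (h : Agree n a b) (h' : Agree n b c) : Agree n a c :=
  fun x hx => (h x hx).trans (h' x hx)

theorem Agree.mono {n m : ℕ} {a b : Arr} (h : Agree n a b) (hm : m ≤ n) : Agree m a b :=
  fun x hx => h x (hx.trans_le hm)

/-! ### `blk` -/

theorem blk_blk (P Z j ρ : ℕ) (a : Arr) : blk Z ρ (blk (P * Z) j a) = blk Z (j * P + ρ) a := by
  funext z
  simp only [blk]
  congr 1
  ring

theorem idx_lt {n Z i z : ℕ} (hi : i < n) (hz : z < Z) : i * Z + z < n * Z := by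
  calc i * Z + z < i * Z + Z := by omega
    _ = (i + 1) * Z := by ring
    _ ≤ n * Z := Nat.mul_le_mul_right _ hi

theorem idx_div {Z z : ℕ} (i : ℕ) (hz : z < Z) : (i * Z + z) / Z = i := by
  rw [Nat.add_comm, Nat.add_mul_div_right _ _ (by omega), Nat.div_eq_of_lt hz, Nat.zero_add]

theorem idx_mod {Z z : ℕ} (i : ℕ) (hz : z < Z) : (i * Z + z) % Z = z := by
  rw [Nat.add_comm, Nat.add_mul_mod_self_right, Nat.mod_eq_of_lt hz]

theorem Agree.blk {n Z i : ℕ} {a b : Arr} (h : Agree (n * Z) a b) (hi : i < n) :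
    Agree Z (blk Z i a) (blk Z i b) := fun _ hz => h _ (idx_lt hi hz)

theorem agree_of_blk {n Z : ℕ} {a b : Arr} (h : ∀ i < n, Agree Z (blk Z i a) (blk Z i b)) :
    Agree (n * Z) a b := fun x hx => by
  have hZ : 0 < Z := Nat.pos_of_ne_zero (by rintro rfl; simp at hx)
  have h1 : x / Z < n := (Nat.div_lt_iff_lt_mul hZ).2 hx
  have := h _ h1 _ (Nat.mod_lt x hZ)
  simpa only [blk, Nat.div_add_mod'] using this

/-! ### sums over `ZMod` -/

theorem sum_zmod {β : Type*} [AddCommMonoid β] (n : ℕ) [NeZero n] (f : ℕ → β) :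
    ∑ x : ZMod n, f x.val = ∑ i ∈ range n, f i := by
  refine sum_nbij' (fun x => x.val) (fun i => (i : ZMod n)) ?_ ?_ ?_ ?_ ?_
  · intro x _
    exact mem_range.2 (ZMod.val_lt x)
  · intro i _
    exact mem_univ _
  · intro x _
    simp
  · intro i hi
    exact ZMod.val_cast_of_lt (mem_range.1 hi)
  · intro x _
    rfl

theorem val_sub_eq {n : ℕ} [NeZero n] (x y : ZMod n) :
    (x - y).val = (x.val + (n - y.val)) % n := by
  have hy := ZMod.val_lt y
  have : x - y = ((x.val + (n - y.val) : ℕ) : ZMod n) := by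
    push_cast [Nat.cast_sub hy.le]
    simp [sub_eq_add_neg]
  rw [this, ZMod.val_natCast]

theorem l1_zmod (n : ℕ) [NeZero n] (Z : ℕ) (a : Arr) :
    l1 (n * Z) a = ∑ x : ZMod n, l1 Z (blk Z x.val a) := by
  rw [l1_mul, ← sum_zmod n fun i => l1 Z (blk Z i a)]

/-! ### `cyc` -/

theorem cyc_blk {n : ℕ} [NeZero n] {Z : ℕ} (μ : Arr → Arr → Arr) (a b : Arr) (x : ZMod n) :
    Agree Z (blk Z x.val (cyc n Z μ a b))
      (∑ y : ZMod n, μ (blk Z y.val a) (blk Z (x - y).val b)) := by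
  intro z hz
  simp only [blk, cyc, idx_div _ hz, idx_mod _ hz, Finset.sum_apply]
  rw [← sum_zmod n fun i => μ (blk Z i a) (blk Z ((x.val + (n - i)) % n) b) z]
  refine sum_congr rfl fun y _ => ?_
  rw [val_sub_eq]

end Crest.Agent.X326.FB
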