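import Crest.Agent.Lib.PT.ArithInt
import Crest.Agent.Lib.PT.ListFns2

/-!
# Coefficients of integer polynomials in polynomial time, by Kronecker substitution

`pl1 p` is the sum of the absolute values of the coefficients. If the value of `p` at `2 ^ w` is
computable in polynomial time and `2 * pl1 p < 2 ^ w`, then every coefficient is a balanced digit
of that value, hence computable in polynomial time.
-/

set_option autoImplicit false

namespace Crest.Agent.X326.FB

open Polynomial Finset Crest.Agent.Lib.PT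

/-! ### the `pl1` norm of an integer polynomial -/

/-- sum of the absolute values of the coefficients -/
noncomputable def pl1 (p : ℤ[X]) : ℕ := ∑ i ∈ p.support, (p.coeff i).natAbs

theorem pl1_eq_sum {p : ℤ[X]} {s : Finset ℕ} (hs : p.support ⊆ s) :
    pl1 p = ∑ i ∈ s, (p.coeff i).natAbs := by
  refine Finset.sum_subset hs (fun i _ hi => ?_)
  rw [Polynomial.notMem_support_iff.1 hi]
  rfl

theorem sum_le_pl1 (p : ℤ[X]) (s : Finset ℕ) : ∑ i ∈ s, (p.coeff i).natAbs ≤ pl1 p := by
  rw [pl1_eq_sum (s := p.support ∪ s) Finset.subset_union_left]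
  exact Finset.sum_le_sum_of_subset Finset.subset_union_right

theorem natAbs_coeff_le_pl1 (p : ℤ[X]) (i : ℕ) : (p.coeff i).natAbs ≤ pl1 p := by
  simpa using sum_le_pl1 p {i}

theorem pl1_zero : pl1 0 = 0 := by simp [pl1]

theorem pl1_monomial (n : ℕ) (a : ℤ) : pl1 (monomial n a) = a.natAbs := by
  rw [pl1_eq_sum (support_monomial_subset n a)]
  simp

theorem pl1_C (a : ℤ) : pl1 (C a) = a.natAbs := by
  rw [← monomial_zero_left, pl1_monomial]

theorem pl1_one : pl1 1 = 1 := by
  rw [← C_1, pl1_C]; rfl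

theorem pl1_X : pl1 X = 1 := by
  rw [← monomial_one_one_eq_X, pl1_monomial]; rfl

theorem pl1_neg (p : ℤ[X]) : pl1 (-p) = pl1 p := by simp [pl1]

theorem pl1_add_le (p q : ℤ[X]) : pl1 (p + q) ≤ pl1 p + pl1 q := by
  rw [pl1_eq_sum (s := p.support ∪ q.support) support_add,
    pl1_eq_sum (s := p.support ∪ q.support) Finset.subset_union_left,
    pl1_eq_sum (s := p.support ∪ q.support) Finset.subset_union_right, ← Finset.sum_add_distrib]
  exact Finset.sum_le_sum (fun i _ => by rw [coeff_add]; exact Int.natAbs_add_le _ _)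

theorem pl1_sub_le (p q : ℤ[X]) : pl1 (p - q) ≤ pl1 p + pl1 q := by
  rw [sub_eq_add_neg, ← pl1_neg q]
  exact pl1_add_le _ _

theorem pl1_sum_le {ι : Type} (s : Finset ι) (f : ι → ℤ[X]) :
    pl1 (∑ i ∈ s, f i) ≤ ∑ i ∈ s, pl1 (f i) := by
  classical
  induction s using Finset.induction_on with
  | empty => simp [pl1_zero]
  | insert i s hi ih =>
    rw [Finset.sum_insert hi, Finset.sum_insert hi]
    exact (pl1_add_le _ _).trans (Nat.add_le_add_left ih _)

theorem pl1_mul_le (p q : ℤ[X]) : pl1 (p * q) ≤ pl1 p * pl1 q := by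
  rw [Polynomial.mul_eq_sum_sum]
  refine (pl1_sum_le _ _).trans ?_
  unfold Polynomial.sum
  conv_rhs => rw [pl1, pl1, Finset.sum_mul_sum]
  refine Finset.sum_le_sum (fun i _ => (pl1_sum_le _ _).trans (le_of_eq ?_))
  exact Finset.sum_congr rfl (fun j _ => by rw [pl1_monomial, Int.natAbs_mul])

theorem pl1_pow_le (p : ℤ[X]) (n : ℕ) : pl1 (p ^ n) ≤ pl1 p ^ n := by
  induction n with
  | zero => simp [pl1_one]
  | succ n ih =>
    rw [pow_succ, pow_succ]
    exact (pl1_mul_le _ _).trans (Nat.mul_le_mul_right _ ih)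

theorem pl1_prod_le {ι : Type} (s : Finset ι) (f : ι → ℤ[X]) :
    pl1 (∏ i ∈ s, f i) ≤ ∏ i ∈ s, pl1 (f i) := by
  classical
  induction s using Finset.induction_on with
  | empty => simp [pl1_one]
  | insert i s hi ih =>
    rw [Finset.prod_insert hi, Finset.prod_insert hi]
    exact (pl1_mul_le _ _).trans (Nat.mul_le_mul_left _ ih)

theorem pl1_X_pow (n : ℕ) : pl1 (X ^ n) = 1 := by
  rw [← monomial_one_right_eq_X_pow, pl1_monomial]; rfl

theorem pl1_comp_X_pow_le (p : ℤ[X]) (n : ℕ) : pl1 (p.comp (X ^ n)) ≤ pl1 p := by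
  rw [Polynomial.comp, Polynomial.eval₂_eq_sum, Polynomial.sum]
  refine (pl1_sum_le _ _).trans (Finset.sum_le_sum (fun i _ => (pl1_mul_le _ _).trans ?_))
  rw [← pow_mul, pl1_X_pow, pl1_C, mul_one]

theorem pl1_expand_le (p : ℤ[X]) (n : ℕ) : pl1 (expand ℤ n p) ≤ pl1 p := by
  rw [Polynomial.coe_expand]
  exact pl1_comp_X_pow_le p n

/-! ### balanced digits -/

/-- the balanced digit number `m` of `V` in base `2 * H` -/
def balDigit (H V : ℤ) (m : ℕ) : ℤ :=
  (V + H * ∑ i ∈ range (m + 1), (2 * H) ^ i) / (2 * H) ^ m % (2 * H) - H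

theorem digits_lt {B : ℤ} (c : ℕ → ℤ) (h : ∀ i, 0 ≤ c i ∧ c i < B) (m : ℕ) :
    0 ≤ ∑ i ∈ range m, c i * B ^ i ∧ ∑ i ∈ range m, c i * B ^ i < B ^ m := by
  have hB : 0 < B := (h 0).1.trans_lt (h 0).2
  induction m with
  | zero => simp
  | succ m ih =>
    rw [Finset.sum_range_succ, pow_succ]
    have h1 : 0 < B ^ m := pow_pos hB m
    have h2 := h m
    constructor
    · have := mul_nonneg h2.1 h1.le
      omega
    · have : (c m + 1) * B ^ m ≤ B * B ^ m := mul_le_mul_of_nonneg_right (by omega) h1.le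
      nlinarith [ih.2]

theorem coeff_eq_balDigit (p : ℤ[X]) {H : ℤ} (h : ∀ i, |p.coeff i| < H) (m : ℕ) :
    p.coeff m = balDigit H (p.eval (2 * H)) m := by
  have hH : 0 < H := (abs_nonneg _).trans_lt (h 0)
  set B : ℤ := 2 * H with hB
  have hB0 : 0 < B := by omega
  obtain ⟨R, hR⟩ : ∃ R : ℤ, p.eval B = ∑ i ∈ range (m + 1), p.coeff i * B ^ i + B ^ (m + 1) * R := by
    refine ⟨∑ i ∈ range p.natDegree, p.coeff (m + 1 + i) * B ^ i, ?_⟩
    rw [Polynomial.eval_eq_sum_range' (n := m + 1 + p.natDegree) (by omega), Finset.sum_range_add,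
      Finset.mul_sum]
    congr 1
    exact Finset.sum_congr rfl (fun i _ => by ring)
  have hd := digits_lt (B := B) (fun i => p.coeff i + H)
    (fun i => by have := abs_lt.1 (h i); constructor <;> omega) m
  have e : p.eval B + H * ∑ i ∈ range (m + 1), B ^ i =
      ∑ i ∈ range m, (p.coeff i + H) * B ^ i + B ^ m * (p.coeff m + H + B * R) := by
    rw [hR, Finset.mul_sum, Finset.sum_range_succ, Finset.sum_range_succ]
    simp only [add_mul, Finset.sum_add_distrib]
    ring
  have hm := abs_lt.1 (h m)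
  unfold balDigit
  rw [← hB, e, Int.add_mul_ediv_left _ _ (pow_pos hB0 m).ne', Int.ediv_eq_zero_of_lt hd.1 hd.2,
    zero_add, Int.add_mul_emod_self_left, Int.emod_eq_of_lt (by omega) (by omega)]
  ring

variable {α : Type} [PTCode α]

theorem ptf_balDigit {H V : α → ℤ} {m : α → ℕ} (hH : PTF H) (hV : PTF V) (hm : PTU m) :
    PTF (fun a => balDigit (H a) (V a) (m a)) := by
  have h1 : PTF (fun a => ∑ i ∈ range (m a + 1), (2 * H a) ^ (min i (m a))) := by
    refine PTF.intSumRange (f := fun a i => (2 * H a) ^ (min i (m a))) hm.succ ?_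
    exact PTF.intPow (PTF.intMul (PTF.const _) (hH.comp PTF.fst))
      (PTF.natMinUn PTF.snd (hm.comp PTF.fst))
  have h2 : PTF (fun a => ∑ i ∈ range (m a + 1), (2 * H a) ^ i) :=
    h1.of_eq (fun a => Finset.sum_congr rfl (fun i hi => by
      rw [min_eq_left (Nat.lt_succ_iff.1 (Finset.mem_range.1 hi))]))
  have h3 : PTF (fun a => 2 * H a) := PTF.intMul (PTF.const _) hH
  exact PTF.intSub (PTF.intEmod (PTF.intEdiv (PTF.intAdd hV (PTF.intMul hH h2))
    (PTF.intPow h3 hm)) h3) hH

/-- Coefficients of a family of integer polynomials are poly-time as soon as evaluation is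
poly-time, the degree is bounded by a unary quantity and the `pl1` norm by `2 ^ w`, `w` unary. -/
theorem ptf_coeff {p : α → ℤ[X]} {w D m : α → ℕ} (hw : PTU w) (hD : PTU D) (hm : PTF m)
    (hev : PTF₂ (fun a (x : ℤ) => (p a).eval x)) (hl : ∀ a, pl1 (p a) ≤ 2 ^ w a)
    (hdeg : ∀ a, (p a).natDegree ≤ D a) : PTF (fun a => (p a).coeff (m a)) := by
  have hH : PTF (fun a => (2 : ℤ) ^ (w a + 1)) := PTF.intPow (PTF.const _) hw.succ
  have hV : PTF (fun a => (p a).eval (2 * (2 : ℤ) ^ (w a + 1))) :=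
    hev.comp₂ PTF.id (PTF.intMul (PTF.const _) hH)
  have h := ptf_balDigit hH hV (PTF.natMinUn hm hD.succ)
  refine h.of_eq (fun a => ?_)
  rw [← coeff_eq_balDigit]
  · rcases le_total (m a) (D a + 1) with h1 | h1
    · rw [min_eq_left h1]
    · rw [min_eq_right h1, coeff_eq_zero_of_natDegree_lt (by have := hdeg a; omega),
        coeff_eq_zero_of_natDegree_lt (by have := hdeg a; omega)]
  · intro i
    have h1 := (natAbs_coeff_le_pl1 (p a) i).trans (hl a)
    have h2 : ((((p a).coeff i).natAbs : ℕ) : ℤ) ≤ ((2 ^ w a : ℕ) : ℤ) := by exact_mod_cast h1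
    rw [Int.natCast_natAbs] at h2
    push_cast at h2
    have h3 : (0 : ℤ) < 2 ^ w a := by positivity
    rw [pow_succ]
    omega

end Crest.Agent.X326.FB
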