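import Crest.Agent.X326.FB.Poly

/-!
# Row 326, filter bank: normal forms, lengths and widths for one level on lists
-/

set_option autoImplicit false

namespace Crest.Agent.X326.FB

open Crest.Agent.Lib.PT Finset

theorem Wd.mono {w w' : ℕ} {l : List ℤ} (h : Wd w l) (hw : w ≤ w') : Wd w' l := fun v hv =>
  (h v hv).trans_le (pow_le_pow_right₀ (by norm_num) hw)

theorem Wd.getD {w : ℕ} {l : List ℤ} (h : Wd w l) (i : ℕ) : |l.getD i 0| < 2 ^ w := by
  by_cases hi : i < l.length
  · rw [List.getD_eq_getElem _ _ hi]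
    exact h _ (List.getElem_mem hi)
  · rw [List.getD_eq_default _ _ (not_lt.1 hi)]
    simp

/-- a table with rows of equal length is tabulated -/
theorem eq_tab_tab {tb : List (List ℤ)} {B : ℕ} (h : ∀ r ∈ tb, r.length = B) :
    tb = tab tb.length fun ρ => tab B fun m => (tb.getD ρ []).getD m 0 := by
  conv_lhs => rw [← tab_getD tb []]
  refine tab_congr fun ρ hρ => eq_tab (h _ ?_) 0
  rw [List.getD_eq_getElem _ _ hρ]
  exact List.getElem_mem hρ

theorem abs_getD_getD_lt {tb : List (List ℤ)} {wt : ℕ} (h : ∀ r ∈ tb, Wd wt r) (ρ m : ℕ) :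
    |(tb.getD ρ []).getD m 0| < 2 ^ wt := by
  by_cases hρ : ρ < tb.length
  · rw [List.getD_eq_getElem _ _ hρ]
    exact (h _ (List.getElem_mem hρ)).getD m
  · rw [List.getD_eq_default _ _ (not_lt.1 hρ)]
    simp

theorem abs_corr_lt {L β Z w wt : ℕ} {F U : ℕ → ℕ → ℤ} (hF : ∀ ρ m, |F ρ m| < 2 ^ wt)
    (hU : ∀ n x, |U n x| < 2 ^ w) (N x : ℕ) : |corr L (2 ^ β) Z F U N x| < 2 ^ (w + wt + β) := by
  have h1 : ∀ i, |F (x / Z) i * U ((N + (2 ^ β - 1 - i)) % L) x| < 2 ^ (w + wt) := fun i => by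
    rw [abs_mul, add_comm w, pow_add]
    exact mul_lt_mul'' (hF _ _) (hU _ _) (abs_nonneg _) (abs_nonneg _)
  calc |corr L (2 ^ β) Z F U N x|
      ≤ ∑ i ∈ range (2 ^ β), |F (x / Z) i * U ((N + (2 ^ β - 1 - i)) % L) x| :=
        abs_sum_le_sum_abs _ _
    _ < ∑ _i ∈ range (2 ^ β), (2 : ℤ) ^ (w + wt) :=
        sum_lt_sum_of_nonempty (nonempty_range_iff.2 (by positivity)) fun i _ => h1 i
    _ = _ := by rw [sum_const, card_range, pow_add _ (w + wt)]; simp [mul_comm]

/-- the rows that enter `core` -/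
def upFun (X ai L s : ℕ) (x : List ℤ) (n c : ℕ) : ℤ :=
  if (n + s) % L % ai = 0 then x.getD ((n + s) % L / ai * X + c) 0 else 0

theorem abs_upFun_lt {w : ℕ} {x : List ℤ} (h : Wd w x) (X ai L s n c : ℕ) :
    |upFun X ai L s x n c| < 2 ^ w := by
  unfold upFun
  split_ifs
  · exact h.getD _
  · simp

/-- normal form of the upsampled and rotated rows -/
theorem up_eq_tab {R X ai : ℕ} {x : List ℤ} (hX : 0 < X) (hai : 0 < ai) (hx : x.length = R * X)
    (s : ℕ) : (upRows ai (chunks X x)).rotate s =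
      tab (R * ai) fun n => tab X (upFun X ai (R * ai) s x n) := by
  conv_lhs => rw [eq_tab hx 0]
  rw [chunks_tab R hX, upRows_tab R _ hai, rotate_tab]
  rfl

theorem length_upRows' {R X ai : ℕ} {x : List ℤ} (hX : 0 < X) (hai : 0 < ai)
    (hx : x.length = R * X) : (upRows ai (chunks X x)).length = R * ai := by
  rw [eq_tab hx 0, length_upRows hX hai]

theorem mem_of_mem_downRows {α : Type} {ao : ℕ} {rows : List (List α)} {r : List α}
    (h : r ∈ downRows ao rows) : r = [] ∨ r ∈ rows := by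
  obtain ⟨c, hc, rfl⟩ := List.mem_map.1 h
  induction hl : rows.length using Nat.strong_induction_on generalizing rows with
  | _ k ih =>
    by_cases h0 : rows = [] ∨ ao = 0
    · rcases h0 with h0 | h0 <;> simp [h0] at hc
    · have h1 : rows ≠ [] := fun e => h0 (Or.inl e)
      have h3 : ao ≠ 0 := fun e => h0 (Or.inr e)
      have h2 : 0 < rows.length := List.length_pos_of_ne_nil h1
      rw [chunks_of_ne h3 h1, List.mem_cons] at hc
      rcases hc with rfl | hc
      · cases hr : rows.take ao with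
        | nil => exact Or.inl rfl
        | cons a l => exact Or.inr (List.mem_of_mem_take (hr ▸ List.mem_cons_self))
      · rcases ih (rows.drop ao).length (by simp; omega) hc (List.mem_map.2 ⟨c, hc, rfl⟩) rfl
          with h4 | h4
        · exact Or.inl h4
        · exact Or.inr (List.mem_of_mem_drop h4)

theorem wd_core {β n P Z ao w wt : ℕ} {F U : ℕ → ℕ → ℤ} (hF : ∀ ρ m, |F ρ m| < 2 ^ wt)
    (hU : ∀ n x, |U n x| < 2 ^ w) :
    Wd (w + wt + β) (core Z ao β (tab P fun ρ => tab (2 ^ β) (F ρ))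
      (tab (n * 2 ^ β) fun i => tab (P * Z) (U i))) := by
  have h := halve_iter β n (P * Z) 1 (corr (n * 2 ^ β) (2 ^ β) Z F U)
  simp only [Nat.one_mul] at h
  rw [core, filtered_tab, h, map_tab]
  simp only [flatten_tab_one, Nat.mul_one, Nat.add_zero]
  intro v hv
  obtain ⟨r, hr, hvr⟩ := List.mem_flatten.1 hv
  rcases mem_of_mem_downRows hr with rfl | hr
  · simp at hvr
  · obtain ⟨i, -, rfl⟩ := mem_tab.1 hr
    obtain ⟨c, -, rfl⟩ := mem_tab.1 hvr
    exact abs_corr_lt hF hU _ _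

theorem wd_level {Z ν ai ao β w wt s : ℕ} {tb : List (List ℤ)} {x : List ℤ} (hai : 0 < ai)
    (ht : ∀ r ∈ tb, Wd wt r) (hx : Wd w x) (h : LevelOk Z ν ai β tb x) :
    Wd (w + wt + β) (core Z ao β tb ((upRows ai (chunks (tb.length * Z) x)).rotate s)) := by
  obtain ⟨R, -, hl, n, hn⟩ := h.shape
  rw [up_eq_tab (R := R) (Nat.mul_pos h.tb_pos h.Z_pos) hai (by rw [hl, mul_assoc]) s, hn,
    Nat.mul_comm (2 ^ β) n]
  have := wd_core (β := β) (n := n) (P := tb.length) (Z := Z) (ao := ao)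
    (abs_getD_getD_lt ht) (abs_upFun_lt hx (tb.length * Z) ai (n * 2 ^ β) s)
  rwa [← eq_tab_tab h.row_len] at this

theorem widthStatement : WidthStatement := fun _ _ _ _ _ _ _ ht hx =>
  ⟨fun h => wd_level (by have := h.two_le; omega) ht hx h,
    fun h => wd_level (by have := h.two_le; omega) ht hx h⟩

end Crest.Agent.X326.FB
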