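import Crest.Agent.X326.FB.PolyAll
import Crest.Agent.X326.FB.PolyWd

/-!
# Row 326, filter bank on lists: the unconditional correctness statements
-/

set_option autoImplicit false

namespace Crest.Agent.X326.FB

theorem prepL_spec : PrepLStatement := prepL_of anaL_spec

theorem finishL_spec : FinishLStatement := finishL_of synL_spec

theorem prepLTC_of_level {μ : ℕ → ℕ → ℕ} (h : AnaLTC μ) : PrepLTC μ :=
  prepLTC_of anaL_spec widthStatement h

theorem finishLTC_of_level {μ : ℕ → ℕ → ℕ} (h : SynLTC μ) : FinishLTC μ :=
  finishLTC_of synL_spec widthStatement h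

end Crest.Agent.X326.FB
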