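import Crest.Agent.X326.FB.Defs

/-!
# Filter bank: the interpolation lemma

* `norm_coeff_le` : a coefficient of a complex polynomial is bounded by its sup norm on the circle.
* `interp_poly`   : finite Poisson summation for the product of two filters.
-/

set_option autoImplicit false
set_option linter.dupNamespace false

namespace Crest.Agent.X326.FB

open Polynomial Finset

/-- a coefficient is bounded by the sup norm on the unit circle -/
theorem norm_coeff_le (F : ℂ[X]) {B : ℝ} (h : ∀ z : ℂ, ‖z‖ = 1 → ‖F.eval z‖ ≤ B) (n : ℕ) :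
    ‖F.coeff n‖ ≤ B := by
  have : Fact (0 < 2 * Real.pi) := Fact.mk Real.two_pi_pos
  rw [← Polynomial.fourierCoeff_toAddCircle_natCast, fourierCoeff]
  have := MeasureTheory.norm_integral_le_of_norm_le_const
    (μ := (AddCircle.haarAddCircle : MeasureTheory.Measure (AddCircle (2 * Real.pi))))
    (f := fun t => fourier (-(n : ℤ)) t • F.toAddCircle t) (C := B)
    (Filter.Eventually.of_forall fun t => by
      rw [norm_smul, fourier_apply, Circle.norm_coe, one_mul]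
      have := h (AddCircle.toCircle t : ℂ) (Circle.norm_coe _)
      simpa [Polynomial.toAddCircle] using this)
  simpa using this

/-- sum of the powers of a primitive root of unity -/
theorem sum_root_pow {Q : ℕ} {ζ : ℂ} (hζ : IsPrimitiveRoot ζ Q) (hQ : 0 < Q) (m : ℤ) :
    ∑ u ∈ range Q, (ζ ^ u) ^ m = if (Q : ℤ) ∣ m then (Q : ℂ) else 0 := by
  have h0 : ζ ≠ 0 := hζ.ne_zero hQ.ne'
  have e : ∀ u : ℕ, (ζ ^ u) ^ m = (ζ ^ m) ^ u := fun u => by
    rw [← zpow_natCast, ← zpow_natCast, ← zpow_mul, ← zpow_mul, mul_comm]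
  simp only [e]
  split_ifs with h
  · rw [(hζ.zpow_eq_one_iff_dvd m).2 h]; simp
  · have h1 : ζ ^ m ≠ 1 := fun h' => h ((hζ.zpow_eq_one_iff_dvd m).1 h')
    rw [geom_sum_eq h1, ← e, hζ.pow_eq_one, one_zpow, sub_self, zero_div]

/-- **Interpolation lemma**, polynomial form. -/
theorem interp_poly (G H : ℂ[X]) (dh : ℕ) {Q : ℕ} (hQ : 0 < Q) {ε : ℝ}
    (A1 : ∀ z : ℂ, ‖z‖ = 1 → ‖G.eval z * (H.eval z - z ^ dh)‖ ≤ ε)
    (A2 : ∀ z w : ℂ, ‖z‖ = 1 → w ^ Q = 1 → w ≠ 1 → ‖G.eval z * H.eval (w * z)‖ ≤ ε)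
    (n : ℕ) (c : ℤ) :
    ‖(Q : ℂ) * (∑ ij ∈ antidiagonal n,
        if (Q : ℤ) ∣ (ij.2 : ℤ) - c then G.coeff ij.1 * H.coeff ij.2 else 0)
      - (G * X ^ dh).coeff n‖ ≤ Q * ε := by
  obtain ⟨ζ, hζ⟩ : ∃ ζ : ℂ, IsPrimitiveRoot ζ Q := ⟨_, Complex.isPrimitiveRoot_exp Q hQ.ne'⟩
  have h0 : ζ ≠ 0 := hζ.ne_zero hQ.ne'
  have hn1 : ‖ζ‖ = 1 := hζ.norm'_eq_one hQ.ne'
  have key : (Q : ℂ) * (∑ ij ∈ antidiagonal n,
        if (Q : ℤ) ∣ (ij.2 : ℤ) - c then G.coeff ij.1 * H.coeff ij.2 else 0)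
      = ∑ u ∈ range Q, (ζ ^ u) ^ (-c) * (G * H.comp (C (ζ ^ u) * X)).coeff n := by
    simp only [coeff_mul, Finset.mul_sum, comp_C_mul_X_coeff]
    rw [Finset.sum_comm]
    refine Finset.sum_congr rfl fun ij _ => ?_
    have : ∀ u : ℕ, (ζ ^ u) ^ (-c) * (G.coeff ij.1 * (H.coeff ij.2 * (ζ ^ u) ^ ij.2))
        = G.coeff ij.1 * H.coeff ij.2 * (ζ ^ u) ^ ((ij.2 : ℤ) - c) := fun u => by
      rw [sub_eq_add_neg, zpow_add₀ (pow_ne_zero u h0), zpow_natCast]; ring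
    simp only [this, ← Finset.mul_sum, sum_root_pow hζ hQ]
    split_ifs <;> ring
  rw [key]
  obtain ⟨Q', rfl⟩ : ∃ Q', Q = Q' + 1 := ⟨Q - 1, by omega⟩
  rw [Finset.sum_range_succ', add_sub_assoc]
  have b0 : ‖(ζ ^ 0) ^ (-c) * (G * H.comp (C (ζ ^ 0) * X)).coeff n - (G * X ^ dh).coeff n‖ ≤ ε := by
    have : (ζ ^ 0) ^ (-c) * (G * H.comp (C (ζ ^ 0) * X)).coeff n - (G * X ^ dh).coeff n
        = (G * (H - X ^ dh)).coeff n := by
      simp [mul_sub]
    rw [this]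
    exact norm_coeff_le _ (fun z hz => by simpa using A1 z hz) n
  have bu : ∀ u ∈ range Q', ‖(ζ ^ (u + 1)) ^ (-c) * (G * H.comp (C (ζ ^ (u + 1)) * X)).coeff n‖
      ≤ ε := fun u hu => by
    rw [norm_mul, norm_zpow, norm_pow, hn1, one_pow, one_zpow, one_mul]
    refine norm_coeff_le _ (fun z hz => ?_) n
    have h1 : (ζ ^ (u + 1)) ^ (Q' + 1) = 1 := by
      rw [← pow_mul, mul_comm, pow_mul, hζ.pow_eq_one, one_pow]
    have h2 : ζ ^ (u + 1) ≠ 1 :=
      hζ.pow_ne_one_of_pos_of_lt (by omega) (by simp at hu; omega)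
    simpa [eval_comp] using A2 z _ hz h1 h2
  calc _ ≤ ‖∑ u ∈ range Q', (ζ ^ (u + 1)) ^ (-c) * (G * H.comp (C (ζ ^ (u + 1)) * X)).coeff n‖
        + ε := (norm_add_le _ _).trans (by gcongr)
    _ ≤ (∑ _u ∈ range Q', ε) + ε := by
        gcongr
        exact (norm_sum_le _ _).trans (Finset.sum_le_sum bu)
    _ = ((Q' + 1 : ℕ) : ℝ) * ε := by simp; ring

/-- coefficient at an integer index (zero at negative indices) -/
noncomputable def cZ {R : Type*} [Semiring R] (F : R[X]) (x : ℤ) : R :=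
  if 0 ≤ x then F.coeff x.toNat else 0

theorem cZ_natCast {R : Type*} [Semiring R] (F : R[X]) (n : ℕ) : cZ F n = F.coeff n := by
  simp [cZ]

theorem cZ_of_neg {R : Type*} [Semiring R] (F : R[X]) {x : ℤ} (h : x < 0) : cZ F x = 0 := by
  simp [cZ, h]

theorem cZ_of_gt {R : Type*} [Semiring R] (F : R[X]) {x : ℤ} {D : ℕ} (hD : F.natDegree ≤ D)
    (h : (D : ℤ) < x) : cZ F x = 0 := by
  unfold cZ
  split_ifs with h0
  · exact coeff_eq_zero_of_natDegree_lt (by omega)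
  · rfl

theorem cZ_map {R S : Type*} [Semiring R] [Semiring S] (f : R →+* S) (F : R[X]) (x : ℤ) :
    cZ (F.map f) x = f (cZ F x) := by
  unfold cZ; split_ifs <;> simp

theorem cZ_C_mul {R : Type*} [Semiring R] (c : R) (F : R[X]) (x : ℤ) :
    cZ (C c * F) x = c * cZ F x := by
  unfold cZ; split_ifs <;> simp

theorem cZ_mul_X_pow {R : Type*} [Semiring R] (F : R[X]) (d : ℕ) (x : ℤ) :
    cZ (F * X ^ d) (x + d) = cZ F x := by
  unfold cZ
  by_cases h : 0 ≤ x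
  · obtain ⟨n, rfl⟩ := Int.eq_ofNat_of_zero_le h
    have : ((n : ℤ) + d).toNat = n + d := by omega
    rw [if_pos (by omega), if_pos h, this, coeff_mul_X_pow, Int.toNat_natCast]
  · rw [if_neg h]
    split_ifs with h'
    · rw [coeff_mul_X_pow', if_neg (by omega)]
    · rfl

theorem norm_cZ_le (F : ℂ[X]) {B : ℝ} (h : ∀ z : ℂ, ‖z‖ = 1 → ‖F.eval z‖ ≤ B) (x : ℤ) :
    ‖cZ F x‖ ≤ B := by
  unfold cZ
  split_ifs
  · exact norm_coeff_le F h _
  · simpa using (norm_nonneg _).trans (h 1 (by simp))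

/-- a sum over a residue class as a sum over an antidiagonal -/
theorem sum_res_eq {R : Type*} [Semiring R] (G H : R[X]) (Q a b c : ℤ)
    (S : Finset ℤ) (hS : ∀ m : ℤ, cZ G (a - m) * cZ H (m + b) ≠ 0 → m ∈ S) (n : ℕ)
    (hn : a + b = n) :
    ∑ m ∈ S.filter (fun m => m ≡ c [ZMOD Q]), cZ G (a - m) * cZ H (m + b) = ∑ ij ∈ antidiagonal n,
      if Q ∣ (ij.2 : ℤ) - (c + b) then G.coeff ij.1 * H.coeff ij.2 else 0 := by
  classical
  have pos : ∀ m : ℤ, cZ G (a - m) * cZ H (m + b) ≠ 0 → 0 ≤ a - m ∧ 0 ≤ m + b :=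
    fun j hj => ⟨by
      by_contra h
      exact hj (by rw [cZ_of_neg G (by omega), zero_mul]), by
      by_contra h
      exact hj (by rw [cZ_of_neg H (by omega), mul_zero])⟩
  refine Finset.sum_bij_ne_zero (fun m _ _ => ((a - m).toNat, (m + b).toNat)) ?_ ?_ ?_ ?_
  · intro j _ hj
    obtain ⟨h1, h2⟩ := pos j hj
    simp only [HasAntidiagonal.mem_antidiagonal]
    omega
  · intro j _ hj j' _ hj' e
    obtain ⟨h1, h2⟩ := pos j hj
    obtain ⟨h1', h2'⟩ := pos j' hj'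
    have e2 := congrArg Prod.snd e
    simp only at e2
    omega
  · rintro ⟨i, m⟩ hm hne
    simp only [HasAntidiagonal.mem_antidiagonal] at hm
    have hd : Q ∣ (m : ℤ) - (c + b) := by
      by_contra h
      exact hne (if_neg h)
    rw [if_pos hd] at hne
    have e1 : a - (m - b) = i := by omega
    have e2 : (m - b) + b = m := by omega
    have hne' : cZ G (a - (m - b)) * cZ H ((m - b) + b) ≠ 0 := by
      rwa [e1, e2, cZ_natCast, cZ_natCast]
    refine ⟨m - b, Finset.mem_filter.2 ⟨hS _ hne', ?_⟩, hne', by simp [e1]⟩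
    refine (Int.modEq_iff_dvd.2 ?_).symm
    rwa [show (m : ℤ) - b - c = m - (c + b) by ring]
  · intro j hm hj
    obtain ⟨h1, h2⟩ := pos j hj
    have : Q ∣ (((j + b).toNat : ℕ) : ℤ) - (c + b) := by
      rw [show (((j + b).toNat : ℕ) : ℤ) - (c + b) = j - c by omega]
      exact Int.modEq_iff_dvd.1 (Finset.mem_filter.1 hm).2.symm
    rw [if_pos this, cZ, cZ, if_pos h1, if_pos h2]

/-- **Interpolation lemma** on `ℤ`: `Q ∑_{m ≡ c} g(x - m) h(m) ≈ g(x)`, where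
`g x = cZ G (x + dg)` and `h x = cZ H (x + dh)`. -/
theorem interp_cZ (G H : ℂ[X]) (dg dh : ℕ) {Q : ℕ} (hQ : 0 < Q) {ε : ℝ}
    (A1 : ∀ z : ℂ, ‖z‖ = 1 → ‖G.eval z * (H.eval z - z ^ dh)‖ ≤ ε)
    (A2 : ∀ z w : ℂ, ‖z‖ = 1 → w ^ Q = 1 → w ≠ 1 → ‖G.eval z * H.eval (w * z)‖ ≤ ε)
    (x c : ℤ) (S : Finset ℤ)
    (hS : ∀ m : ℤ, cZ G (x - m + dg) * cZ H (m + dh) ≠ 0 → m ∈ S) :
    ‖(Q : ℂ) * (∑ m ∈ S.filter (fun m => m ≡ c [ZMOD Q]), cZ G (x - m + dg) * cZ H (m + dh))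
      - cZ G (x + dg)‖ ≤ Q * ε := by
  have e1 : ∀ m : ℤ, x - m + dg = (x + dg) - m := fun j => by ring
  simp only [e1] at hS ⊢
  by_cases h : 0 ≤ x + dg + dh
  · obtain ⟨n, hn⟩ := Int.eq_ofNat_of_zero_le h
    rw [sum_res_eq G H Q _ _ c S hS n hn, ← cZ_mul_X_pow G dh, hn, cZ_natCast]
    exact interp_poly G H dh hQ A1 A2 n _
  · have hε : 0 ≤ ε := (norm_nonneg _).trans (A1 1 (by simp))
    rw [Finset.sum_eq_zero, cZ_of_neg G (by omega)]
    · simp; positivity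
    · intro j _
      by_cases h1 : x + dg - j < 0
      · rw [cZ_of_neg G h1, zero_mul]
      · rw [cZ_of_neg H (by omega), mul_zero]

/-! ### flooring -/

/-- the tap at position `x` (centre `c`) of the integer filter `F / s`, scaled by `m`, floored -/
noncomputable def tap (F : ℤ[X]) (c m s : ℕ) (x : ℤ) : ℤ := (m * cZ F (x + c)) / s

/-- the complex filter `F / s` -/
noncomputable def nrm (F : ℤ[X]) (s : ℕ) : ℂ[X] := C ((s : ℂ)⁻¹) * F.map (Int.castRingHom ℂ)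

theorem eval_nrm (F : ℤ[X]) (s : ℕ) (z : ℂ) : (nrm F s).eval z = aeval z F / s := by
  rw [nrm, eval_mul, eval_C, div_eq_inv_mul, aeval_def, eval₂_eq_eval_map]
  rfl

theorem cZ_nrm (F : ℤ[X]) (s : ℕ) (x : ℤ) :
    cZ (nrm F s) x = ((((cZ F x : ℤ) : ℝ) / s : ℝ) : ℂ) := by
  rw [nrm, cZ_C_mul, cZ_map]
  simp [div_eq_inv_mul]

theorem ediv_bounds (a : ℤ) {s : ℕ} (hs : 0 < s) :
    ((a / s : ℤ) : ℝ) ≤ a / s ∧ (a : ℝ) / s < (a / s : ℤ) + 1 := by
  have hs' : (0 : ℝ) < s := by exact_mod_cast hs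
  have h1 := Int.mul_ediv_add_emod a s
  have h2 := Int.emod_nonneg a (b := s) (by omega)
  have h3 := Int.emod_lt_of_pos a (b := s) (by omega)
  have h1' : (s : ℝ) * (a / s : ℤ) + (a % s : ℤ) = a := by exact_mod_cast h1
  have h2' : (0 : ℝ) ≤ (a % s : ℤ) := by exact_mod_cast h2
  have h3' : ((a % s : ℤ) : ℝ) < s := by exact_mod_cast h3
  constructor
  · rw [le_div_iff₀ hs']; linarith
  · rw [div_lt_iff₀ hs']; linarith

theorem tap_sub_le (F : ℤ[X]) (c m : ℕ) {s : ℕ} (hs : 0 < s) (x : ℤ) :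
    |(tap F c m s x : ℝ) - m * ((cZ F (x + c) : ℤ) / s)| ≤ 1 := by
  obtain ⟨h1, h2⟩ := ediv_bounds (m * cZ F (x + c)) hs
  push_cast at h1 h2
  rw [tap, abs_le, ← mul_div_assoc]
  constructor <;> linarith

theorem abs_tap_le (F : ℤ[X]) (c m : ℕ) {s : ℕ} (hs : 0 < s) (x : ℤ)
    (h : |((cZ F (x + c) : ℤ) : ℝ) / s| ≤ 1) : |tap F c m s x| ≤ m := by
  obtain ⟨h1, h2⟩ := ediv_bounds (m * cZ F (x + c)) hs
  rw [abs_le] at h ⊢
  have hm : (0 : ℝ) ≤ m := by positivity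
  have e : ((m * cZ F (x + c) : ℤ) : ℝ) / s = m * (((cZ F (x + c) : ℤ) : ℝ) / s) := by
    push_cast; ring
  rw [e] at h1 h2
  constructor
  · have : ((-(m : ℤ) : ℤ) : ℝ) < ((tap F c m s x + 1 : ℤ) : ℝ) := by
      push_cast
      rw [tap]
      nlinarith [h.1]
    have := Int.cast_lt.1 this
    omega
  · have : ((tap F c m s x : ℤ) : ℝ) ≤ ((m : ℤ) : ℝ) := by
      rw [tap]
      push_cast at h1 ⊢
      nlinarith [h.2]
    exact Int.cast_le.1 this

theorem tap_eq_zero (F : ℤ[X]) {c D : ℕ} (m s : ℕ) (hF : F.natDegree ≤ 2 * c) (hD : c ≤ D) {x : ℤ}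
    (hx : (D : ℤ) < |x|) : tap F c m s x = 0 := by
  have : cZ F (x + c) = 0 := by
    rcases lt_abs.1 hx with h | h
    · exact cZ_of_gt F hF (by push_cast; omega)
    · exact cZ_of_neg F (by omega)
  simp [tap, this]

/-- From the sup-norm properties of two integer filters to the integer taps. -/
theorem taps_of_filters (GI HI : ℤ[X]) {s dg dh P Q p δ E : ℕ} {ε : ℝ} (hs : 0 < s) (hQ : 0 < Q)
    (hQP : Q ≤ P) (hG : GI.natDegree ≤ 2 * dg) (hH : HI.natDegree ≤ 2 * dh)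
    (hdg : dg ≤ 2 * δ) (hdh : dh ≤ δ)
    (A0g : ∀ z : ℂ, ‖z‖ = 1 → ‖aeval z GI / (s : ℂ)‖ ≤ 1)
    (A0h : ∀ z : ℂ, ‖z‖ = 1 → ‖aeval z HI / (s : ℂ)‖ ≤ 1)
    (A1 : ∀ z : ℂ, ‖z‖ = 1 → ‖aeval z GI / (s : ℂ) * (aeval z HI / (s : ℂ) - z ^ dh)‖ ≤ ε)
    (A2 : ∀ z w : ℂ, ‖z‖ = 1 → w ^ Q = 1 → w ≠ 1 →
      ‖aeval z GI / (s : ℂ) * (aeval (w * z) HI / (s : ℂ))‖ ≤ ε)
    (A3 : ∀ n : ℤ, P * cZ GI (n * P + dg) = if n = 0 then (s : ℤ) else 0)
    (hE : 2 ^ p * 2 ^ p * P * Q * ε + (2 * δ + 1) * (2 * 2 ^ p * P + 1) + 2 ^ p ≤ (E : ℝ)) :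
    Taps P Q p δ E (tap GI dg (2 ^ p * P) s) (tap HI dh (2 ^ p * Q) s) := by
  have bG : ∀ x, |((cZ GI x : ℤ) : ℝ) / s| ≤ 1 := fun x => by
    have := norm_cZ_le (nrm GI s) (B := 1) (fun z hz => by rw [eval_nrm]; exact A0g z hz) x
    rwa [cZ_nrm, Complex.norm_real, Real.norm_eq_abs] at this
  have bH : ∀ x, |((cZ HI x : ℤ) : ℝ) / s| ≤ 1 := fun x => by
    have := norm_cZ_le (nrm HI s) (B := 1) (fun z hz => by rw [eval_nrm]; exact A0h z hz) x
    rwa [cZ_nrm, Complex.norm_real, Real.norm_eq_abs] at this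
  have absg : ∀ m, |tap GI dg (2 ^ p * P) s m| ≤ 2 ^ p * P := fun m => by
    simpa using abs_tap_le GI dg (2 ^ p * P) hs m (bG _)
  have absh : ∀ m, |tap HI dh (2 ^ p * Q) s m| ≤ 2 ^ p * P := fun m => by
    refine (abs_tap_le HI dh (2 ^ p * Q) hs m (bH _)).trans ?_
    push_cast
    gcongr
  refine ⟨fun m hm => tap_eq_zero HI _ _ hH hdh hm,
    fun m hm => tap_eq_zero GI _ _ hG hdg (by push_cast; exact hm), absh, absg, fun n => ?_,
    fun x c => ?_⟩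
  · rw [tap]
    push_cast
    rw [mul_assoc, A3]
    split_ifs
    · exact Int.mul_ediv_cancel _ (by omega)
    · simp
  · set S := (Icc (-(δ : ℤ)) δ).filter (fun m => m ≡ c [ZMOD Q]) with hSdef
    have I := interp_cZ (nrm GI s) (nrm HI s) dg dh hQ (ε := ε)
      (fun z hz => by rw [eval_nrm, eval_nrm]; exact A1 z hz)
      (fun z w hz h1 h2 => by rw [eval_nrm, eval_nrm]; exact A2 z w hz h1 h2) x c
      (Icc (-(δ : ℤ)) δ) (fun m hm => by
        by_contra hn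
        refine hm ?_
        have : cZ HI (m + dh) = 0 := by
          rw [Finset.mem_Icc] at hn
          by_cases h : m + dh < 0
          · exact cZ_of_neg HI h
          · exact cZ_of_gt HI hH (by push_cast; omega)
        rw [cZ_nrm HI, this]; simp)
    rw [← hSdef] at I
    simp only [cZ_nrm] at I
    set g : ℤ → ℝ := fun y => ((cZ GI (y + dg) : ℤ) : ℝ) / s with hg
    set h : ℤ → ℝ := fun y => ((cZ HI (y + dh) : ℤ) : ℝ) / s with hh
    have I' : |Q * (∑ m ∈ S, g (x - m) * h m) - g x| ≤ Q * ε := by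
      rw [← Real.norm_eq_abs, ← Complex.norm_real]
      convert I using 2
      push_cast
      simp [hg, hh]
    set gI := tap GI dg (2 ^ p * P) s with hgI
    set hI := tap HI dh (2 ^ p * Q) s with hhI
    have tg : ∀ y, |(gI y : ℝ) - 2 ^ p * P * g y| ≤ 1 := fun y => by
      simpa [hg] using tap_sub_le GI dg (2 ^ p * P) hs y
    have th : ∀ y, |(hI y : ℝ) - 2 ^ p * Q * h y| ≤ 1 := fun y => by
      simpa [hh] using tap_sub_le HI dh (2 ^ p * Q) hs y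
    have term : ∀ m, |(gI (x - m) : ℝ) * hI m - 2 ^ p * P * g (x - m) * (2 ^ p * Q * h m)|
        ≤ 2 * 2 ^ p * P + 1 := fun m => by
      have e : (gI (x - m) : ℝ) * hI m - 2 ^ p * P * g (x - m) * (2 ^ p * Q * h m)
          = (gI (x - m) - 2 ^ p * P * g (x - m)) * hI m
            + 2 ^ p * P * g (x - m) * (hI m - 2 ^ p * Q * h m) := by ring
      have b1 : |(hI m : ℝ)| ≤ 2 ^ p * P := by exact_mod_cast absh m
      have b2 : |2 ^ p * (P : ℝ) * g (x - m)| ≤ 2 ^ p * P := by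
        rw [abs_mul, abs_of_nonneg (by positivity)]
        exact mul_le_of_le_one_right (by positivity) (bG _)
      rw [e]
      refine (abs_add_le _ _).trans ?_
      rw [abs_mul, abs_mul]
      have c1 := mul_le_mul (tg (x - m)) b1 (abs_nonneg _) zero_le_one
      have c2 := mul_le_mul b2 (th m) (abs_nonneg _) (by positivity)
      linarith
    have card : (S.card : ℝ) ≤ 2 * δ + 1 := by
      have h1 : S.card ≤ (Icc (-(δ : ℤ)) δ).card := Finset.card_filter_le _ _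
      rw [Int.card_Icc] at h1
      have h2 : S.card ≤ 2 * δ + 1 := by omega
      exact_mod_cast h2
    have sum1 : |∑ m ∈ S, ((gI (x - m) : ℝ) * hI m - 2 ^ p * P * g (x - m) * (2 ^ p * Q * h m))|
        ≤ (2 * δ + 1) * (2 * 2 ^ p * P + 1) := by
      refine (Finset.abs_sum_le_sum_abs _ _).trans ?_
      refine (Finset.sum_le_sum fun m _ => term m).trans ?_
      rw [Finset.sum_const, nsmul_eq_mul]
      gcongr
    have e : ((∑ m ∈ S, gI (x - m) * hI m - 2 ^ p * gI x : ℤ) : ℝ)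
        = ∑ m ∈ S, ((gI (x - m) : ℝ) * hI m - 2 ^ p * P * g (x - m) * (2 ^ p * Q * h m))
          + 2 ^ p * 2 ^ p * P * (Q * (∑ m ∈ S, g (x - m) * h m) - g x)
          - 2 ^ p * (gI x - 2 ^ p * P * g x) := by
      push_cast
      rw [Finset.sum_sub_distrib, mul_sub (2 ^ p * 2 ^ p * (P : ℝ)), ← mul_assoc, Finset.mul_sum]
      have : ∑ m ∈ S, 2 ^ p * (P : ℝ) * g (x - m) * (2 ^ p * Q * h m)
          = ∑ m ∈ S, 2 ^ p * 2 ^ p * (P : ℝ) * Q * (g (x - m) * h m) :=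
        Finset.sum_congr rfl fun m _ => by ring
      rw [this]
      ring
    have fin : |((∑ m ∈ S, gI (x - m) * hI m - 2 ^ p * gI x : ℤ) : ℝ)| ≤ E := by
      rw [e]
      refine (abs_sub _ _).trans ((add_le_add (abs_add_le _ _) le_rfl).trans ?_)
      rw [abs_mul, abs_mul (2 ^ p : ℝ), abs_of_nonneg (a := 2 ^ p * 2 ^ p * (P : ℝ)) (by positivity),
        abs_of_nonneg (a := (2 ^ p : ℝ)) (by positivity)]
      have c1 := mul_le_mul_of_nonneg_left I' (show 0 ≤ 2 ^ p * 2 ^ p * (P : ℝ) by positivity)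
      have c2 := mul_le_mul_of_nonneg_left (tg x) (show 0 ≤ (2 ^ p : ℝ) by positivity)
      linarith
    exact_mod_cast fin

end Crest.Agent.X326.FB
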