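import Crest.Agent.X326.FB.Basic

/-!
# Row 326, filter bank: the one-level identity for abstract finite abelian groups
-/

set_option autoImplicit false

namespace Crest.Agent.X326.FB

open Finset

variable {X J R : Type*} [AddCommGroup X] [Fintype X] [DecidableEq X] [AddCommGroup J] [Fintype J]
  [AddCommGroup R] [Fintype R] [DecidableEq R]

omit [Fintype X] [DecidableEq X] in
theorem kernel_bound (ι : J →+ X) (G H : X → ℤ) (d : X) (s E α : ℤ)
    (hI : ∀ x y, |∑ j, G (x - ι j) * H (y - ι j) - s * G (x - y + d)| ≤ E)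
    (hB : ∀ y, ∑ j, |H (y - ι j)| ≤ α) (l l₁ l₂ : X) :
    |∑ j₁, ∑ j₂, G (l - ι j₁ - ι j₂) * (H (l₁ - ι j₁) * H (l₂ - ι j₂)) -
      s * s * G (l - l₁ - l₂ + d + d)| ≤ α * E + |s| * E := by
  have hE : 0 ≤ E := (abs_nonneg _).trans (hI 0 0)
  have e : ∑ j₁, ∑ j₂, G (l - ι j₁ - ι j₂) * (H (l₁ - ι j₁) * H (l₂ - ι j₂)) -
      s * s * G (l - l₁ - l₂ + d + d) =
      ∑ j₁, H (l₁ - ι j₁) * (∑ j₂, G (l - ι j₁ - ι j₂) * H (l₂ - ι j₂) -
        s * G (l - ι j₁ - l₂ + d)) +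
      s * (∑ j₁, G (l - l₂ + d - ι j₁) * H (l₁ - ι j₁) - s * G (l - l₂ + d - l₁ + d)) := by
    rw [show l - l₂ + d - l₁ + d = l - l₁ - l₂ + d + d by abel, mul_sub s, mul_sum,
      ← add_sub_assoc, ← sum_add_distrib, mul_assoc]
    congr 1
    refine sum_congr rfl fun j₁ _ => ?_
    rw [show l - l₂ + d - ι j₁ = l - ι j₁ - l₂ + d by abel, mul_sub, mul_sum]
    have : ∑ j₂, G (l - ι j₁ - ι j₂) * (H (l₁ - ι j₁) * H (l₂ - ι j₂)) =
        ∑ j₂, H (l₁ - ι j₁) * (G (l - ι j₁ - ι j₂) * H (l₂ - ι j₂)) :=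
      sum_congr rfl fun j₂ _ => by ring
    rw [this]
    ring
  rw [e]
  refine (abs_add_le _ _).trans (add_le_add ?_ ?_)
  · refine (abs_sum_le_sum_abs _ _).trans ?_
    calc ∑ j₁, |H (l₁ - ι j₁) * (∑ j₂, G (l - ι j₁ - ι j₂) * H (l₂ - ι j₂) -
          s * G (l - ι j₁ - l₂ + d))| ≤ ∑ j₁, |H (l₁ - ι j₁)| * E := by
          refine sum_le_sum fun j₁ _ => ?_
          rw [abs_mul]
          exact mul_le_mul_of_nonneg_left (hI _ _) (abs_nonneg _)
      _ = (∑ j₁, |H (l₁ - ι j₁)|) * E := by rw [sum_mul]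
      _ ≤ α * E := mul_le_mul_of_nonneg_right (hB _) hE
  · rw [abs_mul]
    exact mul_le_mul_of_nonneg_left (hI _ _) (abs_nonneg _)

/-- abstract analysis -/
def anaG (ι : J →+ X) (π : X →+ R) (H : X → ℤ) (a : X → Arr) (j : J) (ρ : R) : Arr :=
  ∑ l, (if π l = ρ then H (l - ι j) else 0) • a l

/-- abstract synthesis -/
def synG (ι : J →+ X) (π : X →+ R) (G : X → ℤ) (c : J → R → Arr) (l : X) : Arr :=
  ∑ j, G (l - ι j) • c j (π l)

omit [DecidableEq X] in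
theorem synG_conv {Z : ℕ} {μ : Arr → Arr → Arr} (hμ : Bil Z μ) (ι : J →+ X) (π : X →+ R)
    (G H : X → ℤ) (a b : X → Arr) (l : X) :
    synG ι π G (fun j ρ => ∑ j₁, ∑ ρ₁, μ (anaG ι π H a j₁ ρ₁) (anaG ι π H b (j - j₁) (ρ - ρ₁))) l =
      ∑ l₁, ∑ l₂, (if π l₂ = π l - π l₁ then
        ∑ j₁, ∑ j₂, G (l - ι j₁ - ι j₂) * (H (l₁ - ι j₁) * H (l₂ - ι j₂)) else 0) •
          μ (a l₁) (b l₂) := by
  have h1 : ∀ j₁ j₂ : J, ∑ ρ₁, μ (anaG ι π H a j₁ ρ₁) (anaG ι π H b j₂ (π l - ρ₁)) =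
      ∑ l₁, ∑ l₂, (if π l₂ = π l - π l₁ then H (l₁ - ι j₁) * H (l₂ - ι j₂) else 0) •
        μ (a l₁) (b l₂) := by
    intro j₁ j₂
    simp only [anaG, hμ.sum_left, hμ.sum_right, hμ.smul_left, hμ.smul_right, smul_smul]
    rw [sum_comm]
    refine sum_congr rfl fun l₁ _ => ?_
    rw [sum_comm]
    refine sum_congr rfl fun l₂ _ => ?_
    rw [← sum_smul]
    congr 1
    rw [sum_eq_single (π l₁)]
    · simp
    · intro ρ _ hρ
      rw [if_neg (Ne.symm hρ), zero_mul]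
    · simp
  unfold synG
  have h2 : ∑ j, G (l - ι j) • ∑ j₁, ∑ ρ₁,
        μ (anaG ι π H a j₁ ρ₁) (anaG ι π H b (j - j₁) (π l - ρ₁)) =
      ∑ j₁, ∑ j₂, G (l - ι j₁ - ι j₂) • ∑ ρ₁,
        μ (anaG ι π H a j₁ ρ₁) (anaG ι π H b j₂ (π l - ρ₁)) := by
    simp only [smul_sum (s := (univ : Finset J))]
    rw [sum_comm]
    refine sum_congr rfl fun j₁ _ => ?_
    rw [← Equiv.sum_comp (Equiv.addLeft j₁)]
    refine sum_congr rfl fun j₂ _ => ?_
    simp only [Equiv.coe_addLeft, map_add, add_sub_cancel_left, sub_sub]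
  rw [h2]
  simp only [h1, smul_sum, smul_smul]
  rw [sum_congr rfl fun j₁ _ => sum_comm, sum_comm]
  refine sum_congr rfl fun l₁ _ => ?_
  rw [sum_congr rfl fun j₁ _ => sum_comm, sum_comm]
  refine sum_congr rfl fun l₂ _ => ?_
  simp only [← sum_smul]
  congr 1
  split_ifs <;> simp

/-- the one-level identity -/
theorem bank_abstract {Z : ℕ} {μ : Arr → Arr → Arr} (hμ : Bil Z μ) (ι : J →+ X) (π : X →+ R)
    (G H : X → ℤ) (d : X) (s E α : ℤ)
    (hI : ∀ x y, |∑ j, G (x - ι j) * H (y - ι j) - s * G (x - y + d)| ≤ E)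
    (hB : ∀ y, ∑ j, |H (y - ι j)| ≤ α)
    (hN : ∀ x, π x = 0 → G (x + d + d) = if x = 0 then s else 0) (a b : X → Arr) :
    ∑ l, l1 Z (synG ι π G
        (fun j ρ => ∑ j₁, ∑ ρ₁, μ (anaG ι π H a j₁ ρ₁) (anaG ι π H b (j - j₁) (ρ - ρ₁))) l -
          (s * s * s) • ∑ l₁, μ (a l₁) (b (l - l₁))) ≤
      Fintype.card X * (α * E + |s| * E) * ((∑ l, l1 Z (a l)) * ∑ l, l1 Z (b l)) := by
  have hE : 0 ≤ E := (abs_nonneg _).trans (hI 0 0)
  have hα : 0 ≤ α := (sum_nonneg fun _ _ => abs_nonneg _).trans (hB 0)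
  have he : 0 ≤ α * E + |s| * E := by positivity
  calc _ ≤ ∑ _l : X, (α * E + |s| * E) * ((∑ l, l1 Z (a l)) * ∑ l, l1 Z (b l)) := by
        refine sum_le_sum fun l _ => ?_
        rw [synG_conv hμ]
        have h1 : (s * s * s) • ∑ l₁, μ (a l₁) (b (l - l₁)) =
            ∑ l₁, ∑ l₂, (if l₂ = l - l₁ then s * s * s else 0) • μ (a l₁) (b l₂) := by
          rw [smul_sum]
          refine sum_congr rfl fun l₁ _ => ?_
          rw [sum_eq_single (l - l₁)]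
          · simp
          · intro y _ hy
            rw [if_neg hy, zero_smul]
          · simp
        rw [h1, ← sum_sub_distrib, sum_mul_sum, mul_sum]
        refine (l1_sum_le _ _ _).trans (sum_le_sum fun l₁ _ => ?_)
        rw [← sum_sub_distrib, mul_sum]
        refine (l1_sum_le _ _ _).trans (sum_le_sum fun l₂ _ => ?_)
        rw [← sub_smul, l1_smul]
        refine mul_le_mul ?_ (hμ.l1_le _ _) (l1_nonneg _ _) he
        by_cases hc : π l₂ = π l - π l₁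
        · rw [if_pos hc]
          have h2 := kernel_bound ι G H d s E α hI hB l l₁ l₂
          rw [hN (l - l₁ - l₂) (by rw [map_sub, map_sub, hc, sub_self])] at h2
          have h3 : (l - l₁ - l₂ = 0) ↔ (l₂ = l - l₁) := by rw [sub_eq_zero, eq_comm]
          simpa only [h3, mul_ite, mul_zero] using h2
        · rw [if_neg hc, if_neg (by rintro rfl; exact hc (map_sub _ _ _))]
          simpa using he
    _ = _ := by simp [mul_assoc]

end Crest.Agent.X326.FB
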