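import Crest.Agent.X326.FB.MajDefs

/-!
# Filter bank for row 326: algebraic properties of the filters (Nyquist property, degrees)
-/

set_option autoImplicit false

namespace Crest.Agent.X326.FB

open Polynomial Finset

/-- upper half of the binomial expansion of `(a + b)^(2n+1)` -/
def hsum {R : Type*} [CommRing R] (n : ℕ) (a b : R) : R :=
  ∑ j ∈ range (n + 1), (((2 * n + 1).choose (n + 1 + j) : ℕ) : R) * a ^ (n + 1 + j) * b ^ (n - j)

theorem hsum_add {R : Type*} [CommRing R] (n : ℕ) (a b : R) :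
    hsum n a b + hsum n b a = (a + b) ^ (2 * n + 1) := by
  rw [add_pow, show 2 * n + 1 + 1 = (n + 1) + (n + 1) by ring, Finset.sum_range_add,
    ← Finset.sum_range_reflect _ (n + 1), add_comm]
  unfold hsum
  congr 1
  · refine Finset.sum_congr rfl fun j hj => ?_
    have hj' : j ≤ n := by simpa [Nat.lt_succ_iff] using hj
    have e1 : n + 1 - 1 - j = n - j := by omega
    have e2 : 2 * n + 1 - (n - j) = n + 1 + j := by omega
    rw [e1, e2, Nat.choose_symm_of_eq_add (show 2 * n + 1 = (n + 1 + j) + (n - j) by omega)]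
    ring
  · refine Finset.sum_congr rfl fun j hj => ?_
    have hj' : j ≤ n := by simpa [Nat.lt_succ_iff] using hj
    have e2 : 2 * n + 1 - (n + 1 + j) = n - j := by omega
    rw [e2]
    ring

theorem hsum_smul {R : Type*} [CommRing R] (n : ℕ) (c a b : R) :
    hsum n (c * a) (c * b) = c ^ (2 * n + 1) * hsum n a b := by
  unfold hsum
  rw [Finset.mul_sum]
  refine Finset.sum_congr rfl fun j hj => ?_
  have hj' : j ≤ n := by simpa [Nat.lt_succ_iff] using hj
  have e : 2 * n + 1 = (n + 1 + j) + (n - j) := by omega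
  rw [mul_pow, mul_pow]
  conv_rhs => rw [e, pow_add]
  rw [← e]
  ring

theorem map_hsum {R S F : Type*} [CommRing R] [CommRing S] [FunLike F R S] [RingHomClass F R S]
    (f : F) (n : ℕ) (a b : R) : f (hsum n a b) = hsum n (f a) (f b) := by
  unfold hsum
  simp [map_sum]

theorem Mj_eq (n : ℕ) : Mj n = hsum n ((1 + X) ^ 2) (-(1 - X) ^ 2) := by
  unfold Mj hsum
  simp

theorem aeval_Mj {A : Type*} [CommRing A] [Algebra ℤ A] (n : ℕ) (z : A) :
    aeval z (Mj n) = hsum n ((1 + z) ^ 2) (-(1 - z) ^ 2) := by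
  rw [Mj_eq, map_hsum]
  simp

/-- half-band property -/
theorem Mj_sub_comp_neg (n : ℕ) :
    Mj n - (Mj n).comp (-X) = C ((4 : ℤ) ^ (2 * n + 1)) * X ^ (2 * n + 1) := by
  have h1 : (Mj n).comp (-X) = -hsum n (-(1 - X) ^ 2 : ℤ[X]) ((1 + X) ^ 2) := by
    rw [comp_eq_aeval, aeval_Mj]
    have h := hsum_smul n (-1 : ℤ[X]) (-(1 - X) ^ 2) ((1 + X) ^ 2)
    rw [Odd.neg_one_pow ⟨n, rfl⟩] at h
    rw [neg_one_mul (hsum _ _ _)] at h
    rw [← h]
    congr 1 <;> ring
  rw [h1, sub_neg_eq_add, Mj_eq, hsum_add]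
  have : ((1 + X) ^ 2 + -(1 - X) ^ 2 : ℤ[X]) = 4 * X := by ring
  rw [this, mul_pow]
  simp

theorem coeff_comp_neg_X' (p : ℤ[X]) (i : ℕ) : (p.comp (-X)).coeff i = (-1) ^ i * p.coeff i := by
  have h := Polynomial.comp_C_mul_X_coeff (p := p) (r := (-1 : ℤ)) (n := i)
  have e : (C (-1 : ℤ) * X : ℤ[X]) = -X := by simp
  rw [e] at h
  rw [h, mul_comm]

theorem two_mul_coeff_Mj (n i : ℕ) (hi : Odd i) :
    2 * (Mj n).coeff i = if i = 2 * n + 1 then 4 ^ (2 * n + 1) else 0 := by
  have h := congrArg (fun p => p.coeff i) (Mj_sub_comp_neg n)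
  simp only [coeff_sub, coeff_comp_neg_X', hi.neg_one_pow, coeff_C_mul, coeff_X_pow] at h
  split_ifs with h1
  · rw [if_pos h1] at h; linarith
  · rw [if_neg h1] at h; linarith

theorem GI_zero (n : ℕ) : GI n 0 = 1 := by simp [GI]

theorem GI_succ (n k : ℕ) : GI n (k + 1) = GI n k * expand ℤ (2 ^ k) (Mj n) := by
  simp [GI, Finset.prod_range_succ]

theorem GI_succ' (n k : ℕ) : GI n (k + 1) = Mj n * expand ℤ 2 (GI n k) := by
  unfold GI
  rw [Finset.prod_range_succ', map_prod, mul_comm]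
  congr 1
  · simp
  · refine Finset.prod_congr rfl fun i _ => ?_
    rw [expand_expand, pow_succ']

theorem sG_zero (n : ℕ) : sG n 0 = 1 := by simp [sG]

theorem sG_succ (n k : ℕ) : sG n (k + 1) = 4 ^ (2 * n + 1) * sG n k := by
  unfold sG
  rw [← pow_add]
  congr 1
  ring

theorem sG_pos (n k : ℕ) : 0 < sG n k := by unfold sG; positivity

theorem dG_zero (n : ℕ) : dG n 0 = 0 := by simp [dG]

theorem dG_succ' (n k : ℕ) : dG n (k + 1) = (2 * n + 1) + 2 * dG n k := by
  unfold dG
  have h : 1 ≤ 2 ^ k := Nat.one_le_two_pow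
  obtain ⟨u, hu⟩ : ∃ u, 2 ^ k = u + 1 := ⟨2 ^ k - 1, by omega⟩
  rw [pow_succ, hu]
  have e1 : (u + 1) * 2 - 1 = 2 * u + 1 := by omega
  rw [e1, Nat.add_sub_cancel]
  ring

theorem dG_succ (n k : ℕ) : dG n (k + 1) = dG n k + 2 ^ k * (2 * n + 1) := by
  unfold dG
  have h : 1 ≤ 2 ^ k := Nat.one_le_two_pow
  obtain ⟨u, hu⟩ : ∃ u, 2 ^ k = u + 1 := ⟨2 ^ k - 1, by omega⟩
  rw [pow_succ, hu]
  have e1 : (u + 1) * 2 - 1 = 2 * u + 1 := by omega
  rw [e1, Nat.add_sub_cancel]
  ring

theorem dG_le (n k : ℕ) : dG n k ≤ (2 * n + 1) * 2 ^ k :=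
  Nat.mul_le_mul_left _ (Nat.sub_le _ _)

/-- **(A3) Nyquist property** of the synthesis filter. -/
theorem GI_nyquist (n k : ℕ) : ∀ i : ℕ, i ≡ dG n k [MOD 2 ^ k] →
    2 ^ k * (GI n k).coeff i = if i = dG n k then (sG n k : ℤ) else 0 := by
  induction k with
  | zero =>
    intro i _
    simp [GI_zero, dG_zero, sG_zero, coeff_one]
  | succ k ih =>
    intro i hi
    have hodd : Odd i := by
      have h2 : i ≡ dG n (k + 1) [MOD 2] :=
        hi.of_dvd (Dvd.intro_left (2 ^ k) (by rw [pow_succ]))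
      rw [dG_succ'] at h2
      unfold Nat.ModEq at h2
      rw [Nat.odd_iff]
      omega
    have key : 2 * (GI n (k + 1)).coeff i =
        if 2 * n + 1 ≤ i then 4 ^ (2 * n + 1) * (GI n k).coeff ((i - (2 * n + 1)) / 2) else 0 := by
      rw [GI_succ', coeff_mul, Finset.mul_sum]
      have h1 : ∀ x ∈ (Finset.HasAntidiagonal.antidiagonal i : Finset (ℕ × ℕ)),
          2 * ((Mj n).coeff x.1 * (expand ℤ 2 (GI n k)).coeff x.2) =
            if x.1 = 2 * n + 1 then
              4 ^ (2 * n + 1) * (GI n k).coeff ((i - (2 * n + 1)) / 2) else 0 := by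
        intro x hx
        have hx' : x.1 + x.2 = i := by simpa using hx
        rw [coeff_expand (by norm_num)]
        obtain ⟨u, hu⟩ := hodd
        by_cases h2 : 2 ∣ x.2
        · have h3 : Odd x.1 := by
            rw [Nat.odd_iff]; omega
          rw [if_pos h2, ← mul_assoc, two_mul_coeff_Mj n _ h3]
          split_ifs with h4
          · have : x.2 = i - (2 * n + 1) := by omega
            rw [this]
          · simp
        · rw [if_neg h2, if_neg (by omega)]
          simp
      rw [Finset.sum_congr rfl h1]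
      split_ifs with h
      · rw [Finset.sum_eq_single ((2 * n + 1, i - (2 * n + 1)) : ℕ × ℕ)]
        · simp
        · intro b hb hne
          have hb' : b.1 + b.2 = i := by simpa using hb
          rw [if_neg]
          intro h5
          apply hne
          ext
          · exact h5
          · simp only; omega
        · intro hn
          exfalso
          apply hn
          have : 2 * n + 1 + (i - (2 * n + 1)) = i := by omega
          simpa using this
      · refine Finset.sum_eq_zero fun x hx => ?_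
        have hx' : x.1 + x.2 = i := by simpa using hx
        rw [if_neg (by omega)]
    rw [pow_succ, mul_assoc, key]
    by_cases h : 2 * n + 1 ≤ i
    · rw [if_pos h]
      obtain ⟨u, hu⟩ := hodd
      obtain ⟨v, hv⟩ : ∃ v, i = (2 * n + 1) + 2 * v := ⟨u - n, by omega⟩
      have e : (i - (2 * n + 1)) / 2 = v := by omega
      have hv' : v ≡ dG n k [MOD 2 ^ k] := by
        rw [dG_succ', hv, pow_succ'] at hi
        exact Nat.ModEq.mul_left_cancel' (by norm_num) (Nat.ModEq.add_left_cancel' _ hi)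
      rw [e, mul_left_comm, ih v hv', dG_succ', sG_succ]
      by_cases h6 : v = dG n k
      · rw [if_pos h6, if_pos (by omega)]
        push_cast
        rfl
      · rw [if_neg h6, if_neg (by omega)]
        simp
    · rw [if_neg h, if_neg (by rw [dG_succ']; omega)]
      simp

/-- (A3), integer form. -/
theorem GI_nyquist_int (n k : ℕ) (i : ℕ) (m : ℤ) (h : (i : ℤ) = dG n k + m * 2 ^ k) :
    2 ^ k * (GI n k).coeff i = if m = 0 then (sG n k : ℤ) else 0 := by
  have h1 : i ≡ dG n k [MOD 2 ^ k] := by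
    rw [Nat.modEq_iff_dvd]
    refine ⟨-m, ?_⟩
    push_cast
    rw [h]; ring
  rw [GI_nyquist n k i h1]
  have h2 : (0 : ℤ) < 2 ^ k := by positivity
  by_cases hm : m = 0
  · rw [if_pos hm, if_pos]
    subst hm
    have : (i : ℤ) = dG n k := by simpa using h
    exact_mod_cast this
  · rw [if_neg hm, if_neg]
    intro h3
    rw [h3] at h
    have : m * 2 ^ k = 0 := by linarith
    rcases mul_eq_zero.mp this with h4 | h4
    · exact hm h4
    · exact h2.ne' h4

theorem natDegree_Mj_le (n : ℕ) : (Mj n).natDegree ≤ 2 * (2 * n + 1) := by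
  unfold Mj
  refine natDegree_sum_le_of_forall_le _ _ fun j hj => ?_
  have hj' : j ≤ n := by simpa [Nat.lt_succ_iff] using hj
  have h1 : ((1 + X : ℤ[X]) ^ 2).natDegree ≤ 2 := by compute_degree
  have h2 : (-(1 - X : ℤ[X]) ^ 2).natDegree ≤ 2 := by compute_degree
  refine natDegree_mul_le.trans ?_
  have h3 : (C (((2 * n + 1).choose (n + 1 + j) : ℕ) : ℤ) *
      ((1 + X : ℤ[X]) ^ 2) ^ (n + 1 + j)).natDegree ≤ (n + 1 + j) * 2 :=
    (natDegree_C_mul_le _ _).trans (natDegree_pow_le_of_le _ h1)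
  have h4 : ((-(1 - X : ℤ[X]) ^ 2) ^ (n - j)).natDegree ≤ (n - j) * 2 :=
    natDegree_pow_le_of_le _ h2
  omega

theorem natDegree_expand_Mj_le (n q : ℕ) :
    (expand ℤ q (Mj n)).natDegree ≤ 2 * (q * (2 * n + 1)) := by
  rw [natDegree_expand]
  have := Nat.mul_le_mul_right q (natDegree_Mj_le n)
  nlinarith

theorem natDegree_GI_le (n k : ℕ) : (GI n k).natDegree ≤ 2 * dG n k := by
  induction k with
  | zero => simp [GI_zero]
  | succ k ih =>
    rw [GI_succ, dG_succ]
    refine natDegree_mul_le.trans ?_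
    have := natDegree_expand_Mj_le n (2 ^ k)
    omega

theorem natDegree_HI_le (n k Q2 : ℕ) : (HI n k Q2).natDegree ≤ 2 * dH n k Q2 := by
  unfold HI dH
  refine natDegree_mul_le.trans ?_
  have h1 := natDegree_expand_Mj_le n Q2
  have h2 := natDegree_GI_le n (k - 1)
  rw [mul_comm Q2] at h1
  omega

theorem dH_le (n k Q2 : ℕ) (hk : 1 ≤ k) (hQ : 2 * Q2 ≤ 2 ^ k) :
    dH n k Q2 ≤ (2 * n + 1) * 2 ^ k := by
  obtain ⟨k, rfl⟩ : ∃ j, k = j + 1 := ⟨k - 1, by omega⟩
  unfold dH
  rw [Nat.add_sub_cancel]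
  have h1 := dG_le n k
  have h2 : Q2 ≤ 2 ^ k := by rw [pow_succ] at hQ; omega
  have h3 := Nat.mul_le_mul_left (2 * n + 1) h2
  rw [pow_succ]
  nlinarith

end Crest.Agent.X326.FB
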