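import Mathlib

/-!
# Filter bank for row 326: the integer filter polynomials (definitions)

`Mj n` is the half-band filter (majority of `2n+1` coins with bias `cos² (π θ)`), `GI n k` the
synthesis filter (Nyquist filter for `P = 2^k`), `HI n k Q2` the analysis filter (`Q = 2 * Q2`).
On the unit circle `GI n k = sG n k * z ^ dG n k * (real number in [0,1])`, and
`HI n k Q2 = sG n k * z ^ dH n k Q2 * (real number in [0,1])` for `1 ≤ k`.
-/

set_option autoImplicit false

namespace Crest.Agent.X326.FB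

open Polynomial

/-- Half-band filter: `4^(2n+1) z^(2n+1) A(cos² (π θ))` at `z = exp (2 π i θ)`, where
`A x = ∑_{j > n} C(2n+1, j) x^j (1-x)^(2n+1-j)`. -/
noncomputable def Mj (n : ℕ) : ℤ[X] :=
  ∑ j ∈ Finset.range (n + 1),
    C (((2 * n + 1).choose (n + 1 + j) : ℕ) : ℤ) * ((1 + X) ^ 2) ^ (n + 1 + j) *
      (-(1 - X) ^ 2) ^ (n - j)

/-- Synthesis filter for `P = 2^k`. -/
noncomputable def GI (n k : ℕ) : ℤ[X] :=
  ∏ i ∈ Finset.range k, expand ℤ (2 ^ i) (Mj n)

/-- Analysis filter for `P = 2^k`, `Q = 2 * Q2`. -/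
noncomputable def HI (n k Q2 : ℕ) : ℤ[X] :=
  expand ℤ Q2 (Mj n) * GI n (k - 1)

/-- The common scale of `GI n k` and `HI n k Q2`. -/
def sG (n k : ℕ) : ℕ := 4 ^ ((2 * n + 1) * k)

/-- The centre of `GI n k`. -/
def dG (n k : ℕ) : ℕ := (2 * n + 1) * (2 ^ k - 1)

/-- The centre of `HI n k Q2`. -/
def dH (n k Q2 : ℕ) : ℕ := (2 * n + 1) * Q2 + dG n (k - 1)

end Crest.Agent.X326.FB
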