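import Crest.Agent.X326.FB.CoeffPT
import Crest.Agent.X326.FB.Interp
import Crest.Agent.X326.FB.MajDefs

/-!
# The coefficients of the filter polynomials are computable in polynomial time
-/

set_option autoImplicit false

namespace Crest.Agent.X326.FB

open Polynomial Finset Crest.Agent.Lib.PT

/-! ### crude size bounds -/

theorem pl1_one_add_X_sq : pl1 ((1 + X) ^ 2) ≤ 4 := by
  refine (pl1_pow_le _ _).trans ?_
  have := pl1_add_le 1 X
  rw [pl1_one, pl1_X] at this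
  exact Nat.pow_le_pow_left this 2

theorem pl1_neg_one_sub_X_sq : pl1 (-(1 - X) ^ 2) ≤ 4 := by
  rw [pl1_neg]
  refine (pl1_pow_le _ _).trans ?_
  have := pl1_sub_le 1 X
  rw [pl1_one, pl1_X] at this
  exact Nat.pow_le_pow_left this 2

theorem pl1_Mj_le (n : ℕ) : pl1 (Mj n) ≤ 2 ^ (7 * n + 3) := by
  refine (pl1_sum_le _ _).trans ?_
  have h : ∀ j ∈ range (n + 1), pl1 (C (((2 * n + 1).choose (n + 1 + j) : ℕ) : ℤ) *
      ((1 + X) ^ 2) ^ (n + 1 + j) * (-(1 - X) ^ 2) ^ (n - j)) ≤ 2 ^ (6 * n + 3) := by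
    intro j hj
    have hj' := Finset.mem_range.1 hj
    have h1 := (pl1_pow_le _ (n + 1 + j)).trans (Nat.pow_le_pow_left pl1_one_add_X_sq _)
    have h2 := (pl1_pow_le _ (n - j)).trans (Nat.pow_le_pow_left pl1_neg_one_sub_X_sq _)
    have h3 : pl1 (C (((2 * n + 1).choose (n + 1 + j) : ℕ) : ℤ)) ≤ 2 ^ (2 * n + 1) := by
      rw [pl1_C, Int.natAbs_natCast]
      exact Nat.choose_le_two_pow _ _
    refine (pl1_mul_le _ _).trans ((Nat.mul_le_mul ((pl1_mul_le _ _).trans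
      (Nat.mul_le_mul h3 h1)) h2).trans (le_of_eq ?_))
    rw [mul_assoc, ← pow_add, show n + 1 + j + (n - j) = 2 * n + 1 by omega,
      show (4 : ℕ) = 2 ^ 2 by norm_num, ← pow_mul, ← pow_add]
    congr 1
    ring
  refine (Finset.sum_le_sum h).trans ?_
  rw [Finset.sum_const, card_range, smul_eq_mul, show 7 * n + 3 = n + (6 * n + 3) by ring, pow_add 2 n]
  exact Nat.mul_le_mul_right _ Nat.lt_two_pow_self

theorem pl1_GI_le (n k : ℕ) : pl1 (GI n k) ≤ 2 ^ ((7 * n + 3) * k) := by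
  refine (pl1_prod_le _ _).trans ?_
  refine (Finset.prod_le_prod' (g := fun _ => 2 ^ (7 * n + 3))
    (fun i _ => (pl1_expand_le _ _).trans (pl1_Mj_le n))).trans ?_
  rw [Finset.prod_const, card_range, pow_mul]

theorem pl1_HI_le (n k Q2 : ℕ) : pl1 (HI n k Q2) ≤ 2 ^ ((7 * n + 3) * (k - 1 + 1)) := by
  refine (pl1_mul_le _ _).trans ((Nat.mul_le_mul ((pl1_expand_le _ _).trans (pl1_Mj_le n))
    (pl1_GI_le n _)).trans (le_of_eq ?_))
  rw [← pow_add]
  congr 1
  ring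

theorem natDegree_Mj_le' (n : ℕ) : (Mj n).natDegree ≤ 4 * n + 2 := by
  refine Polynomial.natDegree_sum_le_of_forall_le _ _ (fun j hj => ?_)
  have hj' := Finset.mem_range.1 hj
  have h1 : ((1 + X : ℤ[X]) ^ 2).natDegree ≤ 2 := by compute_degree
  have h2 : (-(1 - X : ℤ[X]) ^ 2).natDegree ≤ 2 := by compute_degree
  have h3 := Polynomial.natDegree_pow_le_of_le (n + 1 + j) h1
  have h4 := Polynomial.natDegree_pow_le_of_le (n - j) h2
  refine natDegree_mul_le.trans ((Nat.add_le_add ((natDegree_C_mul_le _ _).trans h3) h4).trans ?_)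
  omega

theorem natDegree_GI_le' (n k : ℕ) : (GI n k).natDegree ≤ (4 * n + 2) * 2 ^ k := by
  induction k with
  | zero => simp [GI]
  | succ k ih =>
    rw [GI, Finset.prod_range_succ]
    refine natDegree_mul_le.trans ?_
    rw [natDegree_expand]
    have := Nat.mul_le_mul_right (2 ^ k) (natDegree_Mj_le' n)
    rw [pow_succ, ← mul_assoc, mul_two]
    exact Nat.add_le_add ih this

theorem natDegree_HI_le' (n k Q2 : ℕ) : (HI n k Q2).natDegree ≤ (4 * n + 2) * (Q2 + 2 ^ k) := by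
  refine natDegree_mul_le.trans ?_
  rw [natDegree_expand, mul_add]
  refine Nat.add_le_add (Nat.mul_le_mul_right _ (natDegree_Mj_le' n))
    ((natDegree_GI_le' n _).trans (Nat.mul_le_mul_left _ ?_))
  exact Nat.pow_le_pow_right (by norm_num) (Nat.sub_le _ _)

/-! ### evaluation and coefficients are poly-time -/

variable {α : Type} [PTCode α]

theorem ptf_choose {n k : α → ℕ} (hn : PTU n) (hk : PTU k) : PTF (fun a => (n a).choose (k a)) := by
  have h := PTF.ite (PTU.le hk hn) (PTF.natDiv (PTF.natFactorial hn)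
    (PTF.natMul (PTF.natFactorial hk) (PTF.natFactorial (PTU.sub hn hk)))) (PTF.const 0)
  refine h.of_eq (fun a => ?_)
  split_ifs with h
  · exact (Nat.choose_eq_factorial_div_factorial h).symm
  · exact (Nat.choose_eq_zero_of_lt (by omega)).symm

/-- an exponent whose power of two is unary is itself unary -/
theorem ptu_of_two_pow {k : α → ℕ} (hk : PTU (fun a => 2 ^ k a)) : PTU k :=
  (PTU.sub (PTF.natSizeUn hk.toPTF) (PTU.const 1)).of_eq (fun a => by simp [Nat.size_pow])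

theorem ptf_eval_Mj {n : α → ℕ} {x : α → ℤ} (hn : PTU n) (hx : PTF x) :
    PTF (fun a => (Mj (n a)).eval (x a)) := by
  have hn' : PTU (fun q : α × ℕ => n q.1) := hn.comp PTF.fst
  have hx' : PTF (fun q : α × ℕ => x q.1) := hx.comp PTF.fst
  have hj : PTU (fun q : α × ℕ => min q.2 (n q.1)) := PTF.natMinUn PTF.snd hn'
  have h1 : PTF (fun a => ∑ j ∈ range (n a + 1),
      (((2 * n a + 1).choose (n a + 1 + min j (n a)) : ℕ) : ℤ) *
        ((1 + x a) ^ 2) ^ (n a + 1 + min j (n a)) * (-(1 - x a) ^ 2) ^ (n a - min j (n a))) := by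
    refine PTF.intSumRange (f := fun a j => (((2 * n a + 1).choose (n a + 1 + min j (n a)) : ℕ) : ℤ) *
        ((1 + x a) ^ 2) ^ (n a + 1 + min j (n a)) * (-(1 - x a) ^ 2) ^ (n a - min j (n a)))
      hn.succ ?_
    exact PTF.intMul (PTF.intMul
      (PTF.intNatCast (ptf_choose ((PTU.mul (PTU.const 2) hn').succ) (hn'.succ.add hj)))
      (PTF.intPow (PTF.intPowConst (PTF.intAdd (PTF.const 1) hx') 2) (hn'.succ.add hj)))
      (PTF.intPow (PTF.intNeg (PTF.intPowConst (PTF.intSub (PTF.const 1) hx') 2)) (hn'.sub hj))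
  refine h1.of_eq (fun a => ?_)
  rw [Mj, eval_finsetSum]
  refine Finset.sum_congr rfl (fun j hj => ?_)
  rw [min_eq_left (Nat.lt_succ_iff.1 (Finset.mem_range.1 hj))]
  simp

theorem ptf_eval_GI {n k : α → ℕ} {x : α → ℤ} (hn : PTU n) (hk : PTU (fun a => 2 ^ k a))
    (hx : PTF x) : PTF (fun a => (GI (n a) (k a)).eval (x a)) := by
  have hk0 := ptu_of_two_pow hk
  have h1 : PTF (fun a => ∏ i ∈ range (k a),
      (Mj (n a)).eval (x a ^ (min (2 ^ (min i (k a))) (2 ^ k a)))) := by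
    refine PTF.intProdRange
      (f := fun a i => (Mj (n a)).eval (x a ^ (min (2 ^ (min i (k a))) (2 ^ k a)))) hk0 ?_
    exact ptf_eval_Mj (hn.comp PTF.fst) (PTF.intPow (hx.comp PTF.fst)
      (PTF.natMinUn (PTF.natTwoPow (PTF.natMinUn PTF.snd (hk0.comp PTF.fst))) (hk.comp PTF.fst)))
  refine h1.of_eq (fun a => ?_)
  rw [GI, eval_prod]
  refine Finset.prod_congr rfl (fun i hi => ?_)
  have hi' := (Finset.mem_range.1 hi).le
  rw [min_eq_left hi', min_eq_left (Nat.pow_le_pow_right (by norm_num) hi'), expand_eval]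

theorem ptu_two_pow_pred {k : α → ℕ} (hk : PTU (fun a => 2 ^ k a)) : PTU (fun a => 2 ^ (k a - 1)) :=
  (PTF.natMinUn (PTF.natTwoPow (PTU.sub (ptu_of_two_pow hk) (PTU.const 1))) hk).of_eq
    (fun a => min_eq_left (Nat.pow_le_pow_right (by norm_num) (Nat.sub_le _ _)))

theorem ptf_eval_HI {n k Q2 : α → ℕ} {x : α → ℤ} (hn : PTU n) (hk : PTU (fun a => 2 ^ k a))
    (hQ : PTU Q2) (hx : PTF x) : PTF (fun a => (HI (n a) (k a) (Q2 a)).eval (x a)) :=
  (PTF.intMul (ptf_eval_Mj hn (PTF.intPow hx hQ))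
    (ptf_eval_GI (k := fun a => k a - 1) hn (ptu_two_pow_pred hk) hx)).of_eq
    (fun a => by rw [HI, eval_mul, expand_eval])

theorem ptf_coeff_GI {n k m : α → ℕ} (hn : PTU n) (hk : PTU (fun a => 2 ^ k a)) (hm : PTF m) :
    PTF (fun a => (GI (n a) (k a)).coeff (m a)) :=
  ptf_coeff (w := fun a => (7 * n a + 3) * k a) (D := fun a => (4 * n a + 2) * 2 ^ k a)
    ((((PTU.const 7).mul hn).add (PTU.const 3)).mul (ptu_of_two_pow hk))
    ((((PTU.const 4).mul hn).add (PTU.const 2)).mul hk) hm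
    (ptf_eval_GI (k := fun q : α × ℤ => k q.1) (hn.comp PTF.fst) (hk.comp PTF.fst) PTF.snd)
    (fun _ => pl1_GI_le _ _) (fun _ => natDegree_GI_le' _ _)

theorem ptf_coeff_HI {n k Q2 m : α → ℕ} (hn : PTU n) (hk : PTU (fun a => 2 ^ k a)) (hQ : PTU Q2)
    (hm : PTF m) : PTF (fun a => (HI (n a) (k a) (Q2 a)).coeff (m a)) :=
  ptf_coeff (w := fun a => (7 * n a + 3) * (k a - 1 + 1))
    (D := fun a => (4 * n a + 2) * (Q2 a + 2 ^ k a))
    ((((PTU.const 7).mul hn).add (PTU.const 3)).mul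
      (((ptu_of_two_pow hk).sub (PTU.const 1)).succ))
    ((((PTU.const 4).mul hn).add (PTU.const 2)).mul (hQ.add hk)) hm
    (ptf_eval_HI (k := fun q : α × ℤ => k q.1) (hn.comp PTF.fst) (hk.comp PTF.fst)
      (hQ.comp PTF.fst) PTF.snd)
    (fun _ => pl1_HI_le _ _ _) (fun _ => natDegree_HI_le' _ _ _)

theorem ptf_cZ {F : α → ℤ[X]} {x : α → ℤ} (hF : PTF₂ (fun a (m : ℕ) => (F a).coeff m))
    (hx : PTF x) : PTF (fun a => cZ (F a) (x a)) :=
  PTF.ite (PTPred.intLe (PTF.const 0) hx) (hF.comp₂ PTF.id (PTF.intToNat hx)) (PTF.const 0)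

theorem ptf_tap {F : α → ℤ[X]} {c m s : α → ℕ} {x : α → ℤ}
    (hF : PTF₂ (fun a (m : ℕ) => (F a).coeff m)) (hc : PTF c) (hm : PTF m) (hs : PTF s)
    (hx : PTF x) : PTF (fun a => tap (F a) (c a) (m a) (s a) (x a)) :=
  PTF.intEdiv (PTF.intMul (PTF.intNatCast hm) (ptf_cZ hF (PTF.intAdd hx (PTF.intNatCast hc))))
    (PTF.intNatCast hs)

theorem ptf_sG {n k : α → ℕ} (hn : PTU n) (hk : PTU k) : PTF (fun a => sG (n a) (k a)) :=
  PTF.natPow (PTF.const 4) ((((PTU.const 2).mul hn).succ).mul hk)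

theorem ptu_dG {n k : α → ℕ} (hn : PTU n) (hk : PTU (fun a => 2 ^ k a)) :
    PTU (fun a => dG (n a) (k a)) :=
  (((PTU.const 2).mul hn).succ).mul (hk.sub (PTU.const 1))

theorem ptu_dH {n k Q2 : α → ℕ} (hn : PTU n) (hk : PTU (fun a => 2 ^ k a)) (hQ : PTU Q2) :
    PTU (fun a => dH (n a) (k a) (Q2 a)) :=
  ((((PTU.const 2).mul hn).succ).mul hQ).add
    (ptu_dG (k := fun a => k a - 1) hn (ptu_two_pow_pred hk))

end Crest.Agent.X326.FB
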