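import Crest.Agent.X326.FB.Bank

/-!
# Row 326, filter bank: all levels, truncation and rounding (`MainStatement`)
-/

set_option autoImplicit false

namespace Crest.Agent.X326.FB

open Finset

variable {P Q p δ E : ℕ} {g h : ℤ → ℤ}

/-! ### norms -/

theorem level_lt (hδ : 6 * δ < P * Q) (e : ℕ) : 6 * δ < P * Q ^ (e + 1) :=
  hδ.trans_le (Nat.mul_le_mul_left _ (Nat.le_self_pow (Nat.succ_ne_zero e) Q))

/-- norm of one analysis level, in the shape used by `anaAll` -/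
theorem l1_ana_level (T : Taps P Q p δ E g h) (hQ : 0 < Q) (e Z : ℕ)
    (a : Arr) : l1 (P * Q ^ e * (P * Z)) (ana P Q (Q ^ (e + 1)) Z δ h a) ≤
      2 ^ p * gain P δ * l1 (P * Q ^ (e + 1) * Z) a := by
  have h2 := l1_ana T hQ (M := Q ^ (e + 1)) (M' := P * Q ^ e) (le_of_eq (by ring)) Z a
  rwa [mul_comm (Q ^ (e + 1)) P, mul_assoc (P * Q ^ e)] at h2

/-- norm of one synthesis level, in the shape used by `synAll` -/
theorem l1_syn_level (T : Taps P Q p δ E g h) (hP : 0 < P) (e Z : ℕ)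
    (c : Arr) : l1 (P * Q ^ (e + 1) * Z) (syn P Q (P * Q ^ e) Z δ g c) ≤
      2 ^ p * gain P δ * l1 (P * Q ^ e * (P * Z)) c := by
  have h2 := l1_syn T hP (M := Q ^ (e + 1)) (M' := P * Q ^ e) (le_of_eq (by ring)) Z c
  rwa [mul_comm (Q ^ (e + 1)) P, mul_assoc (P * Q ^ e)] at h2

/-! ### the error of all levels -/

theorem one_le_gain (hP : 0 < P) (δ : ℕ) : 1 ≤ gain P δ :=
  Nat.mul_pos (Nat.succ_pos _) hP

theorem bank_multi (T : Taps P Q p δ E g h) (hP : 0 < P) (hQ : 0 < Q) (hδ : 6 * δ < P * Q)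
    {c₀ K : ℕ} (hE : E ≤ 2 ^ p * c₀) (e : ℕ) :
    ∀ {Z : ℕ} {μ : Arr → Arr → Arr} (a b : Arr), Bil Z μ → P * Q ^ e ≤ K →
      2 ^ p * l1 (P * Q ^ e * Z) (synAll P Q δ g e Z (tower P e Z μ (anaAll P Q δ h e Z a)
        (anaAll P Q δ h e Z b)) - ((2 : ℤ) ^ (3 * p * e)) • cyc (P * Q ^ e) Z μ a b) ≤
      e * (2 ^ p * gain P δ) ^ (3 * e) * (2 * K * c₀) *
        (l1 (P * Q ^ e * Z) a * l1 (P * Q ^ e * Z) b) := by
  induction e with
  | zero =>
    intro Z μ a b _ _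
    simp [synAll, anaAll, tower, l1_zero]
  | succ e ih =>
    intro Z μ a b hμ hK
    have hK' : P * Q ^ e ≤ K :=
      le_trans (Nat.mul_le_mul_left _ (Nat.pow_le_pow_right hQ (Nat.le_succ e))) hK
    set A := ana P Q (Q ^ (e + 1)) Z δ h a with hA
    set B := ana P Q (Q ^ (e + 1)) Z δ h b with hB
    have h1 := ih A B (hμ.cyc P) hK'
    have h2 := bank_level (M := Q ^ (e + 1)) (M' := P * Q ^ e) (N := P * Q ^ (e + 1)) hμ T
      (Nat.mul_comm _ _) (by ring) (level_lt hδ e) a b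
    have hA' := l1_ana_level T hQ e Z a
    have hB' := l1_ana_level T hQ e Z b
    rw [← hA] at h2 hA'
    rw [← hB] at h2 hB'
    simp only [synAll, anaAll, tower]
    rw [← hA, ← hB]
    set Y := synAll P Q δ g e (P * Z) (tower P e (P * Z) (cyc P Z μ)
      (anaAll P Q δ h e (P * Z) A) (anaAll P Q δ h e (P * Z) B)) with hY
    set C := cyc (P * Q ^ e) (P * Z) (cyc P Z μ) A B with hC
    have e1 : syn P Q (P * Q ^ e) Z δ g Y -
        ((2 : ℤ) ^ (3 * p * (e + 1))) • cyc (P * Q ^ (e + 1)) Z μ a b =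
        syn P Q (P * Q ^ e) Z δ g (Y - ((2 : ℤ) ^ (3 * p * e)) • C) +
          ((2 : ℤ) ^ (3 * p * e)) • (syn P Q (P * Q ^ e) Z δ g C -
            ((2 : ℤ) ^ (3 * p)) • cyc (P * Q ^ (e + 1)) Z μ a b) := by
      simp only [syn, band_sub, band_smul, smul_sub, smul_smul, ← pow_add]
      rw [show 3 * p * e + 3 * p = 3 * p * (e + 1) by ring]
      abel
    rw [e1]
    have h3 := l1_syn_level T hP e Z (Y - ((2 : ℤ) ^ (3 * p * e)) • C)
    set s : ℤ := 2 ^ p with hs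
    set G : ℤ := (gain P δ : ℤ) with hG
    have hs0 : 0 < s := by positivity
    have hG1 : 1 ≤ G := by rw [hG]; exact_mod_cast one_le_gain hP δ
    have hse : (2 : ℤ) ^ (3 * p * e) = s ^ (3 * e) := by rw [hs, ← pow_mul]; congr 1; ring
    have hEz : (E : ℤ) ≤ s * c₀ := by rw [hs]; exact_mod_cast hE
    have hKz : ((P * Q ^ (e + 1) : ℕ) : ℤ) ≤ K := by exact_mod_cast hK
    set la := l1 (P * Q ^ (e + 1) * Z) a
    set lb := l1 (P * Q ^ (e + 1) * Z) b
    have hla : 0 ≤ la := l1_nonneg _ _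
    have hlb : 0 ≤ lb := l1_nonneg _ _
    have hAB : l1 (P * Q ^ e * (P * Z)) A * l1 (P * Q ^ e * (P * Z)) B ≤
        (s * G * la) * (s * G * lb) := mul_le_mul hA' hB' (l1_nonneg _ _) (by positivity)
    have h4 : s * l1 (P * Q ^ (e + 1) * Z)
        (syn P Q (P * Q ^ e) Z δ g (Y - ((2 : ℤ) ^ (3 * p * e)) • C)) ≤
        e * (s * G) ^ (3 * (e + 1)) * (2 * K * c₀) * (la * lb) := by
      calc _ ≤ s * (s * G * l1 (P * Q ^ e * (P * Z)) (Y - ((2 : ℤ) ^ (3 * p * e)) • C)) :=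
            mul_le_mul_of_nonneg_left h3 hs0.le
        _ = s * G * (s * l1 (P * Q ^ e * (P * Z)) (Y - ((2 : ℤ) ^ (3 * p * e)) • C)) := by ring
        _ ≤ s * G * (e * (s * G) ^ (3 * e) * (2 * K * c₀) * ((s * G * la) * (s * G * lb))) := by
            refine mul_le_mul_of_nonneg_left (h1.trans ?_) (by positivity)
            exact mul_le_mul_of_nonneg_left hAB (by positivity)
        _ = _ := by ring
    have h5 : s * l1 (P * Q ^ (e + 1) * Z) (((2 : ℤ) ^ (3 * p * e)) •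
        (syn P Q (P * Q ^ e) Z δ g C - ((2 : ℤ) ^ (3 * p)) • cyc (P * Q ^ (e + 1)) Z μ a b)) ≤
        (s * G) ^ (3 * (e + 1)) * (2 * K * c₀) * (la * lb) := by
      rw [l1_smul, hse, abs_of_pos (by positivity)]
      have h6 : ((P * Q ^ (e + 1) : ℕ) : ℤ) * ((s * G + s) * E) ≤ K * ((2 * s * G) * (s * c₀)) := by
        refine mul_le_mul hKz (mul_le_mul (by nlinarith) hEz (by positivity) (by positivity))
          (by positivity) (by positivity)
      have h7 : G ≤ G ^ (3 * (e + 1)) := le_self_pow₀ hG1 (by omega)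
      calc _ ≤ s * (s ^ (3 * e) * (K * ((2 * s * G) * (s * c₀)) * (la * lb))) := by
            refine mul_le_mul_of_nonneg_left (mul_le_mul_of_nonneg_left (h2.trans ?_)
              (by positivity)) hs0.le
            exact mul_le_mul_of_nonneg_right h6 (by positivity)
        _ = s ^ (3 * (e + 1)) * G * (2 * K * c₀) * (la * lb) := by ring
        _ ≤ s ^ (3 * (e + 1)) * G ^ (3 * (e + 1)) * (2 * K * c₀) * (la * lb) := by gcongr
        _ = _ := by rw [mul_pow]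
    calc _ ≤ _ := mul_le_mul_of_nonneg_left (l1_add_le _ _ _) hs0.le
      _ ≤ _ := by
        rw [mul_add]
        refine (add_le_add h4 h5).trans (le_of_eq ?_)
        push_cast
        ring

/-! ### truncation and rounding -/

theorem l1_trunc {n : ℕ} {ν : Arr → Arr → Arr} (hν : Bil n ν) (s : ℕ) (A B : Arr) {L : ℤ}
    (hA : l1 n A ≤ L) (hB : l1 n B ≤ L) :
    l1 n (ν A B - ((2 : ℤ) ^ (2 * s)) • ν (shr s A) (shr s B)) ≤
      n * 2 ^ s * (2 * L + n * 2 ^ s) := by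
  have hw : (0 : ℤ) < 2 ^ s := by positivity
  have key : ∀ X : Arr, l1 n (X - ((2 : ℤ) ^ s) • shr s X) ≤ n * 2 ^ s := l1_sub_shr_le n s
  have e1 : ν A B - ((2 : ℤ) ^ (2 * s)) • ν (shr s A) (shr s B) =
      ν (A - ((2 : ℤ) ^ s) • shr s A) B +
        ν (A - (A - ((2 : ℤ) ^ s) • shr s A)) (B - ((2 : ℤ) ^ s) • shr s B) := by
    rw [sub_sub_cancel]
    simp only [hν.sub_left, hν.sub_right, hν.smul_left, hν.smul_right, smul_smul,
      ← pow_add, two_mul]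
    abel
  rw [e1]
  have hL : 0 ≤ L := (l1_nonneg _ _).trans hA
  have h1 : l1 n (ν (A - ((2 : ℤ) ^ s) • shr s A) B) ≤ n * 2 ^ s * L :=
    (hν.l1_le _ _).trans (mul_le_mul (key A) hB (l1_nonneg _ _) (by positivity))
  have h2 : l1 n (ν (A - (A - ((2 : ℤ) ^ s) • shr s A)) (B - ((2 : ℤ) ^ s) • shr s B)) ≤
      (L + n * 2 ^ s) * (n * 2 ^ s) :=
    (hν.l1_le _ _).trans (mul_le_mul ((l1_sub_le _ _ _).trans (add_le_add hA (key A))) (key B)
      (l1_nonneg _ _) (by positivity))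
  refine (l1_add_le _ _ _).trans ((add_le_add h1 h2).trans (le_of_eq ?_))
  ring

theorem final_numeric {s G n A c₀ S C U : ℤ} {e : ℕ} (hs0 : 0 < s) (hG1 : 1 ≤ G) (hn1 : 1 ≤ n)
    (hA0 : 0 ≤ A) (hc0 : 0 ≤ c₀)
    (hp : 16 * (e + 1) * (c₀ + 1) * G ^ (3 * e + 3) * n ^ 2 * (A + 1) ^ 2 ≤ s)
    (h7 : s * |U - s ^ (2 * e) * s ^ (e + 3) * C| ≤
      ((e + 1 : ℕ) : ℤ) * (s * G) ^ (3 * (e + 1)) * (2 * n * c₀) * (A * A))
    (h6 : |U - s ^ (2 * e) * S| ≤
      (s * G) ^ (e + 1) * (n * s ^ e * (2 * ((s * G) ^ (e + 1) * A) + n * s ^ e))) :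
    2 * |S - s ^ (e + 3) * C| < s ^ (e + 3) := by
  have hs1 : 1 ≤ s := hs0
  have hA1 : A ≤ (A + 1) ^ 2 := by nlinarith
  have hA2 : A * A ≤ (A + 1) ^ 2 := by nlinarith
  have hA3 : 1 ≤ (A + 1) ^ 2 := by nlinarith
  have hn2 : n ≤ n ^ 2 := by nlinarith
  have hec : (1 : ℤ) ≤ (e + 1) * (c₀ + 1) :=
    one_le_mul_of_one_le_of_one_le (by omega) (by omega)
  have h8 : s ^ (2 * e) * |S - s ^ (e + 3) * C| ≤
      |U - s ^ (2 * e) * s ^ (e + 3) * C| + |U - s ^ (2 * e) * S| := by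
    rw [← abs_of_pos (pow_pos hs0 (2 * e)), ← abs_mul, abs_of_pos (pow_pos hs0 (2 * e)),
      show s ^ (2 * e) * (S - s ^ (e + 3) * C) =
        (U - s ^ (2 * e) * s ^ (e + 3) * C) - (U - s ^ (2 * e) * S) by ring]
    exact abs_sub _ _
  obtain ⟨W, hW⟩ : ∃ W, W = (e + 1) * (c₀ + 1) * G ^ (3 * e + 3) * n ^ 2 * (A + 1) ^ 2 := ⟨_, rfl⟩
  have b1 : ((e + 1 : ℕ) : ℤ) * (s * G) ^ (3 * (e + 1)) * (2 * n * c₀) * (A * A) ≤
      2 * (s ^ (2 * e) * s ^ (e + 3)) * W := by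
    calc _ = 2 * (s ^ (2 * e) * s ^ (e + 3)) *
          ((e + 1) * c₀ * G ^ (3 * e + 3) * n * (A * A)) := by push_cast; ring
      _ ≤ _ := by
          rw [hW]
          gcongr
          omega
  have b2 : s * ((s * G) ^ (e + 1) * (n * s ^ e * (2 * ((s * G) ^ (e + 1) * A)))) ≤
      2 * (s ^ (2 * e) * s ^ (e + 3)) * W := by
    calc _ = 2 * (s ^ (2 * e) * s ^ (e + 3)) * (1 * G ^ (2 * e + 2) * n * A) := by ring
      _ ≤ _ := by
          rw [hW]
          gcongr <;> omega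
  have b3 : s * ((s * G) ^ (e + 1) * (n * s ^ e * (n * s ^ e))) ≤
      (s ^ (2 * e) * s ^ (e + 3)) * W := by
    calc _ = (s ^ (2 * e) * s ^ (e + 2)) * (1 * G ^ (e + 1) * n ^ 2 * 1) := by ring
      _ ≤ _ := by
          rw [hW]
          gcongr <;> omega
  have h9 : s * (s ^ (2 * e) * |S - s ^ (e + 3) * C|) ≤ 5 * (s ^ (2 * e) * s ^ (e + 3)) * W := by
    have := mul_le_mul_of_nonneg_left h8 hs0.le
    have h10 := mul_le_mul_of_nonneg_left h6 hs0.le
    rw [mul_add] at this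
    have e5 : s * ((s * G) ^ (e + 1) * (n * s ^ e * (2 * ((s * G) ^ (e + 1) * A) + n * s ^ e))) =
        s * ((s * G) ^ (e + 1) * (n * s ^ e * (2 * ((s * G) ^ (e + 1) * A)))) +
          s * ((s * G) ^ (e + 1) * (n * s ^ e * (n * s ^ e))) := by ring
    linarith
  have hW16 : 16 * W ≤ s := by rw [hW]; linarith
  have hpos : 0 < s * s ^ (2 * e) := by positivity
  refine lt_of_mul_lt_mul_left ?_ hpos.le
  have h11 : 0 < s ^ (2 * e) * s ^ (e + 3) := by positivity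
  calc s * s ^ (2 * e) * (2 * |S - s ^ (e + 3) * C|)
      = 2 * (s * (s ^ (2 * e) * |S - s ^ (e + 3) * C|)) := by ring
    _ ≤ 2 * (5 * (s ^ (2 * e) * s ^ (e + 3)) * W) := by linarith
    _ = (s ^ (2 * e) * s ^ (e + 3)) * (10 * W) := by ring
    _ < (s ^ (2 * e) * s ^ (e + 3)) * s := mul_lt_mul_of_pos_left (by linarith) h11
    _ = _ := by ring

/-- **the filter bank computes the cyclic convolution exactly** -/
theorem main : MainStatement := by
  intro P Q p δ E c₀ e Z A g h μ a b c T hQ hQP hZ hδ hE hμ ha hb hp hc x hx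
  have hP : 0 < P := hQ.trans_le hQP
  have hν := hμ.tower P (e + 1)
  set n := P ^ (e + 2) * Z with hn
  have hn1 : 1 ≤ n := Nat.mul_pos (Nat.pow_pos hP) hZ
  have hK : P * Q ^ (e + 1) ≤ n := by
    calc P * Q ^ (e + 1) ≤ P * P ^ (e + 1) := Nat.mul_le_mul_left _ (Nat.pow_le_pow_left hQP _)
      _ = P ^ (e + 2) * 1 := by ring
      _ ≤ n := Nat.mul_le_mul_left _ hZ
  have h1 := bank_multi T hP hQ hδ hE (e + 1) a b hμ hK
  set s : ℤ := 2 ^ p with hs
  set G : ℤ := (gain P δ : ℤ) with hG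
  have hs0 : 0 < s := by positivity
  have hG1 : 1 ≤ G := by rw [hG]; exact_mod_cast one_le_gain hP δ
  have hA : l1 n (anaAll P Q δ h (e + 1) Z a) ≤ (s * G) ^ (e + 1) * A :=
    (l1_anaAll T hQ (e + 1) Z a).trans (mul_le_mul_of_nonneg_left ha (by positivity))
  have hB : l1 n (anaAll P Q δ h (e + 1) Z b) ≤ (s * G) ^ (e + 1) * A :=
    (l1_anaAll T hQ (e + 1) Z b).trans (mul_le_mul_of_nonneg_left hb (by positivity))
  have h2 := l1_trunc hν (p * e) _ _ hA hB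
  set ν := tower P (e + 1) Z μ with hνd
  set A' := anaAll P Q δ h (e + 1) Z a
  set B' := anaAll P Q δ h (e + 1) Z b
  have h3 := (l1_synAll T hP (e + 1) Z _).trans (mul_le_mul_of_nonneg_left h2 (by positivity))
  rw [synAll_sub, synAll_smul] at h3
  have h4 : synAll P Q δ g (e + 1) Z c x =
      synAll P Q δ g (e + 1) Z (ν (shr (p * e) A') (shr (p * e) B')) x :=
    synAll_congr hP hZ hc x hx
  have h5 := (mul_le_mul_of_nonneg_left (abs_le_l1 _ hx) hs0.le).trans h1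
  have h6 := (abs_le_l1 _ hx).trans h3
  simp only [Pi.sub_apply, Pi.smul_apply, smul_eq_mul] at h5 h6
  rw [← h4] at h6
  have hp' : (16 * (e + 1) * (c₀ + 1) * G ^ (3 * e + 3) * (n : ℤ) ^ 2 * (A + 1) ^ 2 : ℤ) ≤ s := by
    rw [hs, hG]
    exact_mod_cast hp
  have hn1' : (1 : ℤ) ≤ n := by exact_mod_cast hn1
  refine rnd_eq ?_
  have e1 : (2 : ℤ) ^ (p * (e + 3)) = s ^ (e + 3) := by rw [hs, ← pow_mul]
  have e2 : (2 : ℤ) ^ (3 * p * (e + 1)) = s ^ (2 * e) * s ^ (e + 3) := by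
    rw [hs, ← pow_mul, ← pow_mul, ← pow_add]; congr 1; ring
  have e3 : (2 : ℤ) ^ (2 * (p * e)) = s ^ (2 * e) := by rw [hs, ← pow_mul]; congr 1; ring
  have e4 : (2 : ℤ) ^ (p * e) = s ^ e := by rw [hs, ← pow_mul]
  rw [e1]
  rw [e2] at h5
  rw [e3, e4] at h6
  have hab : l1 (P * Q ^ (e + 1) * Z) a * l1 (P * Q ^ (e + 1) * Z) b ≤ (A : ℤ) * A :=
    mul_le_mul ha hb (l1_nonneg _ _) (by positivity)
  have h7 := h5.trans (mul_le_mul_of_nonneg_left hab (by positivity))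
  exact final_numeric hs0 hG1 hn1' (by positivity) (by positivity) hp' h7 h6

/-- entries of the grid convolution of the prepared inputs are small -/
theorem abs_tower_prep {Z A : ℕ} {μ : Arr → Arr → Arr} (hμ : Bil Z μ) (T : Taps P Q p δ E g h)
    (hQ : 0 < Q) (e : ℕ) {a b : Arr} (ha : l1 (P * Q ^ (e + 1) * Z) a ≤ A)
    (hb : l1 (P * Q ^ (e + 1) * Z) b ≤ A) :
    l1 (P ^ (e + 2) * Z) (tower P (e + 1) Z μ (prep P Q p δ h e Z a) (prep P Q p δ h e Z b)) ≤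
      ((2 ^ p * gain P δ ^ (e + 1) * A + P ^ (e + 2) * Z : ℕ) : ℤ) ^ 2 := by
  have key : ∀ a : Arr, l1 (P * Q ^ (e + 1) * Z) a ≤ A →
      l1 (P ^ (e + 2) * Z) (prep P Q p δ h e Z a) ≤
        ((2 ^ p * gain P δ ^ (e + 1) * A + P ^ (e + 2) * Z : ℕ) : ℤ) := fun a ha => by
    refine (l1_prep T hQ e Z a).trans ?_
    push_cast
    gcongr
  rw [sq]
  exact ((hμ.tower P (e + 1)).l1_le _ _).trans
    (mul_le_mul (key a ha) (key b hb) (l1_nonneg _ _) (by positivity))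

end Crest.Agent.X326.FB
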