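import Crest.Agent.X326.FB.Defs

/-!
# Filter bank: `ℓ¹` norms, bilinearity and locality
-/

set_option autoImplicit false
set_option linter.dupNamespace false

namespace Crest.Agent.X326.FB

open Finset

/-! ### sums over products of ranges -/

theorem sum_range_mul {M : Type*} [AddCommMonoid M] (n Z : ℕ) (f : ℕ → M) :
    ∑ x ∈ range (n * Z), f x = ∑ i ∈ range n, ∑ z ∈ range Z, f (i * Z + z) := by
  induction n with
  | zero => simp
  | succ n ih => rw [Nat.succ_mul, Finset.sum_range_add, ih, Finset.sum_range_succ]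

theorem blk_lt {n Z i z : ℕ} (hi : i < n) (hz : z < Z) : i * Z + z < n * Z := by
  have : (i + 1) * Z ≤ n * Z := Nat.mul_le_mul_right Z hi
  rw [Nat.succ_mul] at this
  omega

theorem blk_div {Z z : ℕ} (i : ℕ) (hz : z < Z) : (i * Z + z) / Z = i := by
  rw [mul_comm, Nat.mul_add_div (by omega), Nat.div_eq_of_lt hz, add_zero]

theorem blk_mod {Z z : ℕ} (i : ℕ) (hz : z < Z) : (i * Z + z) % Z = z := by
  rw [mul_comm, Nat.mul_add_mod, Nat.mod_eq_of_lt hz]

/-- for fixed `i`, the map `j ↦ (j + (n - i)) % n` permutes `range n` -/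
theorem sum_range_shift {M : Type*} [AddCommMonoid M] (n c : ℕ) (f : ℕ → M) :
    ∑ j ∈ range n, f ((j + c) % n) = ∑ j ∈ range n, f j := by
  rcases Nat.eq_zero_or_pos n with rfl | hn
  · simp
  refine Finset.sum_bij (fun j _ => (j + c) % n) (fun j _ => mem_range.2 (Nat.mod_lt _ hn))
    (fun j hj j' hj' e => ?_) (fun j hj => ?_) (fun _ _ => rfl)
  · have := (Nat.ModEq.add_right_cancel' c (show j + c ≡ j' + c [MOD n] from e))
    exact Nat.ModEq.eq_of_lt_of_lt this (mem_range.1 hj) (mem_range.1 hj')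
  · refine ⟨(j + (n - c % n)) % n, mem_range.2 (Nat.mod_lt _ hn), ?_⟩
    have h1 : c % n < n := Nat.mod_lt _ hn
    have h2 := Nat.div_add_mod c n
    rw [Nat.mod_add_mod, show j + (n - c % n) + c = j + n * (c / n + 1) by rw [mul_add]; omega,
      Nat.add_mul_mod_self_left, Nat.mod_eq_of_lt (mem_range.1 hj)]

/-! ### the `ℓ¹` norm -/

theorem l1_nonneg (n : ℕ) (a : Arr) : 0 ≤ l1 n a := Finset.sum_nonneg fun _ _ => abs_nonneg _

theorem l1_zero (n : ℕ) : l1 n 0 = 0 := by simp [l1]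

theorem l1_congr {n : ℕ} {a b : Arr} (h : ∀ x < n, a x = b x) : l1 n a = l1 n b :=
  Finset.sum_congr rfl fun x hx => by rw [h x (mem_range.1 hx)]

theorem l1_mono {n : ℕ} {a b : Arr} (h : ∀ x < n, |a x| ≤ |b x|) : l1 n a ≤ l1 n b :=
  Finset.sum_le_sum fun x hx => h x (mem_range.1 hx)

theorem l1_add_le (n : ℕ) (a b : Arr) : l1 n (a + b) ≤ l1 n a + l1 n b := by
  rw [l1, l1, l1, ← Finset.sum_add_distrib]
  exact Finset.sum_le_sum fun x _ => abs_add_le _ _

theorem l1_neg (n : ℕ) (a : Arr) : l1 n (-a) = l1 n a := by simp [l1]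

theorem l1_sub_le (n : ℕ) (a b : Arr) : l1 n (a - b) ≤ l1 n a + l1 n b := by
  rw [sub_eq_add_neg, ← l1_neg n b]; exact l1_add_le _ _ _

theorem l1_sub_comm (n : ℕ) (a b : Arr) : l1 n (a - b) = l1 n (b - a) := by
  rw [← l1_neg, neg_sub]

theorem l1_smul (n : ℕ) (c : ℤ) (a : Arr) : l1 n (c • a) = |c| * l1 n a := by
  simp [l1, abs_mul, Finset.mul_sum]

theorem l1_sum_le {ι : Type*} (n : ℕ) (s : Finset ι) (f : ι → Arr) :
    l1 n (∑ i ∈ s, f i) ≤ ∑ i ∈ s, l1 n (f i) := by
  classical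
  induction s using Finset.induction_on with
  | empty => simp [l1_zero]
  | insert i s hi ih =>
    rw [Finset.sum_insert hi, Finset.sum_insert hi]
    exact (l1_add_le _ _ _).trans (by gcongr)

theorem abs_le_l1 {n x : ℕ} (a : Arr) (hx : x < n) : |a x| ≤ l1 n a :=
  Finset.single_le_sum (f := fun x => |a x|) (fun _ _ => abs_nonneg _) (mem_range.2 hx)

theorem l1_le_of_abs_le {n : ℕ} {a : Arr} {B : ℤ} (h : ∀ x < n, |a x| ≤ B) : l1 n a ≤ n * B := by
  refine (Finset.sum_le_sum (g := fun _ => B) fun x hx => h x (mem_range.1 hx)).trans ?_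
  simp

theorem eq_zero_of_l1_le_zero {n : ℕ} {a : Arr} (h : l1 n a ≤ 0) {x : ℕ} (hx : x < n) : a x = 0 :=
  abs_nonpos_iff.1 ((abs_le_l1 a hx).trans h)

theorem l1_mul (n Z : ℕ) (a : Arr) : l1 (n * Z) a = ∑ i ∈ range n, l1 Z (blk Z i a) := by
  rw [l1, sum_range_mul]; rfl

theorem l1_blk_le {n Z i : ℕ} (a : Arr) (hi : i < n) : l1 Z (blk Z i a) ≤ l1 (n * Z) a := by
  rw [l1_mul]
  exact Finset.single_le_sum (f := fun i => l1 Z (blk Z i a)) (fun _ _ => l1_nonneg _ _)
    (mem_range.2 hi)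

theorem blk_add (Z i : ℕ) (a b : Arr) : blk Z i (a + b) = blk Z i a + blk Z i b := rfl
theorem blk_sub (Z i : ℕ) (a b : Arr) : blk Z i (a - b) = blk Z i a - blk Z i b := rfl
theorem blk_smul (Z i : ℕ) (c : ℤ) (a : Arr) : blk Z i (c • a) = c • blk Z i a := rfl

/-! ### bilinear products -/

namespace Bil

variable {Z : ℕ} {μ : Arr → Arr → Arr}

theorem zero_left (h : Bil Z μ) (b : Arr) : μ 0 b = 0 := by
  simpa using h.smul_left 0 0 b

theorem zero_right (h : Bil Z μ) (a : Arr) : μ a 0 = 0 := by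
  simpa using h.smul_right 0 a 0

theorem neg_left (h : Bil Z μ) (a b : Arr) : μ (-a) b = -μ a b := by
  simpa using h.smul_left (-1) a b

theorem neg_right (h : Bil Z μ) (a b : Arr) : μ a (-b) = -μ a b := by
  simpa using h.smul_right (-1) a b

theorem sub_left (h : Bil Z μ) (a a' b : Arr) : μ (a - a') b = μ a b - μ a' b := by
  rw [sub_eq_add_neg, h.add_left, h.neg_left, sub_eq_add_neg]

theorem sub_right (h : Bil Z μ) (a b b' : Arr) : μ a (b - b') = μ a b - μ a b' := by
  rw [sub_eq_add_neg, h.add_right, h.neg_right, sub_eq_add_neg]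

theorem sum_left (h : Bil Z μ) {ι : Type*} (s : Finset ι) (a : ι → Arr) (b : Arr) :
    μ (∑ i ∈ s, a i) b = ∑ i ∈ s, μ (a i) b := by
  classical
  induction s using Finset.induction_on with
  | empty => simp [h.zero_left]
  | insert i s hi ih => rw [Finset.sum_insert hi, Finset.sum_insert hi, h.add_left, ih]

theorem sum_right (h : Bil Z μ) {ι : Type*} (s : Finset ι) (a : Arr) (b : ι → Arr) :
    μ a (∑ i ∈ s, b i) = ∑ i ∈ s, μ a (b i) := by
  classical
  induction s using Finset.induction_on with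
  | empty => simp [h.zero_right]
  | insert i s hi ih => rw [Finset.sum_insert hi, Finset.sum_insert hi, h.add_right, ih]

theorem abs_le (h : Bil Z μ) (a b : Arr) {x : ℕ} (hx : x < Z) : |μ a b x| ≤ l1 Z a * l1 Z b :=
  (abs_le_l1 _ hx).trans (h.l1_le a b)

/-- locality: the product only reads the entries below `Z` -/
theorem congr (h : Bil Z μ) {a a' b b' : Arr} (ha : ∀ x < Z, a x = a' x)
    (hb : ∀ x < Z, b x = b' x) {x : ℕ} (hx : x < Z) : μ a b x = μ a' b' x := by
  have e1 : l1 Z (a - a') = 0 := by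
    rw [← l1_zero Z]; exact l1_congr fun x hx => by simp [ha x hx]
  have e2 : l1 Z (b - b') = 0 := by
    rw [← l1_zero Z]; exact l1_congr fun x hx => by simp [hb x hx]
  have h1 := eq_zero_of_l1_le_zero ((h.l1_le (a - a') b).trans (by rw [e1, zero_mul])) hx
  have h2 := eq_zero_of_l1_le_zero ((h.l1_le a' (b - b')).trans (by rw [e2, mul_zero])) hx
  rw [h.sub_left] at h1
  rw [h.sub_right] at h2
  simp only [Pi.sub_apply] at h1 h2
  omega

/-- perturbation of both arguments -/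
theorem l1_sub_le (h : Bil Z μ) (a a' b b' : Arr) :
    l1 Z (μ a b - μ a' b') ≤ l1 Z (a - a') * l1 Z b + l1 Z a' * l1 Z (b - b') := by
  have : μ a b - μ a' b' = μ (a - a') b + μ a' (b - b') := by
    rw [h.sub_left, h.sub_right]; abel
  rw [this]
  exact (l1_add_le _ _ _).trans (add_le_add (h.l1_le _ _) (h.l1_le _ _))

theorem of_eq {Z' : ℕ} (h : Bil Z μ) (e : Z = Z') : Bil Z' μ := e ▸ h

theorem cyc (h : Bil Z μ) (n : ℕ) : Bil (n * Z) (cyc n Z μ) where
  add_left a a' b := by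
    funext x; simp [FB.cyc, blk_add, h.add_left, Finset.sum_add_distrib]
  add_right a b b' := by
    funext x; simp [FB.cyc, blk_add, h.add_right, Finset.sum_add_distrib]
  smul_left c a b := by
    funext x
    simp only [FB.cyc, blk_smul, h.smul_left, Finset.mul_sum, Pi.smul_apply, smul_eq_mul]
  smul_right c a b := by
    funext x
    simp only [FB.cyc, blk_smul, h.smul_right, Finset.mul_sum, Pi.smul_apply, smul_eq_mul]
  l1_le a b := by
    have e : ∀ j, ∀ z ∈ range Z, |blk Z j (FB.cyc n Z μ a b) z|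
        = |(∑ i ∈ range n, μ (blk Z i a) (blk Z ((j + (n - i)) % n) b)) z| := fun j z hz => by
      simp [blk, FB.cyc, blk_div j (mem_range.1 hz), blk_mod j (mem_range.1 hz), Finset.sum_apply]
    calc l1 (n * Z) (FB.cyc n Z μ a b)
        = ∑ j ∈ range n, l1 Z (∑ i ∈ range n, μ (blk Z i a) (blk Z ((j + (n - i)) % n) b)) := by
          rw [l1_mul]
          exact Finset.sum_congr rfl fun j _ => Finset.sum_congr rfl (e j)
      _ ≤ ∑ j ∈ range n, ∑ i ∈ range n, l1 Z (blk Z i a) * l1 Z (blk Z ((j + (n - i)) % n) b) :=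
          Finset.sum_le_sum fun j _ =>
            (l1_sum_le _ _ _).trans (Finset.sum_le_sum fun i _ => h.l1_le _ _)
      _ = l1 (n * Z) a * l1 (n * Z) b := by
          rw [Finset.sum_comm, l1_mul, l1_mul, Finset.sum_mul]
          refine Finset.sum_congr rfl fun i _ => ?_
          rw [← Finset.mul_sum, sum_range_shift n (n - i) (fun j => l1 Z (blk Z j b))]

theorem tower (h : Bil Z μ) (P e : ℕ) : Bil (P ^ (e + 1) * Z) (tower P e Z μ) := by
  induction e generalizing Z μ with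
  | zero => simpa [FB.tower] using h.cyc P
  | succ e ih => exact (ih (h.cyc P)).of_eq (by ring)

end Bil

theorem bil_nega (r : ℕ) : Bil r (nega r) where
  add_left a a' b := by
    funext x
    simp only [nega, Pi.add_apply, ← Finset.sum_add_distrib]
    exact Finset.sum_congr rfl fun v _ => by split_ifs <;> ring
  add_right a b b' := by
    funext x
    simp only [nega, Pi.add_apply, ← Finset.sum_add_distrib]
    exact Finset.sum_congr rfl fun v _ => by split_ifs <;> ring
  smul_left c a b := by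
    funext x
    simp only [nega, Pi.smul_apply, smul_eq_mul, Finset.mul_sum]
    exact Finset.sum_congr rfl fun v _ => by split_ifs <;> ring
  smul_right c a b := by
    funext x
    simp only [nega, Pi.smul_apply, smul_eq_mul, Finset.mul_sum]
    exact Finset.sum_congr rfl fun v _ => by split_ifs <;> ring
  l1_le a b := by
    calc l1 r (nega r a b)
        ≤ ∑ u ∈ range r, ∑ v ∈ range r, |a v| * |b ((u + (r - v)) % r)| := by
          refine Finset.sum_le_sum fun u hu => (Finset.abs_sum_le_sum_abs _ _).trans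
            (Finset.sum_le_sum fun v hv => le_of_eq ?_)
          have hu := mem_range.1 hu
          have hv := mem_range.1 hv
          split_ifs with h
          · rw [show u + (r - v) = u - v + r by omega, Nat.add_mod_right,
              Nat.mod_eq_of_lt (by omega), abs_mul]
          · rw [Nat.mod_eq_of_lt (by omega), abs_neg, abs_mul, show u + (r - v) = u + r - v by omega]
      _ = l1 r a * l1 r b := by
          rw [Finset.sum_comm, l1, l1, Finset.sum_mul]
          refine Finset.sum_congr rfl fun v _ => ?_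
          rw [← Finset.mul_sum, sum_range_shift r (r - v) (fun j => |b j|)]

/-! ### the banded operator -/

section band

variable {P Z R ao ai : ℕ} {φ : ℕ → ℤ → ℤ}

theorem band_add (a b : Arr) :
    band P Z R ao ai φ (a + b) = band P Z R ao ai φ a + band P Z R ao ai φ b := by
  funext x; simp [band, mul_add, Finset.sum_add_distrib]

theorem band_sub (a b : Arr) :
    band P Z R ao ai φ (a - b) = band P Z R ao ai φ a - band P Z R ao ai φ b := by
  funext x; simp [band, mul_sub, Finset.sum_sub_distrib]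

theorem band_smul (c : ℤ) (a : Arr) : band P Z R ao ai φ (c • a) = c • band P Z R ao ai φ a := by
  funext x
  simp only [band, Pi.smul_apply, smul_eq_mul, Finset.mul_sum]
  exact Finset.sum_congr rfl fun i _ => by ring

theorem band_congr (hP : 0 < P) (hZ : 0 < Z) {a b : Arr} (h : ∀ x < R * P * Z, a x = b x) :
    band P Z R ao ai φ a = band P Z R ao ai φ b := by
  funext x
  refine Finset.sum_congr rfl fun i hi => ?_
  have hR : 0 < R := by have := mem_range.1 hi; omega
  rw [h _ (blk_lt (blk_lt (Nat.mod_lt _ hR) (Nat.mod_lt _ hP)) (Nat.mod_lt _ hZ))]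

theorem band_apply (a : Arr) (j : ℕ) {ρ z : ℕ} (hρ : ρ < P) (hz : z < Z) :
    band P Z R ao ai φ a ((j * P + ρ) * Z + z) = ∑ i ∈ range (2 * R),
      φ ρ (((j * ao : ℕ) : ℤ) - ((i * ai : ℕ) : ℤ)) * a ((i % R * P + ρ) * Z + z) := by
  simp only [band, blk_div _ hz, blk_mod _ hz, blk_mod _ hρ, mul_comm P Z,
    ← Nat.div_div_eq_div_mul, blk_div _ hρ]

/-- the norm of the banded operator is at most the `ℓ¹` norm of its filters -/
theorem l1_band {R' : ℕ} {L : ℤ} (hao : 0 < ao) (hR : R' * ao ≤ R * ai)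
    (hφ : ∀ ρ (S : Finset ℤ), ∑ m ∈ S, |φ ρ m| ≤ L) (a : Arr) :
    l1 (R' * P * Z) (band P Z R ao ai φ a) ≤ L * l1 (R * P * Z) a := by
  classical
  have col : ∀ ρ i, ∑ j ∈ range R', (|φ ρ (((j * ao : ℕ) : ℤ) - ((i * ai : ℕ) : ℤ))|
      + |φ ρ (((j * ao : ℕ) : ℤ) - (((R + i) * ai : ℕ) : ℤ))|) ≤ L := fun ρ i => by
    have inj : ∀ c : ℤ, Set.InjOn (fun j : ℕ => ((j * ao : ℕ) : ℤ) - c) (range R') := by
      intro c j _ j' _ e
      simp only [sub_left_inj, Nat.cast_inj] at e
      exact Nat.eq_of_mul_eq_mul_right hao e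
    have := hφ ρ ((range R').image (fun j : ℕ => ((j * ao : ℕ) : ℤ) - ((i * ai : ℕ) : ℤ)) ∪
      (range R').image (fun j : ℕ => ((j * ao : ℕ) : ℤ) - (((R + i) * ai : ℕ) : ℤ)))
    rw [Finset.sum_union, Finset.sum_image (inj _), Finset.sum_image (inj _)] at this
    · rwa [Finset.sum_add_distrib]
    · rw [Finset.disjoint_left]
      intro m h1 h2
      obtain ⟨j, -, rfl⟩ := Finset.mem_image.1 h1
      obtain ⟨j', hj', e⟩ := Finset.mem_image.1 h2
      have := blk_lt (mem_range.1 hj') hao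
      rw [add_mul] at e
      have h3 := blk_lt (z := 0) (mem_range.1 hj') hao
      omega
  have expand : ∀ (n : ℕ) (b : Arr), l1 (n * P * Z) b
      = ∑ ρ ∈ range P, ∑ z ∈ range Z, ∑ j ∈ range n, |b ((j * P + ρ) * Z + z)| := fun n b => by
    rw [l1, sum_range_mul, sum_range_mul, Finset.sum_comm]
    exact Finset.sum_congr rfl fun ρ _ => Finset.sum_comm
  rw [expand, expand, Finset.mul_sum]
  refine Finset.sum_le_sum fun ρ hρ => ?_
  rw [Finset.mul_sum]
  refine Finset.sum_le_sum fun z hz => ?_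
  calc ∑ j ∈ range R', |band P Z R ao ai φ a ((j * P + ρ) * Z + z)|
      ≤ ∑ j ∈ range R', ∑ i ∈ range R, (|φ ρ (((j * ao : ℕ) : ℤ) - ((i * ai : ℕ) : ℤ))|
        + |φ ρ (((j * ao : ℕ) : ℤ) - (((R + i) * ai : ℕ) : ℤ))|) * |a ((i * P + ρ) * Z + z)| := by
        refine Finset.sum_le_sum fun j _ => ?_
        rw [band_apply a j (mem_range.1 hρ) (mem_range.1 hz), two_mul, Finset.sum_range_add,
          ← Finset.sum_add_distrib]
        refine (Finset.abs_sum_le_sum_abs _ _).trans (Finset.sum_le_sum fun i hi => ?_)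
        rw [Nat.add_mod_left, Nat.mod_eq_of_lt (mem_range.1 hi), ← add_mul, abs_mul]
        exact mul_le_mul_of_nonneg_right (abs_add_le _ _) (abs_nonneg _)
    _ ≤ L * ∑ i ∈ range R, |a ((i * P + ρ) * Z + z)| := by
        rw [Finset.sum_comm, Finset.mul_sum]
        refine Finset.sum_le_sum fun i _ => ?_
        rw [← Finset.sum_mul]
        exact mul_le_mul_of_nonneg_right (col ρ i) (abs_nonneg _)

end band

/-- `ℓ¹` bound of a bounded filter supported in `[-D, D]`, after any translation -/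
theorem sum_abs_filter_le {f : ℤ → ℤ} {D : ℕ} {B : ℤ} (hs : ∀ m : ℤ, (D : ℤ) < |m| → f m = 0)
    (hB : ∀ m, |f m| ≤ B) (c : ℤ) (S : Finset ℤ) : ∑ m ∈ S, |f (m + c)| ≤ (2 * D + 1) * B := by
  classical
  have h0 : 0 ≤ B := (abs_nonneg _).trans (hB 0)
  calc ∑ m ∈ S, |f (m + c)| ≤ ∑ m ∈ S ∪ Icc (-(D : ℤ) - c) (D - c), |f (m + c)| :=
        Finset.sum_le_sum_of_subset_of_nonneg Finset.subset_union_left fun _ _ _ => abs_nonneg _
    _ = ∑ m ∈ Icc (-(D : ℤ) - c) (D - c), |f (m + c)| := by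
        refine (Finset.sum_subset Finset.subset_union_right fun m _ hm => ?_).symm
        rw [Finset.mem_Icc] at hm
        rw [hs _ (lt_abs.2 (by omega)), abs_zero]
    _ ≤ ∑ _m ∈ Icc (-(D : ℤ) - c) (D - c), B := Finset.sum_le_sum fun m _ => hB _
    _ = (2 * D + 1) * B := by
        rw [Finset.sum_const, Int.card_Icc, nsmul_eq_mul]
        congr 1
        omega

section levels

variable {P Q p δ E : ℕ} {g h : ℤ → ℤ}

theorem Taps.sum_abs_h (T : Taps P Q p δ E g h) (c : ℤ) (S : Finset ℤ) :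
    ∑ m ∈ S, |h (m + c)| ≤ 2 ^ p * gain P δ := by
  refine (sum_abs_filter_le T.supp_h T.abs_h c S).trans ?_
  unfold gain
  push_cast
  have : (0 : ℤ) ≤ 2 ^ p * P * δ := by positivity
  nlinarith

theorem Taps.sum_abs_g (T : Taps P Q p δ E g h) (c : ℤ) (S : Finset ℤ) :
    ∑ m ∈ S, |g (m + c)| ≤ 2 ^ p * gain P δ := by
  refine (sum_abs_filter_le (D := 2 * δ) (fun m hm => T.supp_g m (by exact_mod_cast hm))
    T.abs_g c S).trans (le_of_eq ?_)
  unfold gain
  push_cast
  ring

theorem l1_ana (T : Taps P Q p δ E g h) (hQ : 0 < Q) {M M' : ℕ} (hM : M' * Q ≤ M * P) (Z : ℕ)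
    (a : Arr) : l1 (M' * P * Z) (ana P Q M Z δ h a) ≤ 2 ^ p * gain P δ * l1 (M * P * Z) a :=
  l1_band hQ hM (fun ρ S => by simpa [sub_add, sub_eq_add_neg, add_assoc] using T.sum_abs_h (-ρ + δ) S) a

theorem l1_syn (T : Taps P Q p δ E g h) (hP : 0 < P) {M M' : ℕ} (hM : M * P ≤ M' * Q) (Z : ℕ)
    (c : Arr) : l1 (M * P * Z) (syn P Q M' Z δ g c) ≤ 2 ^ p * gain P δ * l1 (M' * P * Z) c :=
  l1_band hP hM (fun ρ S => by
    simpa [sub_eq_add_neg, add_assoc] using T.sum_abs_g (ρ + (M' * Q : ℕ) - 2 * δ) S) c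

theorem l1_anaAll (T : Taps P Q p δ E g h) (hQ : 0 < Q) (e Z : ℕ) (a : Arr) :
    l1 (P ^ (e + 1) * Z) (anaAll P Q δ h e Z a)
      ≤ (2 ^ p * gain P δ) ^ e * l1 (P * Q ^ e * Z) a := by
  induction e generalizing Z a with
  | zero => simp [anaAll]
  | succ e ih =>
    have h1 := ih (P * Z) (ana P Q (Q ^ (e + 1)) Z δ h a)
    have h2 := l1_ana T hQ (M := Q ^ (e + 1)) (M' := P * Q ^ e) (le_of_eq (by ring)) Z a
    rw [show P ^ (e + 1) * (P * Z) = P ^ (e + 1 + 1) * Z by ring, ← mul_assoc] at h1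
    rw [mul_comm (Q ^ (e + 1)) P] at h2
    refine h1.trans ?_
    rw [pow_succ (2 ^ p * (gain P δ : ℤ)), mul_assoc _ (2 ^ p * (gain P δ : ℤ))]
    exact mul_le_mul_of_nonneg_left h2 (by positivity)

theorem l1_synAll (T : Taps P Q p δ E g h) (hP : 0 < P) (e Z : ℕ) (c : Arr) :
    l1 (P * Q ^ e * Z) (synAll P Q δ g e Z c)
      ≤ (2 ^ p * gain P δ) ^ e * l1 (P ^ (e + 1) * Z) c := by
  induction e generalizing Z with
  | zero => simp [synAll]
  | succ e ih =>
    have h1 := ih (P * Z)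
    have h2 := l1_syn T hP (M := Q ^ (e + 1)) (M' := P * Q ^ e) (le_of_eq (by ring)) Z
      (synAll P Q δ g e (P * Z) c)
    rw [show P ^ (e + 1) * (P * Z) = P ^ (e + 1 + 1) * Z by ring, ← mul_assoc] at h1
    rw [mul_comm (Q ^ (e + 1)) P] at h2
    refine h2.trans ?_
    rw [pow_succ' (2 ^ p * (gain P δ : ℤ)), mul_assoc (2 ^ p * (gain P δ : ℤ))]
    exact mul_le_mul_of_nonneg_left h1 (by positivity)

theorem ana_add (M Z : ℕ) (a b : Arr) :
    ana P Q M Z δ h (a + b) = ana P Q M Z δ h a + ana P Q M Z δ h b := band_add a b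
theorem ana_sub (M Z : ℕ) (a b : Arr) :
    ana P Q M Z δ h (a - b) = ana P Q M Z δ h a - ana P Q M Z δ h b := band_sub a b
theorem ana_smul (M Z : ℕ) (c : ℤ) (a : Arr) :
    ana P Q M Z δ h (c • a) = c • ana P Q M Z δ h a := band_smul c a
theorem syn_add (M Z : ℕ) (a b : Arr) :
    syn P Q M Z δ g (a + b) = syn P Q M Z δ g a + syn P Q M Z δ g b := band_add a b
theorem syn_sub (M Z : ℕ) (a b : Arr) :
    syn P Q M Z δ g (a - b) = syn P Q M Z δ g a - syn P Q M Z δ g b := band_sub a b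
theorem syn_smul (M Z : ℕ) (c : ℤ) (a : Arr) :
    syn P Q M Z δ g (c • a) = c • syn P Q M Z δ g a := band_smul c a

theorem ana_congr (hP : 0 < P) {M Z : ℕ} (hZ : 0 < Z) {a b : Arr}
    (hab : ∀ x < M * P * Z, a x = b x) : ana P Q M Z δ h a = ana P Q M Z δ h b :=
  band_congr hP hZ hab

theorem syn_congr (hP : 0 < P) {M Z : ℕ} (hZ : 0 < Z) {a b : Arr}
    (hab : ∀ x < M * P * Z, a x = b x) : syn P Q M Z δ g a = syn P Q M Z δ g b :=
  band_congr hP hZ hab

theorem anaAll_add (e Z : ℕ) (a b : Arr) :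
    anaAll P Q δ h e Z (a + b) = anaAll P Q δ h e Z a + anaAll P Q δ h e Z b := by
  induction e generalizing Z a b with
  | zero => rfl
  | succ e ih => simp only [anaAll, ana_add, ih]

theorem anaAll_sub (e Z : ℕ) (a b : Arr) :
    anaAll P Q δ h e Z (a - b) = anaAll P Q δ h e Z a - anaAll P Q δ h e Z b := by
  induction e generalizing Z a b with
  | zero => rfl
  | succ e ih => simp only [anaAll, ana_sub, ih]

theorem anaAll_smul (e Z : ℕ) (c : ℤ) (a : Arr) :
    anaAll P Q δ h e Z (c • a) = c • anaAll P Q δ h e Z a := by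
  induction e generalizing Z a with
  | zero => rfl
  | succ e ih => simp only [anaAll, ana_smul, ih]

theorem synAll_add (e Z : ℕ) (a b : Arr) :
    synAll P Q δ g e Z (a + b) = synAll P Q δ g e Z a + synAll P Q δ g e Z b := by
  induction e generalizing Z with
  | zero => rfl
  | succ e ih => simp only [synAll, syn_add, ih]

theorem synAll_sub (e Z : ℕ) (a b : Arr) :
    synAll P Q δ g e Z (a - b) = synAll P Q δ g e Z a - synAll P Q δ g e Z b := by
  induction e generalizing Z with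
  | zero => rfl
  | succ e ih => simp only [synAll, syn_sub, ih]

theorem synAll_smul (e Z : ℕ) (c : ℤ) (a : Arr) :
    synAll P Q δ g e Z (c • a) = c • synAll P Q δ g e Z a := by
  induction e generalizing Z with
  | zero => rfl
  | succ e ih => simp only [synAll, syn_smul, ih]

theorem anaAll_congr (hP : 0 < P) {e Z : ℕ} (hZ : 0 < Z) {a b : Arr}
    (hab : ∀ x < P * Q ^ e * Z, a x = b x) :
    ∀ x < P ^ (e + 1) * Z, anaAll P Q δ h e Z a x = anaAll P Q δ h e Z b x := by
  cases e with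
  | zero => simpa [anaAll] using hab
  | succ e =>
    intro x _
    simp only [anaAll]
    rw [ana_congr hP hZ (M := Q ^ (e + 1)) (by rwa [mul_comm (Q ^ (e + 1)) P])]

theorem synAll_congr (hP : 0 < P) {e Z : ℕ} (hZ : 0 < Z) {a b : Arr}
    (hab : ∀ x < P ^ (e + 1) * Z, a x = b x) :
    ∀ x < P * Q ^ e * Z, synAll P Q δ g e Z a x = synAll P Q δ g e Z b x := by
  induction e generalizing Z with
  | zero => simpa [synAll] using hab
  | succ e ih =>
    intro x _
    simp only [synAll]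
    have := ih (Z := P * Z) (Nat.mul_pos hP hZ)
      (by rwa [show P ^ (e + 1) * (P * Z) = P ^ (e + 1 + 1) * Z by ring])
    rw [syn_congr hP hZ (M := P * Q ^ e) (by rwa [mul_assoc (P * Q ^ e)])]

theorem prep_congr (hP : 0 < P) {e Z : ℕ} (hZ : 0 < Z) {a b : Arr}
    (hab : ∀ x < P * Q ^ (e + 1) * Z, a x = b x) :
    ∀ x < P ^ (e + 2) * Z, prep P Q p δ h e Z a x = prep P Q p δ h e Z b x := fun x hx => by
  simp only [prep, shr, anaAll_congr hP hZ hab x hx]

theorem finish_congr (hP : 0 < P) {e Z : ℕ} (hZ : 0 < Z) {a b : Arr}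
    (hab : ∀ x < P ^ (e + 2) * Z, a x = b x) :
    ∀ x < P * Q ^ (e + 1) * Z, finish P Q p δ g e Z a x = finish P Q p δ g e Z b x :=
  fun x hx => by simp only [finish, rnd, synAll_congr hP hZ hab x hx]

end levels

/-! ### truncation -/

theorem abs_sub_shr_le (s : ℕ) (a : Arr) (x : ℕ) : |a x - 2 ^ s * shr s a x| ≤ 2 ^ s := by
  have h1 := Int.mul_ediv_add_emod (a x) (2 ^ s)
  have h2 := Int.emod_nonneg (a x) (b := 2 ^ s) (by positivity)
  have h3 := Int.emod_lt_of_pos (a x) (b := 2 ^ s) (by positivity)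
  rw [shr, abs_le]
  constructor <;> linarith

theorem l1_sub_shr_le (n s : ℕ) (a : Arr) : l1 n (a - (2 ^ s : ℤ) • shr s a) ≤ n * 2 ^ s :=
  l1_le_of_abs_le fun x _ => by simpa using abs_sub_shr_le s a x

theorem l1_shr_le {n s : ℕ} {a : Arr} {B : ℤ} (h : l1 n a ≤ 2 ^ s * B) : l1 n (shr s a) ≤ B + n := by
  have h1 : l1 n ((2 ^ s : ℤ) • shr s a) ≤ l1 n a + n * 2 ^ s := by
    have := l1_sub_le n a (a - (2 ^ s : ℤ) • shr s a)
    rw [sub_sub_cancel] at this
    exact this.trans (add_le_add le_rfl (l1_sub_shr_le n s a))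
  rw [l1_smul, abs_of_pos (by positivity)] at h1
  refine le_of_mul_le_mul_left (a := (2 ^ s : ℤ)) ?_ (by positivity)
  linarith

theorem l1_prep {P Q p δ E : ℕ} {g h : ℤ → ℤ} (T : Taps P Q p δ E g h) (hQ : 0 < Q) (e Z : ℕ)
    (a : Arr) : l1 (P ^ (e + 2) * Z) (prep P Q p δ h e Z a)
      ≤ 2 ^ p * gain P δ ^ (e + 1) * l1 (P * Q ^ (e + 1) * Z) a + (P ^ (e + 2) * Z : ℕ) := by
  refine l1_shr_le ((l1_anaAll T hQ (e + 1) Z a).trans (le_of_eq ?_))
  rw [mul_pow, ← pow_mul]
  ring

/-- rounding recovers an integer from an approximation of its multiple -/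
theorem rnd_eq {s : ℕ} {a : Arr} {x : ℕ} {y : ℤ} (h : 2 * |a x - 2 ^ s * y| < 2 ^ s) :
    rnd s a x = y := by
  have hpos : (0 : ℤ) < 2 ^ s := by positivity
  rw [rnd, Int.ediv_eq_iff_of_pos hpos]
  have := abs_lt.1 (show |a x - 2 ^ s * y| < 2 ^ s - 2 ^ s / 2 by omega)
  have := abs_le.1 (show |a x - 2 ^ s * y| ≤ 2 ^ s / 2 by omega)
  constructor <;> nlinarith

end Crest.Agent.X326.FB
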