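import Crest.Agent.X326.FB.PolyDefs

/-!
# Row 326, filter bank: correctness of one level on lists
-/

set_option autoImplicit false

namespace Crest.Agent.X326.FB

open Crest.Agent.Lib.PT Finset

section transp

variable {α : Type}

theorem mul_add_div_of_lt {c j : ℕ} (i : ℕ) (hj : j < c) : (i * c + j) / c = i := by
  rw [Nat.mul_comm, Nat.mul_add_div (by omega), Nat.div_eq_of_lt hj, Nat.add_zero]

theorem mul_add_mod_of_lt {c j : ℕ} (i : ℕ) (hj : j < c) : (i * c + j) % c = j := by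
  rw [Nat.mul_comm, Nat.mul_add_mod, Nat.mod_eq_of_lt hj]

theorem glueCols_tab (X a b : ℕ) (F G : ℕ → ℕ → α) :
    glueCols (tab X fun x => tab a (F x)) (tab X fun x => tab b (G x)) =
      tab X fun x => tab (a + b) fun j => if j < a then F x j else G x (j - a) := by
  rw [glueCols, zipWith_tab]
  exact tab_congr fun x _ => append_tab _ _ _ _

theorem pairUp_tab (n X c : ℕ) (U : ℕ → ℕ → α) :
    pairUp (tab (n * 2) fun i => tab X fun x => tab c fun j => U (i * c + j) x) =
      tab n fun i => tab X fun x => tab (c * 2) fun j => U (i * (c * 2) + j) x := by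
  rw [pairUp, chunks_tab n (by norm_num), map_tab]
  refine tab_congr fun i _ => ?_
  rw [tab_two]
  simp only [List.headD_cons, List.tail_cons]
  rw [glueCols_tab]
  refine tab_congr fun x _ => tab_congr' (by omega) fun j hj => ?_
  split_ifs with h
  · congr 1; ring
  · obtain ⟨j', rfl⟩ : ∃ j', j = c + j' := ⟨j - c, by omega⟩
    congr 1
    rw [Nat.add_sub_cancel_left]; ring

theorem pairUp_iter (β n X c : ℕ) (U : ℕ → ℕ → α) :
    pairUp^[β] (tab (n * 2 ^ β) fun i => tab X fun x => tab c fun j => U (i * c + j) x) =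
      tab n fun i => tab X fun x => tab (c * 2 ^ β) fun j => U (i * (c * 2 ^ β) + j) x := by
  induction β generalizing c with
  | zero => simp
  | succ β ih =>
    rw [Function.iterate_succ_apply, pow_succ, ← mul_assoc, pairUp_tab, ih,
      show c * 2 * 2 ^ β = c * (2 ^ β * 2) by ring]

theorem halve_tab (n X c : ℕ) (U : ℕ → ℕ → α) :
    halve (tab n fun i => tab X fun x => tab (c * 2) fun j => U (i * (c * 2) + j) x) =
      tab (n * 2) fun i => tab X fun x => tab c fun j => U (i * c + j) x := by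
  rw [halve, flatMap_tab n 2 _ _
    (fun i k => tab X fun x => tab c fun j => U ((i * 2 + k) * c + j) x)]
  · refine tab_congr fun k _ => ?_
    rw [Nat.div_add_mod' k 2]
  · intro i _
    rw [tab_two, map_tab, map_tab]
    have e : c * 2 / 2 = c := by omega
    congr 1
    · refine tab_congr fun x _ => ?_
      rw [length_tab, e, take_tab _ (by omega)]
      exact tab_congr fun j _ => by congr 1; ring
    · congr 1
      refine tab_congr fun x _ => ?_
      rw [length_tab, e, drop_tab]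
      exact tab_congr' (by omega) fun j _ => by congr 1; ring

theorem halve_iter (β n X c : ℕ) (U : ℕ → ℕ → α) :
    halve^[β] (tab n fun i => tab X fun x => tab (c * 2 ^ β) fun j => U (i * (c * 2 ^ β) + j) x) =
      tab (n * 2 ^ β) fun i => tab X fun x => tab c fun j => U (i * c + j) x := by
  induction β generalizing n with
  | zero => simp
  | succ β ih =>
    rw [Function.iterate_succ_apply, pow_succ, ← mul_assoc, halve_tab, ih,
      show n * 2 * 2 ^ β = n * (2 ^ β * 2) by ring]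

theorem flatten_tab_one (X : ℕ) (F : ℕ → ℕ → α) :
    (tab X fun x => tab 1 (F x)).flatten = tab X fun x => F x 0 := by
  rw [flatten_tab]
  exact tab_congr' (by omega) fun x _ => by simp [Nat.mod_one]

theorem downRows_tab (R : ℕ) {ao : ℕ} (h : 0 < ao) (F : ℕ → List α) :
    downRows ao (tab (R * ao) F) = tab R fun j => F (j * ao) := by
  rw [downRows, chunks_tab R h, map_tab]
  exact tab_congr fun j _ => by rw [headD_tab _ _ h, Nat.add_zero]

end transp

theorem upRows_tab (R X : ℕ) {ai : ℕ} (h : 0 < ai) (A : ℕ → ℕ → ℤ) :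
    upRows ai (tab R fun i => tab X (A i)) =
      tab (R * ai) fun n => tab X fun x => if n % ai = 0 then A (n / ai) x else 0 := by
  rw [upRows, flatMap_tab R ai _ _ (fun i k => tab X fun x => if k = 0 then A i x else 0)]
  intro i _
  obtain ⟨m, rfl⟩ : ∃ m, ai = m + 1 := ⟨ai - 1, by omega⟩
  rw [tab_succ, map_tab, replicate_eq_tab]
  simp

theorem blocksOf_tab (β n X : ℕ) (U : ℕ → ℕ → ℤ) :
    blocksOf β (tab (n * 2 ^ β) fun i => tab X (U i)) =
      tab n fun b => tab X fun x => tab (2 ^ β) fun j => U (b * 2 ^ β + j) x := by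
  have h := pairUp_iter β n X 1 U
  simp only [Nat.one_mul] at h
  rw [blocksOf, map_tab, ← h]
  congr 1
  refine tab_congr fun i _ => ?_
  rw [map_tab]
  exact tab_congr fun x _ => by simp [tab_one]

theorem mid_tab (B : ℕ) (f col : ℕ → ℤ) :
    mid (tab B f) (tab (B + B) col) = tab B fun t => ∑ i ∈ range B, f i * col (B - 1 + t - i) := by
  rw [mid, length_tab]
  refine tab_congr fun t ht => sum_congr rfl fun i hi => ?_
  have := mem_range.1 hi
  rw [getD_tab _ _ this, getD_tab _ _ (by omega)]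

/-- the cyclic correlation computed by `core` -/
def corr (L B Z : ℕ) (F U : ℕ → ℕ → ℤ) (N x : ℕ) : ℤ :=
  ∑ i ∈ range B, F (x / Z) i * U ((N + (B - 1 - i)) % L) x

theorem doubled_tab (β n X : ℕ) (U : ℕ → ℕ → ℤ) :
    List.zipWith glueCols (blocksOf β (tab (n * 2 ^ β) fun i => tab X (U i)))
      ((blocksOf β (tab (n * 2 ^ β) fun i => tab X (U i))).rotate 1) =
      tab n fun b => tab X fun x => tab (2 ^ β + 2 ^ β) fun j =>
        U ((b * 2 ^ β + j) % (n * 2 ^ β)) x := by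
  rw [blocksOf_tab, rotate_tab, zipWith_tab]
  refine tab_congr fun b hb => ?_
  rw [glueCols_tab]
  refine tab_congr fun x _ => tab_congr fun j hj => ?_
  generalize 2 ^ β = B at *
  split_ifs with h
  · rw [Nat.mod_eq_of_lt]
    have : (b + 1) * B ≤ n * B := Nat.mul_le_mul_right _ hb
    rw [Nat.succ_mul] at this
    omega
  · congr 1
    obtain ⟨j', rfl⟩ : ∃ j', j = B + j' := ⟨j - B, by omega⟩
    have hj' : j' < B := by omega
    rw [Nat.add_sub_cancel_left, show b * B + (B + j') = (b + 1) * B + j' by ring,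
      Nat.mul_comm n B, Nat.mod_mul, mul_add_mod_of_lt _ hj', mul_add_div_of_lt _ hj']
    ring

theorem filtered_tab (β n P Z : ℕ) (F U : ℕ → ℕ → ℤ) :
    filtered Z β (tab P fun ρ => tab (2 ^ β) (F ρ)) (tab (n * 2 ^ β) fun i => tab (P * Z) (U i)) =
      tab n fun b => tab (P * Z) fun x => tab (2 ^ β) fun t =>
        corr (n * 2 ^ β) (2 ^ β) Z F U (b * 2 ^ β + t) x := by
  rw [filtered, doubled_tab, map_tab,
    flatMap_tab P Z _ _ (fun ρ _ => tab (2 ^ β) (F ρ)) (fun ρ _ => replicate_eq_tab _ _)]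
  refine tab_congr fun b _ => ?_
  rw [zipWith_tab]
  refine tab_congr fun x _ => ?_
  rw [mid_tab]
  refine tab_congr fun t _ => sum_congr rfl fun i hi => ?_
  have := mem_range.1 hi
  congr 3
  omega

theorem core_tab (β n P Z R' : ℕ) {ao : ℕ} (hao : 0 < ao) (hR : n * 2 ^ β = R' * ao)
    (F U : ℕ → ℕ → ℤ) :
    core Z ao β (tab P fun ρ => tab (2 ^ β) (F ρ)) (tab (n * 2 ^ β) fun i => tab (P * Z) (U i)) =
      tab (R' * (P * Z)) fun k =>
        corr (n * 2 ^ β) (2 ^ β) Z F U (k / (P * Z) * ao) (k % (P * Z)) := by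
  have h := halve_iter β n (P * Z) 1 (corr (n * 2 ^ β) (2 ^ β) Z F U)
  simp only [Nat.one_mul] at h
  rw [core, filtered_tab, h, map_tab]
  simp only [flatten_tab_one, Nat.mul_one, Nat.add_zero]
  rw [hR, downRows_tab R' hao, flatten_tab]

theorem sum_range_mul' (a b : ℕ) (f : ℕ → ℤ) :
    ∑ n ∈ range (a * b), f n = ∑ i ∈ range a, ∑ k ∈ range b, f (i * b + k) := by
  induction a with
  | zero => simp
  | succ a ih => rw [Nat.succ_mul, sum_range_add, ih, sum_range_succ]

/-- the window of the upsampled sequence against the sum over the rows -/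
theorem window_sum {R ai B n₀ c : ℕ} (hai : 0 < ai) (hn : n₀ + B ≤ (c + 2) * (R * ai))
    (hc : c * (R * ai) < n₀ + ai) (ψ A : ℕ → ℤ) (hψ : ∀ n, ψ n ≠ 0 → n₀ ≤ n ∧ n < n₀ + B) :
    ∑ m ∈ range B, ψ (n₀ + m) *
        (if (n₀ + m) % (R * ai) % ai = 0 then A ((n₀ + m) % (R * ai) / ai) else 0) =
      ∑ i ∈ range (2 * R), ψ ((c * R + i) * ai) * A (i % R) := by
  set G : ℕ → ℤ := fun n => ψ n * (if n % (R * ai) % ai = 0 then A (n % (R * ai) / ai) else 0)
    with hG
  have hz : ∀ n, ¬ (n₀ ≤ n ∧ n < n₀ + B) → ψ n = 0 := fun n hn' => by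
    by_contra hc
    exact hn' (hψ n hc)
  have h1 : ∑ m ∈ range B, G (n₀ + m) = ∑ n ∈ range ((c * R + 2 * R) * ai), G n := by
    have e := sum_Ico_eq_sum_range G n₀ (n₀ + B)
    rw [Nat.add_sub_cancel_left] at e
    rw [← e]
    refine sum_subset (fun n hn' => ?_) (fun n _ hn' => ?_)
    · have := (mem_Ico.1 hn').2
      rw [mem_range, show (c * R + 2 * R) * ai = (c + 2) * (R * ai) by ring]
      omega
    · simp [hG, hz n (fun h => hn' (mem_Ico.2 h))]
  have h2 : ∀ i, ∑ k ∈ range ai, G (i * ai + k) = ψ (i * ai) * A (i % R) := by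
    intro i
    rw [sum_eq_single 0]
    · simp only [hG, Nat.add_zero]
      rw [Nat.mul_mod_mul_right, if_pos (Nat.mul_mod_left _ _), Nat.mul_div_cancel _ hai]
    · intro k hk hk0
      simp only [hG]
      rw [Nat.mod_mod_of_dvd _ (Dvd.intro_left R rfl), mul_add_mod_of_lt _ (mem_range.1 hk),
        if_neg hk0, mul_zero]
    · intro h
      exact absurd (mem_range.2 hai) h
  refine h1.trans ?_
  rw [sum_range_mul']
  simp only [h2]
  rw [sum_range_add, sum_eq_zero, zero_add]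
  · refine sum_congr rfl fun i _ => ?_
    rw [Nat.mul_comm c R, Nat.mul_add_mod]
  · intro i hi
    have h3 : (i + 1) * ai ≤ c * R * ai := Nat.mul_le_mul_right _ (mem_range.1 hi)
    rw [Nat.succ_mul, mul_assoc] at h3
    rw [hz _ (by omega), zero_mul]

/-- the list program computes the banded operator -/
theorem core_band {P Z R R' γ ao ai β s c : ℕ} (φ : ℕ → ℤ → ℤ) (F : ℕ → ℕ → ℤ) (a : Arr) (σ : ℤ)
    (hP : 0 < P) (hZ : 0 < Z) (hao : 0 < ao) (hai : 0 < ai) (hd : 2 ^ β ∣ R * ai)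
    (hR : R * ai = R' * ao) (hσ : (s : ℤ) = σ + (c * (R * ai) : ℕ)) (hc : -σ < ai)
    (hs : σ + (2 ^ β : ℕ) ≤ (R * ai : ℕ) + ao)
    (hφ : ∀ ρ < P, ∀ μ : ℤ, φ ρ (γ * μ) ≠ 0 → σ ≤ -μ ∧ -μ < σ + (2 ^ β : ℕ))
    (hF : ∀ ρ < P, ∀ i m : ℕ, i + m + 1 = 2 ^ β → F ρ i = φ ρ (γ * -(σ + m))) :
    core Z ao β (tab P fun ρ => tab (2 ^ β) (F ρ))
        ((upRows ai (chunks (P * Z) (tab (R * P * Z) a))).rotate s) =
      tab (R' * P * Z) (band P Z R (γ * ao) (γ * ai) φ a) := by
  obtain ⟨n, hn⟩ := hd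
  rw [Nat.mul_comm (2 ^ β)] at hn
  have hX : 0 < P * Z := Nat.mul_pos hP hZ
  rw [mul_assoc R, chunks_tab R hX, upRows_tab R _ hai, rotate_tab]
  conv_lhs => rw [hn]
  rw [core_tab β n P Z R' hao (hn ▸ hR), mul_assoc R', ← hn]
  refine tab_congr fun k hk => ?_
  have hj : k / (P * Z) < R' := (Nat.div_lt_iff_lt_mul hX).2 hk
  have hρ : k / Z % P < P := Nat.mod_lt _ hP
  have hj' : (k / (P * Z) + 1) * ao ≤ R' * ao := Nat.mul_le_mul_right _ hj
  rw [Nat.succ_mul] at hj'
  have hw := window_sum (R := R) (B := 2 ^ β) (n₀ := k / (P * Z) * ao + s) (c := c) hai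
    (by rw [Nat.add_mul]; omega) (by omega)
    (fun n => φ (k / Z % P) (γ * (((k / (P * Z) * ao : ℕ) : ℤ) + (c * (R * ai) : ℕ) - n)))
    (fun i => a (i * (P * Z) + k % (P * Z))) (fun n hn' => by
      have := hφ _ hρ _ hn'
      omega)
  have ex : k % (P * Z) = k / Z % P * Z + k % Z := by
    rw [Nat.mul_comm P Z, Nat.mod_mul]; ring
  rw [corr, Nat.mod_mul_left_div_self, ← sum_range_reflect]
  refine Eq.trans (sum_congr rfl fun m hm => ?_) (hw.trans (sum_congr rfl fun i _ => ?_))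
  · have hm' := mem_range.1 hm
    rw [hF _ hρ _ m (by omega), show 2 ^ β - 1 - (2 ^ β - 1 - m) = m by omega, Nat.mod_add_mod,
      show k / (P * Z) * ao + m + s = k / (P * Z) * ao + s + m by ring]
    congr 3
    omega
  · rw [ex]
    congr 2
    · push_cast
      ring
    · ring

theorem length_upRows {R X ai : ℕ} (hX : 0 < X) (hai : 0 < ai) (a : Arr) :
    (upRows ai (chunks X (tab (R * X) a))).length = R * ai := by
  rw [chunks_tab R hX, upRows_tab R _ hai, length_tab]

theorem anaL_spec : AnaLStatement := by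
  intro P Q γ ν β δ M M' Z h a hP hQ hγ hν hZ hM hMM hd hB hh
  have hP0 : 0 < P := by rw [hP]; exact Nat.mul_pos hγ (by omega)
  have hle : 2 ^ β ≤ M * ν := Nat.le_of_dvd (Nat.mul_pos hM (by omega)) hd
  have hν' : ν ≤ M * ν := Nat.le_mul_of_pos_left _ hM
  have hγ' : (0 : ℤ) < γ := by exact_mod_cast hγ
  have hP' : (P : ℤ) = γ * ν := by exact_mod_cast hP
  have hQ' : (Q : ℤ) = γ * (ν - 1) := by rw [hQ]; push_cast [show 1 ≤ ν by omega]; rfl
  have key := core_band (P := P) (Z := Z) (R := M) (R' := M') (γ := γ) (ao := ν - 1) (ai := ν)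
    (β := β) (s := M * ν + 1 - ν) (c := 1) (fun ρ m => h (m - ρ + δ))
    (fun ρ m => h ((γ : ℤ) * m - ρ + (δ + Q : ℕ) - γ * (((2 ^ β : ℕ) : ℤ) - 1))) a (1 - ν) hP0 hZ
    (by omega) (by omega) hd hMM (by omega) (by omega) (by omega) (fun ρ hρ μ hμ => ?_)
    (fun ρ _ i m him => ?_)
  · rw [← hP, ← hQ] at key
    rw [anaL, tabA, length_tab, mul_assoc M, length_upRows (Nat.mul_pos hP0 hZ) (by omega),
      ← mul_assoc M]
    exact key
  · have h1 : |(γ : ℤ) * μ - ρ + δ| ≤ δ := by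
      by_contra hc
      exact hμ (hh _ (not_le.1 hc))
    rw [abs_le] at h1
    have hB' : (4 * δ + P : ℤ) ≤ γ * ((2 ^ β : ℕ) : ℤ) := by exact_mod_cast hB
    have hρ' : (ρ : ℤ) < P := by exact_mod_cast hρ
    have h2 : μ < ν := lt_of_mul_lt_mul_left (a := (γ : ℤ)) (by omega) hγ'.le
    have h3 : (ν : ℤ) - μ ≤ ((2 ^ β : ℕ) : ℤ) :=
      le_of_mul_le_mul_left (a := (γ : ℤ)) (by rw [mul_sub]; omega) hγ'
    omega
  · rw [← him]
    congr 1
    push_cast
    rw [hQ']
    ring

theorem synL_spec : SynLStatement := by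
  intro P Q γ ν β δ M M' Z g a hP hQ hγ hν hZ hM hMM hd hB hg
  have hP0 : 0 < P := by rw [hP]; exact Nat.mul_pos hγ (by omega)
  have hle : 2 ^ β ≤ M * ν := Nat.le_of_dvd (Nat.mul_pos hM (by omega)) hd
  have hγ' : (0 : ℤ) < γ := by exact_mod_cast hγ
  have hP' : (P : ℤ) = γ * ν := by exact_mod_cast hP
  have hN : ((M' * Q : ℕ) : ℤ) = γ * ((M' * (ν - 1) : ℕ) : ℤ) := by
    rw [hQ]; push_cast; ring
  have key := core_band (P := P) (Z := Z) (R := M') (R' := M) (γ := γ) (ao := ν) (ai := ν - 1)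
    (β := β) (s := M' * (ν - 1) + ν - 2 ^ β) (c := 0)
    (fun ρ m => g (m + ρ + (M' * Q : ℕ) - 2 * δ))
    (fun ρ m => g ((γ : ℤ) * m + ρ + γ - P - 2 * δ)) a
    (((M' * (ν - 1) : ℕ) : ℤ) + ν - (2 ^ β : ℕ)) hP0 hZ
    (by omega) (by omega) (hMM ▸ hd) hMM.symm (by omega) (by omega) (by omega)
    (fun ρ hρ μ hμ => ?_) (fun ρ _ i m him => ?_)
  · rw [← hP, ← hQ] at key
    rw [synL, tabS, length_tab, mul_assoc M', length_upRows (Nat.mul_pos hP0 hZ) (by omega),
      ← mul_assoc M']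
    exact key
  · have h1 : |(γ : ℤ) * μ + ρ + (M' * Q : ℕ) - 2 * δ| ≤ 2 * δ := by
      by_contra hc
      exact hμ (hg _ (not_le.1 hc))
    rw [abs_le, hN] at h1
    have hB' : (4 * δ + P : ℤ) ≤ γ * ((2 ^ β : ℕ) : ℤ) := by exact_mod_cast hB
    have hρ' : (ρ : ℤ) < P := by exact_mod_cast hρ
    generalize ((M' * (ν - 1) : ℕ) : ℤ) = L at *
    have h2 : -μ < L + ν :=
      lt_of_mul_lt_mul_left (a := (γ : ℤ)) (by rw [mul_neg, mul_add]; omega) hγ'.le
    have h3 : L + ν + μ ≤ ((2 ^ β : ℕ) : ℤ) :=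
      le_of_mul_le_mul_left (a := (γ : ℤ)) (by rw [mul_add, mul_add]; omega) hγ'
    omega
  · rw [← him, hN, hP']
    congr 1
    push_cast
    ring

end Crest.Agent.X326.FB
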