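import Crest.Agent.X326.FB.PolyAllDefs
import Crest.Agent.X326.TC.Map
import Crest.Agent.X326.TC.Un
import Crest.Agent.X326.TC.ListLin
import Crest.Agent.X326.TC.IntLin

/-!
# Row 326, filter bank: all levels on lists (correctness and time)
-/

set_option autoImplicit false

namespace Crest.Agent.X326.FB

open Crest.Agent.Lib.PT

/-! ### the parameters -/

namespace BankOk

variable {P Q γ ν β δ Z : ℕ}

theorem P_pos (h : BankOk P Q γ ν β δ Z) : 0 < P := by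
  rw [h.P_eq]; exact Nat.mul_pos h.γ_pos (by have := h.two_le; omega)

theorem Q_pos (h : BankOk P Q γ ν β δ Z) : 0 < Q := by
  rw [h.Q_eq]; exact Nat.mul_pos h.γ_pos (by have := h.two_le; omega)

theorem Q_le (h : BankOk P Q γ ν β δ Z) : Q ≤ P := by
  rw [h.P_eq, h.Q_eq]; exact Nat.mul_le_mul_left _ (Nat.sub_le _ _)

theorem le_pow (h : BankOk P Q γ ν β δ Z) : ν ≤ 2 ^ β := by
  have h1 := h.room
  rw [h.P_eq] at h1
  exact Nat.le_of_mul_le_mul_left (le_trans (Nat.le_add_left _ _) h1) h.γ_pos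

theorem pow_le (h : BankOk P Q γ ν β δ Z) : 2 ^ β ≤ P := Nat.le_of_dvd h.P_pos h.dvd

theorem of_pos (h : BankOk P Q γ ν β δ Z) {Z' : ℕ} (hZ : 0 < Z') : BankOk P Q γ ν β δ Z' :=
  ⟨h.P_eq, h.Q_eq, h.γ_pos, h.two_le, hZ, h.dvd, h.room⟩

theorem mul (h : BankOk P Q γ ν β δ Z) : BankOk P Q γ ν β δ (P * Z) :=
  h.of_pos (Nat.mul_pos h.P_pos h.Z_pos)

theorem pow_mul (h : BankOk P Q γ ν β δ Z) (i : ℕ) : BankOk P Q γ ν β δ (P ^ i * Z) :=
  h.of_pos (Nat.mul_pos (pow_pos h.P_pos i) h.Z_pos)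

theorem level (h : BankOk P Q γ ν β δ Z) (e : ℕ) : Q ^ (e + 1) * ν = P * Q ^ e * (ν - 1) := by
  rw [pow_succ]
  nth_rewrite 2 [h.Q_eq]
  rw [h.P_eq]
  ring

theorem dvd_level (h : BankOk P Q γ ν β δ Z) (e : ℕ) : 2 ^ β ∣ Q ^ (e + 1) * ν := by
  rw [h.level]
  exact (h.dvd.mul_right _).mul_right _

end BankOk

@[simp] theorem length_tabA (P γ δ B : ℕ) (h : ℤ → ℤ) : (tabA P γ δ B h).length = P := by
  simp [tabA]

@[simp] theorem length_tabS (P γ δ B : ℕ) (g : ℤ → ℤ) : (tabS P γ δ B g).length = P := by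
  simp [tabS]

theorem row_tabA {P γ δ B wt : ℕ} {h : ℤ → ℤ} (hw : ∀ m, |h m| < 2 ^ wt) :
    ∀ r ∈ tabA P γ δ B h, r.length = B ∧ Wd wt r :=
  forall_mem_tab.2 fun _ _ => ⟨length_tab _ _, forall_mem_tab.2 fun _ _ => hw _⟩

theorem row_tabS {P γ δ B wt : ℕ} {g : ℤ → ℤ} (hw : ∀ m, |g m| < 2 ^ wt) :
    ∀ r ∈ tabS P γ δ B g, r.length = B ∧ Wd wt r :=
  forall_mem_tab.2 fun _ _ => ⟨length_tab _ _, forall_mem_tab.2 fun _ _ => hw _⟩

theorem Wd.of_le {w w' : ℕ} {l : List ℤ} (h : Wd w l) (hw : w ≤ w') : Wd w' l :=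
  fun v hv => (h v hv).trans_le (pow_le_pow_right₀ (by norm_num) hw)

theorem Wd.sz_list_le {w : ℕ} {l : List ℤ} (h : Wd w l) : sz l ≤ l.length * (2 * (w + 3) + 1) :=
  Lib.PT.sz_list_le fun v hv => sz_int_le_of_abs_lt (h v hv)

/-! ### correctness -/

section correct

variable {P Q γ ν β δ Z : ℕ}

theorem anaL_level (hA : AnaLStatement) (ok : BankOk P Q γ ν β δ Z) {h : ℤ → ℤ}
    (hs : ∀ m : ℤ, (δ : ℤ) < |m| → h m = 0) (e : ℕ) (a : Arr) :
    anaL Z ν β (tabA P γ (δ + Q) (2 ^ β) h) (tab (P * Q ^ (e + 1) * Z) a) =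
      tab (P * Q ^ e * (P * Z)) (ana P Q (Q ^ (e + 1)) Z δ h a) := by
  rw [mul_comm P (Q ^ (e + 1)), ← mul_assoc]
  exact hA P Q γ ν β δ _ _ Z h a ok.P_eq ok.Q_eq ok.γ_pos ok.two_le ok.Z_pos
    (pow_pos ok.Q_pos _) (ok.level e) (ok.dvd_level e) ok.room hs

theorem synL_level (hS : SynLStatement) (ok : BankOk P Q γ ν β δ Z) {g : ℤ → ℤ}
    (hs : ∀ m : ℤ, (2 * δ : ℤ) < |m| → g m = 0) (e : ℕ) (c : Arr) :
    synL Z ν β (tabS P γ δ (2 ^ β) g) (tab (P * Q ^ e * (P * Z)) c) =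
      tab (P * Q ^ (e + 1) * Z) (syn P Q (P * Q ^ e) Z δ g c) := by
  rw [mul_comm P (Q ^ (e + 1)), ← mul_assoc]
  exact hS P Q γ ν β δ _ _ Z g c ok.P_eq ok.Q_eq ok.γ_pos ok.two_le ok.Z_pos
    (pow_pos ok.Q_pos _) (ok.level e) (ok.dvd_level e) ok.room hs

theorem anaAllL_tab (hA : AnaLStatement) {h : ℤ → ℤ} (hs : ∀ m : ℤ, (δ : ℤ) < |m| → h m = 0)
    (e : ℕ) : ∀ {Z : ℕ} (_ : BankOk P Q γ ν β δ Z) (a : Arr),
      anaAllL ν β (tabA P γ (δ + Q) (2 ^ β) h) e Z (tab (P * Q ^ e * Z) a) =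
        tab (P ^ (e + 1) * Z) (anaAll P Q δ h e Z a) := by
  induction e with
  | zero => intro Z _ a; simp [anaAllL, anaAll]
  | succ e ih =>
    intro Z ok a
    rw [anaAllL, anaAll, anaL_level hA ok hs, length_tabA, ih ok.mul, pow_succ P (e + 1), mul_assoc]

theorem synAllL_tab (hS : SynLStatement) {g : ℤ → ℤ} (hs : ∀ m : ℤ, (2 * δ : ℤ) < |m| → g m = 0)
    (e : ℕ) : ∀ {Z : ℕ} (_ : BankOk P Q γ ν β δ Z) (c : Arr),
      synAllL ν β (tabS P γ δ (2 ^ β) g) e Z (tab (P ^ (e + 1) * Z) c) =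
        tab (P * Q ^ e * Z) (synAll P Q δ g e Z c) := by
  induction e with
  | zero => intro Z _ c; simp [synAllL, synAll]
  | succ e ih =>
    intro Z ok c
    rw [synAllL, synAll, length_tabS, pow_succ P (e + 1), mul_assoc, ih ok.mul, synL_level hS ok hs]

theorem prepL_of (hA : AnaLStatement) : PrepLStatement := by
  intro P Q γ ν β δ Z p e h a ok hs
  rw [prepL, anaAllL_tab hA hs (e + 1) ok, map_tab]
  rfl

theorem finishL_of (hS : SynLStatement) : FinishLStatement := by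
  intro P Q γ ν β δ Z p e g c ok hs
  rw [finishL, synAllL_tab hS hs (e + 1) ok, map_tab]
  rfl

end correct

/-! ### the loop over the levels -/

/-- state of the loop: `((ν, β, table), Z, data)` -/
abbrev LoopSt : Type := (Un × Un × List (List ℤ)) × Un × List ℤ

/-- one analysis step -/
def anaStep (s : LoopSt) : LoopSt :=
  (s.1, ⟨s.1.2.2.length * s.2.1.val⟩, anaL s.2.1.val s.1.1.val s.1.2.1.val s.1.2.2 s.2.2)

/-- one synthesis step -/
def synStep (s : LoopSt) : LoopSt :=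
  (s.1, ⟨s.2.1.val / s.1.2.2.length⟩, synL s.2.1.val s.1.1.val s.1.2.1.val s.1.2.2 s.2.2)

theorem anaStep_iterate (ν β : ℕ) (tb : List (List ℤ)) (e : ℕ) : ∀ (Z : ℕ) (x : List ℤ),
    (anaStep^[e] ((⟨ν⟩, ⟨β⟩, tb), ⟨Z⟩, x)).2.2 = anaAllL ν β tb e Z x := by
  induction e with
  | zero => intro Z x; rfl
  | succ e ih => intro Z x; rw [Function.iterate_succ_apply, anaAllL, ← ih]; rfl

theorem synStep_iterate (ν β : ℕ) {tb : List (List ℤ)} (htb : 0 < tb.length) (e : ℕ) :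
    ∀ (Z : ℕ) (x : List ℤ), synStep^[e + 1] ((⟨ν⟩, ⟨β⟩, tb), ⟨tb.length ^ e * Z⟩, x) =
      ((⟨ν⟩, ⟨β⟩, tb), ⟨Z / tb.length⟩, synAllL ν β tb (e + 1) Z x) := by
  induction e with
  | zero => intro Z x; simp [synStep, synAllL]
  | succ e ih =>
    intro Z x
    rw [Function.iterate_succ_apply', pow_succ, mul_assoc, ih, Nat.mul_div_cancel_left _ htb]
    rfl

/-- `w` is an admissible width for the state `s` -/
def Adm (d : ℕ) (s : LoopSt) (w : ℕ) : Prop :=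
  LevelOk s.2.1.val s.1.1.val (s.1.1.val - d) s.1.2.1.val s.1.2.2 s.2.2 ∧
    (∀ r ∈ s.1.2.2, Wd w r) ∧ Wd w s.2.2

/-- cost of a level on the state `s` with width `w` -/
def stCost (μ : ℕ → ℕ → ℕ) (s : LoopSt) (w : ℕ) : ℕ :=
  bandCost μ (s.1.1.val * s.2.2.length) s.1.2.1.val w

theorem exists_best (μ : ℕ → ℕ → ℕ) (d : ℕ) : ∃ W : LoopSt → ℕ, ∀ s w, Adm d s w →
    Adm d s (W s) ∧ stCost μ s (W s) ≤ stCost μ s w := by
  have key : ∀ s : LoopSt, ∃ w₀, ∀ w, Adm d s w → Adm d s w₀ ∧ stCost μ s w₀ ≤ stCost μ s w := by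
    intro s
    by_cases h : ∃ w, Adm d s w
    · have hne : {w | Adm d s w}.Nonempty := h
      exact ⟨Function.argminOn (stCost μ s) _ hne, fun w hw =>
        ⟨Function.argminOn_mem (stCost μ s) _ hne, Function.argminOn_le (stCost μ s) _ hw⟩⟩
    · exact ⟨0, fun w hw => absurd ⟨w, hw⟩ h⟩
  choose W hW using key
  exact ⟨W, hW⟩

theorem tc_anaStep {μ : ℕ → ℕ → ℕ} (hA : AnaLTC μ) : ∃ S : LoopSt → ℕ,
    TC (fun s => ∃ w, Adm 0 s w) S anaStep ∧ ∀ s w, Adm 0 s w → S s ≤ stCost μ s w := by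
  obtain ⟨W, hW⟩ := exists_best μ 0
  refine ⟨fun s => stCost μ s (W s), ?_, fun s w h => (hW s w h).2⟩
  refine TC.prodMk (by fun_prop) (TC.prodMk (TU.mul (by fun_prop) (by fun_prop) ?_).tc ?_)
  · refine Bud.sz.mono (fun s ⟨w, hw⟩ => ?_)
    obtain ⟨R, hR, hl, -⟩ := hw.1.shape
    have h1 : s.1.2.2.length * s.2.1.val ≤ s.2.2.length := by
      rw [hl, mul_assoc]; exact Nat.le_mul_of_pos_left _ hR
    have h2 := length_le_sz s.2.2
    simp only [sz_prod]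
    omega
  · exact hA LoopSt _ _ _ _ _ W _ _ (by fun_prop) (by fun_prop) (by fun_prop) (by fun_prop)
      (by fun_prop) (fun s ⟨w, hw⟩ => (hW s w hw).1) Bud.self

theorem tc_synStep {μ : ℕ → ℕ → ℕ} (hS : SynLTC μ) : ∃ S : LoopSt → ℕ,
    TC (fun s => ∃ w, Adm 1 s w) S synStep ∧ ∀ s w, Adm 1 s w → S s ≤ stCost μ s w := by
  obtain ⟨W, hW⟩ := exists_best μ 1
  refine ⟨fun s => stCost μ s (W s), ?_, fun s w h => (hW s w h).2⟩
  refine TC.prodMk (by fun_prop) (TC.prodMk (TU.div (by fun_prop) (by fun_prop)).tc ?_)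
  exact hS LoopSt _ _ _ _ _ W _ _ (by fun_prop) (by fun_prop) (by fun_prop) (by fun_prop)
    (by fun_prop) (fun s ⟨w, hw⟩ => (hW s w hw).1) Bud.self

theorem bandCost_mono (μ : ℕ → ℕ → ℕ) {n n' : ℕ} (h : n ≤ n') (β w : ℕ) :
    bandCost μ n β w ≤ bandCost μ n' β w :=
  Nat.add_le_add (Nat.mul_le_mul_right _ (Nat.mul_le_mul_right _ h))
    (Nat.mul_le_mul_right _ (Nat.div_le_div_right h))

theorem le_bandCost (μ : ℕ → ℕ → ℕ) (n β w : ℕ) : n * (w + β + 1) ≤ bandCost μ n β w :=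
  (Nat.le_mul_of_pos_right _ (Nat.succ_pos β)).trans (Nat.le_add_right _ _)

/-- cost and size of an admissible state -/
theorem adm_bound (μ : ℕ → ℕ → ℕ) {d w N : ℕ} {s : LoopSt} (hd1 : d ≤ 1) (h : Adm d s w)
    (hN : s.2.2.length ≤ N) :
    stCost μ s w + sz s ≤ 61 * bandCost μ (s.1.1.val * N) s.1.2.1.val w := by
  obtain ⟨⟨⟨ν⟩, ⟨β⟩, tb⟩, ⟨Z⟩, x⟩ := s
  obtain ⟨ok, htb, hx⟩ := h
  simp only at ok htb hx hN ⊢
  obtain ⟨R, hR, hl, hd⟩ := ok.shape
  have hν := ok.two_le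
  have hZ := ok.Z_pos
  have hP := ok.tb_pos
  have c1 : stCost μ ((⟨ν⟩, ⟨β⟩, tb), ⟨Z⟩, x) w ≤ bandCost μ (ν * N) β w :=
    bandCost_mono μ (Nat.mul_le_mul_left _ hN) _ _
  have c2 := le_bandCost μ (ν * N) β w
  have hZN : Z ≤ N := le_trans (hl ▸ Nat.le_mul_of_pos_left _ (Nat.mul_pos hR hP)) hN
  have hNn : N ≤ ν * N := Nat.le_mul_of_pos_left _ (by omega)
  have hνn : ν ≤ ν * N := Nat.le_mul_of_pos_right _ (by omega)
  have hB : tb.length * 2 ^ β ≤ ν * N := by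
    have h2 : 2 ^ β ≤ R * ν :=
      (Nat.le_of_dvd (Nat.mul_pos hR (by omega)) hd).trans (Nat.mul_le_mul_left _ (Nat.sub_le _ _))
    calc tb.length * 2 ^ β ≤ tb.length * (R * ν) * Z :=
          (Nat.mul_le_mul_left _ h2).trans (Nat.le_mul_of_pos_right _ hZ)
      _ = ν * x.length := by rw [hl]; ring
      _ ≤ ν * N := Nat.mul_le_mul_left _ hN
  have s1 : sz x ≤ ν * N * (2 * (w + 3) + 1) :=
    hx.sz_list_le.trans (Nat.mul_le_mul_right _ (hN.trans hNn))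
  have s2 : sz tb ≤ tb.length * (2 * (2 ^ β * (2 * (w + 3) + 1)) + 1) :=
    Lib.PT.sz_list_le fun r hr => by rw [← ok.row_len r hr]; exact (htb r hr).sz_list_le
  have s3 : tb.length * (2 * (2 ^ β * (2 * (w + 3) + 1)) + 1) ≤ ν * N * (4 * w + 15) := by
    have h1 : 1 ≤ 2 ^ β := Nat.one_le_two_pow
    calc _ ≤ tb.length * (2 * (2 ^ β * (2 * (w + 3) + 1)) + 2 ^ β) := by gcongr
      _ = tb.length * 2 ^ β * (4 * w + 15) := by ring
      _ ≤ _ := Nat.mul_le_mul_right _ hB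
  have s4 : β ≤ ν * N * β := Nat.le_mul_of_pos_left _ (by omega)
  simp only [sz_prod, sz_un]
  generalize ν * N = n at *
  have e1 : n * (w + β + 1) = n * w + n * β + n := by ring
  have e2 : n * (2 * (w + 3) + 1) = 2 * (n * w) + 7 * n := by ring
  have e3 : n * (4 * w + 15) = 4 * (n * w) + 15 * n := by ring
  omega

/-! ### time of `prepL` and `finishL` -/

theorem len_le {P Q Z i e : ℕ} (hQ : Q ≤ P) (hi : i ≤ e + 1) :
    P * Q ^ (e + 1 - i) * (P ^ i * Z) ≤ P ^ (e + 2) * Z := by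
  calc _ ≤ P * P ^ (e + 1 - i) * (P ^ i * Z) := by gcongr
    _ = P ^ (e + 1 - i + i + 1) * Z := by ring
    _ = _ := by rw [show e + 1 - i + i + 1 = e + 2 by omega]

theorem width_le {w wt β i e : ℕ} (hi : i ≤ e + 1) : w + i * (wt + β) ≤ w + (e + 1) * (wt + β) := by
  gcongr

theorem wt_le (w wt β e : ℕ) : wt ≤ w + (e + 1) * (wt + β) := by nlinarith

/-- the number of entries times the final width is within the cost -/
theorem mul_le_bankCost (μ : ℕ → ℕ → ℕ) {P ν β Z e w wt n c : ℕ} (hν : 0 < ν)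
    (hn : n ≤ P ^ (e + 2) * Z) (hc : c ≤ 3 * ((e + 1) * wt)) :
    n * c ≤ 3 * bankCost μ P ν β Z e w wt := by
  have h1 := le_bandCost μ (ν * (P ^ (e + 2) * Z)) β (w + (e + 1) * (wt + β))
  have h2 : n ≤ ν * (P ^ (e + 2) * Z) := hn.trans (Nat.le_mul_of_pos_left _ hν)
  have h3 : (e + 1) * wt ≤ w + (e + 1) * (wt + β) + β + 1 := by nlinarith
  calc n * c ≤ ν * (P ^ (e + 2) * Z) * (3 * (w + (e + 1) * (wt + β) + β + 1)) :=
        Nat.mul_le_mul h2 (by omega)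
    _ = 3 * (ν * (P ^ (e + 2) * Z) * (w + (e + 1) * (wt + β) + β + 1)) := by ring
    _ ≤ 3 * bankCost μ P ν β Z e w wt :=
        Nat.mul_le_mul_left _ (h1.trans (Nat.le_mul_of_pos_left _ (Nat.succ_pos e)))

theorem prepLTC_of {μ : ℕ → ℕ → ℕ} (hA : AnaLStatement) (hW : WidthStatement) (hT : AnaLTC μ) :
    PrepLTC μ := by
  intro ι _ D T P Q γ ν β δ Z p e w wt h x hZ hν hβ hp he htb hx hD hB
  obtain ⟨S, hS, hS'⟩ := tc_anaStep hT
  have hit := TC.iterate_inv (P := D) (T := T) hS (n := fun a => e a + 1) he.succ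
    (s := fun a => (((⟨ν a⟩, ⟨β a⟩, tabA (P a) (γ a) (δ a + Q a) (2 ^ β a) (h a)), ⟨Z a⟩, x a) : LoopSt))
    ((hν.tc.prodMk (hβ.tc.prodMk htb)).prodMk (hZ.tc.prodMk hx))
    (fun a i s => s.1 = (⟨ν a⟩, ⟨β a⟩, tabA (P a) (γ a) (δ a + Q a) (2 ^ β a) (h a)) ∧
      s.2.1.val = P a ^ i * Z a ∧ s.2.2.length = P a * Q a ^ (e a + 1 - i) * (P a ^ i * Z a) ∧
      Wd (w a + i * (wt a + β a)) s.2.2)
    (fun a => 61 * bandCost μ (ν a * (P a ^ (e a + 2) * Z a)) (β a)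
      (w a + (e a + 1) * (wt a + β a)))
    (fun a ha => ⟨rfl, by simp, by simpa using (hD a ha).2.2.2.2.1,
      by simpa using (hD a ha).2.2.2.2.2⟩)
    (fun a ha i hi s ⟨h1, h2, h3, h4⟩ => by
      obtain ⟨ok, hs, hw, -, -, -⟩ := hD a ha
      obtain ⟨c, ⟨Z'⟩, y⟩ := s
      simp only at h1 h2 h3 h4
      subst h1 h2
      obtain ⟨j, hj⟩ : ∃ j, e a + 1 - i = j + 1 := ⟨e a - i, by omega⟩
      have lev : LevelOk (P a ^ i * Z a) (ν a) (ν a) (β a)
          (tabA (P a) (γ a) (δ a + Q a) (2 ^ β a) (h a)) y :=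
        ⟨(ok.pow_mul i).Z_pos, ok.two_le, ok.le_pow, by simpa using ok.P_pos,
          fun r hr => (row_tabA hw r hr).1, Q a ^ (j + 1), pow_pos ok.Q_pos _,
          by rw [h3, hj, length_tabA]; ring, ok.dvd_level j⟩
      have adm : Adm 0 ((⟨ν a⟩, ⟨β a⟩, tabA (P a) (γ a) (δ a + Q a) (2 ^ β a) (h a)),
          ⟨P a ^ i * Z a⟩, y) (w a + (e a + 1) * (wt a + β a)) :=
        ⟨lev, fun r hr => (row_tabA hw r hr).2.of_le (wt_le _ _ _ _), h4.of_le (width_le hi.le)⟩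
      refine ⟨⟨_, adm⟩, ?_, rfl, ?_, ?_, ?_⟩
      · exact (Nat.add_le_add_right (hS' _ _ adm) _).trans
          (adm_bound μ (Nat.zero_le 1) adm (h3 ▸ len_le ok.Q_le hi.le))
      · simp only [anaStep, length_tabA]; ring
      · simp only [anaStep]
        rw [hj] at h3
        rw [eq_tab h3 0, anaL_level hA (ok.pow_mul i) hs, length_tab,
          show e a + 1 - (i + 1) = j by omega]
        ring
      · refine ((hW _ _ _ _ _ _ _ (fun r hr => (row_tabA hw r hr).2) h4).1 lev).of_le (le_of_eq ?_)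
        ring)
    ((hB.const_mul 61).mono (fun a _ => le_of_eq (by unfold bankCost; ring)))
  have hall : TC D T (fun a => anaAllL (ν a) (β a) (tabA (P a) (γ a) (δ a + Q a) (2 ^ β a) (h a))
      (e a + 1) (Z a) (x a)) := hit.snd.snd.of_eq (fun a => anaStep_iterate _ _ _ _ _ _)
  have hlen : ∀ a, D a → (anaAllL (ν a) (β a) (tabA (P a) (γ a) (δ a + Q a) (2 ^ β a) (h a))
      (e a + 1) (Z a) (x a)).length = P a ^ (e a + 2) * Z a := fun a ha => by
    obtain ⟨ok, hs, -, -, hl, -⟩ := hD a ha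
    rw [eq_tab hl 0, anaAllL_tab hA hs _ ok, length_tab]
  have hb : ∀ n : ι → ℕ, (∀ a, D a → n a ≤ P a ^ (e a + 2) * Z a) →
      Bud D T (fun a => n a * (p a * e a)) := fun n hn =>
    (hB.const_mul 3).mono (fun a ha => mul_le_bankCost μ
      (by have := (hD a ha).1.two_le; omega) (hn a ha)
      (by have := (hD a ha).2.2.2.1; nlinarith))
  have hpe : TU D T (fun a => p a * e a) := hp.mul he ((hb (fun _ => 1) (fun a ha =>
    ((hD a ha).1.pow_mul _).Z_pos)).mono (fun a _ => by simp))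
  exact TC.mapCtx_lin (f := fun (k : Un) (v : ℤ) => v / 2 ^ k.val) (by fun_prop) hpe.tc hall
    ((hb _ (fun a ha => (hlen a ha).le)).mono (fun a _ => by simp))

theorem finishLTC_of {μ : ℕ → ℕ → ℕ} (hA : SynLStatement) (hW : WidthStatement) (hT : SynLTC μ) :
    FinishLTC μ := by
  intro ι _ D T P Q γ ν β δ Z p e w wt g x hZ hν hβ hp he htb hx hD hB
  obtain ⟨S, hS, hS'⟩ := tc_synStep hT
  have hb : ∀ n : ι → ℕ, (∀ a, D a → n a ≤ P a ^ (e a + 2) * Z a) →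
      Bud D T (fun a => n a * (p a * (e a + 3))) := fun n hn =>
    (hB.const_mul 3).mono (fun a ha => mul_le_bankCost μ
      (by have := (hD a ha).1.two_le; omega) (hn a ha)
      (by have := (hD a ha).2.2.2.1; nlinarith))
  have hP : TU D T P := (TU.length htb).of_eq (fun a => length_tabS _ _ _ _ _)
  have hZe : Bud D T (fun a => P a ^ e a * Z a) := hx.bud_length.mono (fun a ha => by
    rw [(hD a ha).2.2.2.2.1]
    exact Nat.mul_le_mul_right _ (Nat.pow_le_pow_right (hD a ha).1.P_pos (by omega)))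
  have hZ0 : TU D T (fun a => P a ^ e a * Z a) :=
    (hP.pow he (hZe.mono (fun a ha => Nat.le_mul_of_pos_right _ (hD a ha).1.Z_pos))).mul hZ hZe
  have hit := TC.iterate_inv (P := D) (T := T) hS (n := fun a => e a + 1) he.succ
    (s := fun a => (((⟨ν a⟩, ⟨β a⟩, tabS (P a) (γ a) (δ a) (2 ^ β a) (g a)),
      ⟨P a ^ e a * Z a⟩, x a) : LoopSt))
    ((hν.tc.prodMk (hβ.tc.prodMk htb)).prodMk (hZ0.tc.prodMk hx))
    (fun a i s => s.1 = (⟨ν a⟩, ⟨β a⟩, tabS (P a) (γ a) (δ a) (2 ^ β a) (g a)) ∧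
      (i ≤ e a → s.2.1.val = P a ^ (e a - i) * Z a) ∧
      s.2.2.length = P a * Q a ^ i * (P a ^ (e a + 1 - i) * Z a) ∧
      Wd (w a + i * (wt a + β a)) s.2.2)
    (fun a => 61 * bandCost μ (ν a * (P a ^ (e a + 2) * Z a)) (β a)
      (w a + (e a + 1) * (wt a + β a)))
    (fun a ha => ⟨rfl, by simp, by rw [(hD a ha).2.2.2.2.1]; simp only [Nat.sub_zero]; ring,
      by simpa using (hD a ha).2.2.2.2.2⟩)
    (fun a ha i hi s ⟨h1, h2, h3, h4⟩ => by
      obtain ⟨ok, hs, hw, -, -, -⟩ := hD a ha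
      obtain ⟨c, ⟨Z'⟩, y⟩ := s
      have h2' := h2 (by omega)
      simp only at h1 h2' h3 h4
      subst h1 h2'
      obtain ⟨j, hj⟩ : ∃ j, e a - i = j := ⟨_, rfl⟩
      have h3' : y.length = P a * Q a ^ i * (P a * (P a ^ j * Z a)) := by
        rw [h3, show e a + 1 - i = j + 1 by omega]; ring
      rw [hj]
      have lev : LevelOk (P a ^ j * Z a) (ν a) (ν a - 1) (β a)
          (tabS (P a) (γ a) (δ a) (2 ^ β a) (g a)) y :=
        ⟨(ok.pow_mul j).Z_pos, ok.two_le, ok.le_pow, by simpa using ok.P_pos,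
          fun r hr => (row_tabS hw r hr).1, P a * Q a ^ i,
          Nat.mul_pos ok.P_pos (pow_pos ok.Q_pos _),
          by rw [h3', length_tabS]; ring, by rw [← ok.level]; exact ok.dvd_level i⟩
      have adm : Adm 1 ((⟨ν a⟩, ⟨β a⟩, tabS (P a) (γ a) (δ a) (2 ^ β a) (g a)),
          ⟨P a ^ j * Z a⟩, y) (w a + (e a + 1) * (wt a + β a)) :=
        ⟨lev, fun r hr => (row_tabS hw r hr).2.of_le (wt_le _ _ _ _), h4.of_le (width_le hi.le)⟩
      refine ⟨⟨_, adm⟩, ?_, rfl, fun hi' => ?_, ?_, ?_⟩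
      · refine (Nat.add_le_add_right (hS' _ _ adm) _).trans (adm_bound μ le_rfl adm ?_)
        have := len_le (Z := Z a) (i := e a + 1 - i) (e := e a) ok.Q_le (Nat.sub_le _ _)
        rwa [show e a + 1 - (e a + 1 - i) = i by omega, ← h3] at this
      · simp only [synStep, length_tabS]
        rw [show j = e a - (i + 1) + 1 by omega, pow_succ', mul_assoc,
          Nat.mul_div_cancel_left _ ok.P_pos]
      · simp only [synStep]
        rw [eq_tab h3' 0, synL_level hA (ok.pow_mul j) hs, length_tab,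
          show e a + 1 - (i + 1) = j by omega]
      · refine ((hW _ _ _ _ _ _ _ (fun r hr => (row_tabS hw r hr).2) h4).2 lev).of_le (le_of_eq ?_)
        ring)
    ((hB.const_mul 61).mono (fun a _ => le_of_eq (by unfold bankCost; ring)))
  have hall : TC D T (fun a => synAllL (ν a) (β a) (tabS (P a) (γ a) (δ a) (2 ^ β a) (g a))
      (e a + 1) (Z a) (x a)) := hit.snd.snd.congr (fun a ha => by
    have := synStep_iterate (ν a) (β a) (tb := tabS (P a) (γ a) (δ a) (2 ^ β a) (g a))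
      (by simpa using (hD a ha).1.P_pos) (e a) (Z a) (x a)
    rw [length_tabS] at this
    rw [this])
  have hlen : ∀ a, D a → (synAllL (ν a) (β a) (tabS (P a) (γ a) (δ a) (2 ^ β a) (g a))
      (e a + 1) (Z a) (x a)).length ≤ P a ^ (e a + 2) * Z a := fun a ha => by
    obtain ⟨ok, hs, -, -, hl, -⟩ := hD a ha
    rw [eq_tab hl 0, synAllL_tab hA hs _ ok, length_tab]
    simpa using len_le (Z := Z a) (i := 0) (e := e a) ok.Q_le (Nat.zero_le _)
  have hpe : TU D T (fun a => p a * (e a + 3)) := hp.mul (he.add (TU.const 3))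
    ((hb (fun _ => 1) (fun a ha => ((hD a ha).1.pow_mul _).Z_pos)).mono (fun a _ => by simp))
  exact TC.mapCtx_lin (f := fun (k : Un) (v : ℤ) => (v + 2 ^ k.val / 2) / 2 ^ k.val)
    (TC.intDivTwoPow (TC.intAdd TC.id.snd (TC.intDivTwo (TC.intTwoPow (TU.val TC.id.fst))))
      (TU.val TC.id.fst)) hpe.tc hall ((hb _ hlen).mono (fun a _ => by simp))

end Crest.Agent.X326.FB
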