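import Crest.Agent.X326.FB.Tab
import Crest.Agent.X326.FB.Defs
import Crest.Agent.X326.TC.TU

/-!
# Row 326, filter bank: one level on lists (definitions and statements)

An array of shape `[R][P][Z]` is a flat `List ℤ`.  One level of the bank inserts zero rows,
transposes blocks of `2 ^ β` rows in `β` passes, convolves every column with one row of a table,
transposes back and keeps every `ao`-th row.
-/

set_option autoImplicit false

namespace Crest.Agent.X326.FB

open Crest.Agent.Lib.PT Finset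

/-- table of the analysis filter: `P` rows of `B` taps -/
def tabA (P γ δ B : ℕ) (h : ℤ → ℤ) : List (List ℤ) :=
  tab P fun ρ => tab B fun m => h ((γ : ℤ) * m - ρ + δ - γ * ((B : ℤ) - 1))

/-- table of the synthesis filter: `P` rows of `B` taps -/
def tabS (P γ δ B : ℕ) (g : ℤ → ℤ) : List (List ℤ) :=
  tab P fun ρ => tab B fun m => g ((γ : ℤ) * m + ρ + γ - P - 2 * δ)

/-- the entries `B - 1, …, 2 B - 2` of the convolution of `f` (of length `B`) with `col` -/
def mid (f col : List ℤ) : List ℤ :=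
  tab f.length fun t => ∑ i ∈ range f.length, f.getD i 0 * col.getD (f.length - 1 + t - i) 0

/-- concatenate corresponding columns -/
def glueCols {α : Type} (x y : List (List α)) : List (List α) := List.zipWith (· ++ ·) x y

/-- one pass of the block transposition: glue the blocks `2 i` and `2 i + 1` -/
def pairUp {α : Type} (l : List (List (List α))) : List (List (List α)) :=
  (chunks 2 l).map fun c => glueCols (c.headD []) (c.tail.headD [])

/-- one pass of the inverse transposition: cut all columns in halves -/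
def halve {α : Type} (l : List (List (List α))) : List (List (List α)) :=
  l.flatMap fun m =>
    [m.map fun c => c.take (c.length / 2), m.map fun c => c.drop (c.length / 2)]

/-- insert `ai - 1` zero rows after every row -/
def upRows (ai : ℕ) (rows : List (List ℤ)) : List (List ℤ) :=
  rows.flatMap fun r => r :: List.replicate (ai - 1) (r.map fun _ => 0)

/-- keep every `ao`-th row -/
def downRows {α : Type} (ao : ℕ) (rows : List (List α)) : List (List α) :=
  (chunks ao rows).map fun c => c.headD []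

/-- blocks of `2 ^ β` rows, transposed -/
def blocksOf (β : ℕ) (up : List (List ℤ)) : List (List (List ℤ)) :=
  pairUp^[β] (up.map (List.map fun v => [v]))

/-- the filtered blocks -/
def filtered (Z β : ℕ) (tb up : List (List ℤ)) : List (List (List ℤ)) :=
  (List.zipWith glueCols (blocksOf β up) ((blocksOf β up).rotate 1)).map
    (List.zipWith mid (tb.flatMap (List.replicate Z)))

/-- cyclic correlation along the rows of `up` (shape `[L][P * Z]`) with the rows of the table:
row `n` of the result is `∑ m < B, tb ρ (B - 1 - m) * up ((n + m) % L)`; every `ao`-th row is kept -/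
def core (Z ao β : ℕ) (tb up : List (List ℤ)) : List ℤ :=
  (downRows ao ((halve^[β] (filtered Z β tb up)).map List.flatten)).flatten

/-- one analysis level on lists -/
def anaL (Z ν β : ℕ) (tb : List (List ℤ)) (x : List ℤ) : List ℤ :=
  core Z (ν - 1) β tb ((upRows ν (chunks (tb.length * Z) x)).rotate
    ((upRows ν (chunks (tb.length * Z) x)).length + 1 - ν))

/-- one synthesis level on lists -/
def synL (Z ν β : ℕ) (tb : List (List ℤ)) (x : List ℤ) : List ℤ :=
  core Z ν β tb ((upRows (ν - 1) (chunks (tb.length * Z) x)).rotate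
    ((upRows (ν - 1) (chunks (tb.length * Z) x)).length + ν - 2 ^ β))

/-- **correctness of one analysis level** (`FB/Poly.lean`) -/
def AnaLStatement : Prop :=
  ∀ (P Q γ ν β δ M M' Z : ℕ) (h : ℤ → ℤ) (a : Arr), P = γ * ν → Q = γ * (ν - 1) → 0 < γ → 2 ≤ ν →
    0 < Z → 0 < M → M * ν = M' * (ν - 1) → 2 ^ β ∣ M * ν → 4 * δ + P ≤ γ * 2 ^ β →
    (∀ m : ℤ, (δ : ℤ) < |m| → h m = 0) →
    anaL Z ν β (tabA P γ (δ + Q) (2 ^ β) h) (tab (M * P * Z) a) =
      tab (M' * P * Z) (ana P Q M Z δ h a)

/-- **correctness of one synthesis level** (`FB/Poly.lean`) -/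
def SynLStatement : Prop :=
  ∀ (P Q γ ν β δ M M' Z : ℕ) (g : ℤ → ℤ) (c : Arr), P = γ * ν → Q = γ * (ν - 1) → 0 < γ → 2 ≤ ν →
    0 < Z → 0 < M → M * ν = M' * (ν - 1) → 2 ^ β ∣ M * ν → 4 * δ + P ≤ γ * 2 ^ β →
    (∀ m : ℤ, (2 * δ : ℤ) < |m| → g m = 0) →
    synL Z ν β (tabS P γ δ (2 ^ β) g) (tab (M' * P * Z) c) = tab (M * P * Z) (syn P Q M' Z δ g c)

/-- all entries are below `2 ^ w` in absolute value -/
def Wd (w : ℕ) (l : List ℤ) : Prop := ∀ v ∈ l, |v| < 2 ^ w

/-- shape conditions for one level (`ai = ν` for the analysis, `ai = ν - 1` for the synthesis) -/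
structure LevelOk (Z ν ai β : ℕ) (tb : List (List ℤ)) (x : List ℤ) : Prop where
  Z_pos : 0 < Z
  two_le : 2 ≤ ν
  le_pow : ν ≤ 2 ^ β
  tb_pos : 0 < tb.length
  row_len : ∀ r ∈ tb, r.length = 2 ^ β
  shape : ∃ R, 0 < R ∧ x.length = R * tb.length * Z ∧ 2 ^ β ∣ R * ai

/-- **growth of the width** (`FB/Poly.lean`) -/
def WidthStatement : Prop :=
  ∀ (Z ν β w wt : ℕ) (tb : List (List ℤ)) (x : List ℤ), (∀ r ∈ tb, Wd wt r) → Wd w x →
    (LevelOk Z ν ν β tb x → Wd (w + wt + β) (anaL Z ν β tb x)) ∧
    (LevelOk Z ν (ν - 1) β tb x → Wd (w + wt + β) (synL Z ν β tb x))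

/-- cost of one level: `n = ν * (number of entries)`, `w` bounds the widths of data and table,
`μ r w` is the cost of a convolution of lists of length `≤ r` with entries below `2 ^ w` -/
def bandCost (μ : ℕ → ℕ → ℕ) (n β w : ℕ) : ℕ :=
  n * (w + β + 1) * (β + 1) + n / 2 ^ β * μ (2 ^ (β + 1)) w

/-- **time of one analysis level** (`FB/PolyTC.lean`, from `M4.SpecConv μ`) -/
def AnaLTC (μ : ℕ → ℕ → ℕ) : Prop :=
  ∀ (ι : Type) [PTCode ι] (D : ι → Prop) (T : ι → ℕ) (Z ν β w : ι → ℕ)
    (tb : ι → List (List ℤ)) (x : ι → List ℤ),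
    TU D T Z → TU D T ν → TU D T β → TC D T tb → TC D T x →
    (∀ a, D a → LevelOk (Z a) (ν a) (ν a) (β a) (tb a) (x a) ∧ (∀ r ∈ tb a, Wd (w a) r) ∧
      Wd (w a) (x a)) →
    Bud D T (fun a => bandCost μ (ν a * (x a).length) (β a) (w a)) →
    TC D T (fun a => anaL (Z a) (ν a) (β a) (tb a) (x a))

/-- **time of one synthesis level** (`FB/PolyTC.lean`, from `M4.SpecConv μ`) -/
def SynLTC (μ : ℕ → ℕ → ℕ) : Prop :=
  ∀ (ι : Type) [PTCode ι] (D : ι → Prop) (T : ι → ℕ) (Z ν β w : ι → ℕ)
    (tb : ι → List (List ℤ)) (x : ι → List ℤ),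
    TU D T Z → TU D T ν → TU D T β → TC D T tb → TC D T x →
    (∀ a, D a → LevelOk (Z a) (ν a) (ν a - 1) (β a) (tb a) (x a) ∧ (∀ r ∈ tb a, Wd (w a) r) ∧
      Wd (w a) (x a)) →
    Bud D T (fun a => bandCost μ (ν a * (x a).length) (β a) (w a)) →
    TC D T (fun a => synL (Z a) (ν a) (β a) (tb a) (x a))

end Crest.Agent.X326.FB
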