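import Crest.Agent.X326.FB.PolyWd
import Crest.Agent.X326.FB.MidTC
import Crest.Agent.X326.TC.Zip
import Crest.Agent.X326.TC.IntLin

/-!
# Row 326, filter bank: running time of one level on lists
-/

set_option autoImplicit false

namespace Crest.Agent.X326.FB.Bk

open Crest.Agent.Lib.PT Finset

theorem sz1 {c W : ℕ} {G : ℕ → ℤ} (h : ∀ j, |G j| < 2 ^ W) : sz (tab c G) ≤ 7 * (c * (W + 1)) := by
  have := sz_tab_le (n := c) (f := G) (s := W + 3) fun j _ => sz_int_le_of_abs_lt (h j)
  nlinarith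

theorem sz2 {X c W : ℕ} {G : ℕ → ℕ → ℤ} (hc : 0 < c) (h : ∀ x j, |G x j| < 2 ^ W) :
    sz (tab X fun x => tab c (G x)) ≤ 15 * (X * (c * (W + 1))) := by
  have h1 := sz_tab_le (n := X) (f := fun x => tab c (G x)) fun x _ => sz1 (h x)
  have h2 : 0 < c * (W + 1) := by positivity
  generalize c * (W + 1) = m at *
  nlinarith

theorem sz3 {a X c W : ℕ} {G : ℕ → ℕ → ℕ → ℤ} (hX : 0 < X) (hc : 0 < c)
    (h : ∀ i x j, |G i x j| < 2 ^ W) :
    sz (tab a fun i => tab X fun x => tab c (G i x)) ≤ 31 * (a * c * X * (W + 1)) := by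
  have h1 := sz_tab_le (n := a) (f := fun i => tab X fun x => tab c (G i x))
    fun i _ => sz2 hc (h i)
  have h2 : 0 < X * (c * (W + 1)) := by positivity
  rw [show a * c * X * (W + 1) = a * (X * (c * (W + 1))) by ring]
  generalize X * (c * (W + 1)) = m at *
  nlinarith

theorem lin_glue : Lin (fun q : List (List ℤ) × List (List ℤ) => glueCols q.1 q.2) :=
  TC.zipWith (f := fun a b : List ℤ => a ++ b) (TC.append TC.id.fst TC.id.snd) TC.id.fst TC.id.snd

theorem lin_pairUp : Lin (pairUp : List (List (List ℤ)) → List (List (List ℤ))) :=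
  TC.map (f := fun c : List (List (List ℤ)) => glueCols (c.headD []) (c.tail.headD []))
    (TC.comp₂ (g := glueCols) lin_glue (TC.headD TC.id (TC.const _))
      (TC.headD (TC.tail TC.id) (TC.const _)))
    (TC.chunks (TU.const 2) TC.id)

theorem lin_halve : Lin (halve : List (List (List ℤ)) → List (List (List ℤ))) := by
  have hh : TU (fun _ => True) (fun _ => 0) (fun c : List ℤ => c.length / 2) :=
    TU.div (TU.length TC.id) (TU.const 2)
  exact TC.flatMap (f := fun m : List (List ℤ) =>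
      [m.map fun c => c.take (c.length / 2), m.map fun c => c.drop (c.length / 2)])
    (TC.listCons (TC.map (TC.take hh TC.id) TC.id)
      (TC.listCons (TC.map (TC.drop hh TC.id) TC.id) (TC.const _))) TC.id

variable {ι : Type} [PTCode ι] {D : ι → Prop} {T : ι → ℕ}

theorem tc_core {μ : ℕ → ℕ → ℕ} (hμ : M4.SpecConv μ) {Z ao β w n P N : ι → ℕ}
    {tb up : ι → List (List ℤ)} {F U : ι → ℕ → ℕ → ℤ} (hZ : TU D T Z) (hao : TU D T ao)
    (hβ : TU D T β) (htb : TC D T tb) (hup : TC D T up)
    (e1 : ∀ a, D a → tb a = tab (P a) fun ρ => tab (2 ^ β a) (F a ρ))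
    (e2 : ∀ a, D a → up a = tab (n a * 2 ^ β a) fun i => tab (P a * Z a) (U a i))
    (hF : ∀ a, D a → ∀ ρ m, |F a ρ m| < 2 ^ w a) (hU : ∀ a, D a → ∀ i x, |U a i x| < 2 ^ w a)
    (hn : ∀ a, D a → 0 < n a) (hX : ∀ a, D a → 0 < P a * Z a)
    (hN : ∀ a, D a → n a * 2 ^ β a * (P a * Z a) ≤ N a)
    (hT : Bud D T fun a => bandCost μ (N a) (β a) (w a)) :
    TC D T fun a => core (Z a) (ao a) (β a) (tb a) (up a) := by
  obtain ⟨S, hS, hSb⟩ := tc_mid' hμ
  have b1 : Bud D T fun a => N a * (w a + β a + 1) * (β a + 1) :=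
    hT.mono fun a _ => Nat.le_add_right _ _
  have b2 : Bud D T fun a => N a / 2 ^ β a * μ (2 ^ (β a + 1)) (w a) :=
    hT.mono fun a _ => Nat.le_add_left _ _
  have b3 : Bud D T fun a => n a * 2 ^ β a * (P a * Z a) * (w a + 1) :=
    b1.mono fun a ha => (Nat.mul_le_mul (hN a ha) (by omega)).trans
      (Nat.le_mul_of_pos_right _ (by omega))
  have b4 : ∀ c : ℕ, Bud D T fun a => β a * (c * (N a * (w a + β a + 1))) := fun c =>
    (b1.const_mul c).mono fun a _ => by nlinarith [Nat.zero_le (c * (N a * (w a + β a + 1)))]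
  have hbl : TC D T fun a => blocksOf (β a) (up a) := by
    refine TC.iterate_le lin_pairUp hβ
      (TC.map (f := List.map fun v : ℤ => [v]) (TC.map (TC.singleton TC.id) TC.id) hup)
      (fun a => 31 * (N a * (w a + β a + 1))) (fun a ha i hi => ⟨trivial, ?_⟩) (b4 31)
    obtain ⟨j, hj⟩ : ∃ j, β a = j + i := ⟨β a - i, by omega⟩
    have e : n a * 2 ^ β a = n a * 2 ^ j * 2 ^ i := by rw [hj, pow_add, mul_assoc]
    have h := blocksOf_tab i (n a * 2 ^ j) (P a * Z a) (U a)
    rw [blocksOf, ← e, ← e2 a ha] at h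
    rw [h, Nat.zero_add]
    refine (sz3 (hX a ha) (by positivity) fun _ _ _ => hU a ha _ _).trans ?_
    rw [← e]
    exact Nat.mul_le_mul_left _ (Nat.mul_le_mul (hN a ha) (by omega))
  have hdb : TC D T fun a =>
      List.zipWith glueCols (blocksOf (β a) (up a)) ((blocksOf (β a) (up a)).rotate 1) :=
    TC.zipWith lin_glue hbl (TC.rotate_of_le hbl (TU.const 1) fun a ha => by
      rw [e2 a ha, blocksOf_tab, length_tab]; exact hn a ha)
  have hrow : ∀ a, D a → ∀ r ∈ tb a, sz r ≤ 7 * (2 ^ β a * (w a + 1)) := fun a ha r hr => by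
    rw [e1 a ha] at hr
    obtain ⟨ρ, -, rfl⟩ := mem_tab.1 hr
    exact sz1 (hF a ha ρ)
  have hlen : ∀ a, D a → (tb a).length = P a := fun a ha => by rw [e1 a ha, length_tab]
  have b5 : Bud D T fun a => P a * Z a * (2 ^ β a * (w a + 1)) :=
    b3.mono fun a ha => by
      rw [show n a * 2 ^ β a * (P a * Z a) * (w a + 1) =
        n a * (P a * Z a * (2 ^ β a * (w a + 1))) by ring]
      exact Nat.le_mul_of_pos_left _ (hn a ha)
  have htx : TC D T fun a => (tb a).flatMap (List.replicate (Z a)) := by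
    refine TC.flatMapCtx (c := fun a => Un.mk (Z a)) (f := fun k r => List.replicate k.val r)
      TC.replicateU hZ htb (fun _ _ _ _ => trivial) ((b5.const_mul 8).mono fun a ha => ?_)
      (b5.mono fun a ha => ?_)
    · refine (sum_map_le_length_mul _ (n := Z a * (8 * (2 ^ β a * (w a + 1))))
        fun r hr => Nat.mul_le_mul_left _ ?_).trans (le_of_eq ?_)
      · have h1 := hrow a ha r hr
        have h2 : 0 < 2 ^ β a * (w a + 1) := by positivity
        dsimp only
        omega
      · rw [hlen a ha]; ring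
    · rw [hlen a ha, sz_un]
      exact Nat.le_mul_of_pos_right _ (by positivity)
  have etx : ∀ a, D a → (tb a).flatMap (List.replicate (Z a)) =
      tab (P a * Z a) fun x => tab (2 ^ β a) (F a (x / Z a)) := fun a ha => by
    rw [e1 a ha, flatMap_tab (P a) (Z a) _ _ (fun ρ _ => tab (2 ^ β a) (F a ρ))
      (fun ρ _ => replicate_eq_tab _ _)]
  have hfi : TC D T fun a => filtered (Z a) (β a) (tb a) (up a) := by
    refine TC.mapCtx (f := fun k b : List (List ℤ) => List.zipWith mid k b)
      (Q := fun _ => True) (S := fun q => ((q.1.zip q.2).map S).sum)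
      (TC.zipWith' hS TC.id.fst TC.id.snd (fun _ _ _ _ => trivial) Bud.self) htx hdb
      (fun _ _ _ _ => trivial) (b2.mono fun a ha => ?_) ((b3.const_mul 15).mono fun a ha => ?_)
    · rw [etx a ha, e2 a ha, doubled_tab]
      refine (sum_map_le_length_mul _ (n := P a * Z a * μ (2 ^ (β a + 1)) (w a))
        fun b hb => ?_).trans ?_
      · obtain ⟨i, -, rfl⟩ := mem_tab.1 hb
        dsimp only
        rw [zip_tab]
        refine (sum_map_le_length_mul _ fun q hq => ?_).trans (by rw [length_tab])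
        obtain ⟨x, -, rfl⟩ := mem_tab.1 hq
        refine hSb _ _ _ _ (by rw [length_tab, pow_succ]; omega)
          (by rw [length_tab, pow_succ]; omega) (forall_mem_tab.2 fun _ _ => hF a ha _ _)
          (forall_mem_tab.2 fun _ _ => hU a ha _ _)
      · rw [length_tab, ← mul_assoc]
        refine Nat.mul_le_mul_right _ ((Nat.le_div_iff_mul_le (by positivity)).2 ?_)
        refine le_trans (le_of_eq ?_) (hN a ha)
        ring
    · rw [etx a ha, e2 a ha, doubled_tab, length_tab]
      refine (Nat.mul_le_mul_left _ (sz2 (by positivity) fun _ _ => hF a ha _ _)).trans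
        (le_of_eq ?_)
      ring
  have hha : TC D T fun a => halve^[β a] (filtered (Z a) (β a) (tb a) (up a)) := by
    refine TC.iterate_le lin_halve hβ hfi (fun a => 62 * (N a * (w a + β a + 1)))
      (fun a ha i hi => ⟨trivial, ?_⟩) (b4 62)
    obtain ⟨j, hj⟩ : ∃ j, β a = j + i := ⟨β a - i, by omega⟩
    have e : 2 ^ j * 2 ^ i = 2 ^ β a := by rw [hj, pow_add]
    have h := halve_iter i (n a) (P a * Z a) (2 ^ j)
      (corr (n a * 2 ^ β a) (2 ^ β a) (Z a) (F a) (U a))
    rw [e, ← filtered_tab, ← e1 a ha, ← e2 a ha] at h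
    rw [h, Nat.zero_add]
    refine (sz3 (hX a ha) (by positivity)
      fun _ _ _ => abs_corr_lt (hF a ha) (hU a ha) _ _).trans ?_
    rw [mul_assoc (n a), mul_comm (2 ^ i), e]
    have h1 := Nat.mul_le_mul (hN a ha) (show w a + w a + β a + 1 ≤ 2 * (w a + β a + 1) by omega)
    rw [show N a * (2 * (w a + β a + 1)) = 2 * (N a * (w a + β a + 1)) by ring] at h1
    omega
  exact TC.flatten (TC.map (f := fun c : List (List ℤ) => c.headD [])
    (TC.headD TC.id (TC.const _))
    (TC.chunks hao (TC.map (f := List.flatten) (TC.flatten TC.id) hha)))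

theorem sz_map_zero (r : List ℤ) : sz (r.map fun _ => (0 : ℤ)) ≤ sz r := by
  induction r with
  | nil => simp
  | cons v r ih =>
    have h1 : sz (0 : ℤ) ≤ sz v := by rw [sz_int, sz_int]; simp
    simp only [List.map_cons, sz_cons]
    omega

theorem tc_level {μ : ℕ → ℕ → ℕ} (hμ : M4.SpecConv μ) {Z ν ai ao β w : ι → ℕ} {s : ι → ℕ → ℕ}
    {tb : ι → List (List ℤ)} {x : ι → List ℤ} (hZ : TU D T Z) (hai : TU D T ai) (hao : TU D T ao)
    (hβ : TU D T β) (htb : TC D T tb) (hx : TC D T x)
    (hs : ∀ L : ι → ℕ, TU D T L → TU D T (fun a => 2 ^ β a) → TU D T fun a => s a (L a))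
    (hsl : ∀ a, D a → ∀ L, s a L ≤ L) (hai0 : ∀ a, D a → 0 < ai a ∧ ai a ≤ ν a)
    (h : ∀ a, D a → LevelOk (Z a) (ν a) (ai a) (β a) (tb a) (x a) ∧ (∀ r ∈ tb a, Wd (w a) r) ∧
      Wd (w a) (x a))
    (hT : Bud D T fun a => bandCost μ (ν a * (x a).length) (β a) (w a)) :
    TC D T fun a => core (Z a) (ao a) (β a) (tb a)
      ((upRows (ai a) (chunks ((tb a).length * Z a) (x a))).rotate
        (s a (upRows (ai a) (chunks ((tb a).length * Z a) (x a))).length)) := by
  have hsh : ∀ a, D a → ∃ R n, 0 < R ∧ (x a).length = R * ((tb a).length * Z a) ∧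
      R * ai a = n * 2 ^ β a := fun a ha => by
    obtain ⟨R, h1, h2, n, h3⟩ := (h a ha).1.shape
    exact ⟨R, n, h1, by rw [h2, mul_assoc], by rw [h3, mul_comm]⟩
  choose! R n hR hl hn using hsh
  have hX : ∀ a, D a → 0 < (tb a).length * Z a := fun a ha =>
    Nat.mul_pos (h a ha).1.tb_pos (h a ha).1.Z_pos
  have hn0 : ∀ a, D a → 0 < n a := fun a ha => by
    have := Nat.mul_pos (hR a ha) (hai0 a ha).1
    rw [hn a ha] at this
    exact Nat.pos_of_mul_pos_right this
  have hN : ∀ a, D a → R a * ai a * ((tb a).length * Z a) ≤ ν a * (x a).length := fun a ha => by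
    rw [hl a ha, mul_comm (R a), mul_assoc]
    exact Nat.mul_le_mul_right _ (hai0 a ha).2
  have b1 : Bud D T fun a => R a * ai a * ((tb a).length * Z a) * (w a + 1) :=
    hT.mono fun a ha => ((Nat.mul_le_mul (hN a ha) (by omega)).trans
      (Nat.le_mul_of_pos_right _ (by omega))).trans (Nat.le_add_right _ _)
  have b2 : Bud D T fun a => R a * ai a :=
    b1.mono fun a ha => (Nat.le_mul_of_pos_right _ (hX a ha)).trans
      (Nat.le_mul_of_pos_right _ (by omega))
  have hXu : TU D T fun a => (tb a).length * Z a :=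
    TU.mul (TU.length htb) hZ ((Bud.length hx).mono fun a ha => by
      rw [hl a ha]; exact Nat.le_mul_of_pos_left _ (hR a ha))
  have erows : ∀ a, D a → chunks ((tb a).length * Z a) (x a) =
      tab (R a) fun i => tab ((tb a).length * Z a) fun j =>
        (x a).getD (i * ((tb a).length * Z a) + j) 0 := fun a ha => by
    conv_lhs => rw [eq_tab (hl a ha) 0]
    rw [chunks_tab _ (hX a ha)]
  have hup : TC D T fun a => upRows (ai a) (chunks ((tb a).length * Z a) (x a)) := by
    refine TC.flatMapCtx (c := fun a => Un.mk (ai a))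
      (f := fun k (r : List ℤ) => r :: List.replicate (k.val - 1) (r.map fun _ => 0))
      (Q := fun _ => True) (S := fun q => q.1.val * sz q.2)
      (TC.listCons TC.id.snd (TC.replicate ((TU.val TC.id.fst).sub (TU.const 1))
        (TC.map (TC.const _) TC.id.snd) (Bud.self.mono fun q _ =>
          Nat.mul_le_mul (Nat.sub_le _ _) (sz_map_zero _))))
      hai (TC.chunks hXu hx) (fun _ _ _ _ => trivial) ((b1.const_mul 7).mono fun a ha => ?_)
      (b2.mono fun a ha => ?_)
    · rw [erows a ha]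
      refine (sum_map_le_length_mul _
        (n := ai a * (7 * ((tb a).length * Z a * (w a + 1)))) fun r hr => ?_).trans (le_of_eq ?_)
      · obtain ⟨i, -, rfl⟩ := mem_tab.1 hr
        exact Nat.mul_le_mul_left _ (sz1 fun _ => (h a ha).2.2.getD _)
      · rw [length_tab]; ring
    · rw [erows a ha, length_tab, sz_un]
  have h2 : TU D T fun a => 2 ^ β a := TU.twoPow hβ (b2.mono fun a ha => by
    rw [hn a ha]; exact Nat.le_mul_of_pos_left _ (hn0 a ha))
  refine tc_core hμ (n := n) (P := fun a => (tb a).length) (N := fun a => ν a * (x a).length)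
    (F := fun a ρ m => ((tb a).getD ρ []).getD m 0)
    (U := fun a => upFun ((tb a).length * Z a) (ai a) (R a * ai a)
      (s a (upRows (ai a) (chunks ((tb a).length * Z a) (x a))).length) (x a))
    hZ hao hβ htb (TC.rotate_of_le hup (hs _ (TU.length hup) h2) fun a ha => hsl a ha _)
    (fun a ha => eq_tab_tab (h a ha).1.row_len) (fun a ha => ?_)
    (fun a ha => abs_getD_getD_lt (h a ha).2.1) (fun a ha => abs_upFun_lt (h a ha).2.2 _ _ _ _)
    hn0 hX (fun a ha => hn a ha ▸ hN a ha) hT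
  rw [up_eq_tab (hX a ha) (hai0 a ha).1 (hl a ha), hn a ha]

theorem anaLTC {μ : ℕ → ℕ → ℕ} (hμ : M4.SpecConv μ) : AnaLTC μ := by
  intro ι _ D T Z ν β w tb x hZ hν hβ htb hx h hT
  exact tc_level hμ (s := fun a L => L + 1 - ν a) hZ hν (hν.sub (TU.const 1)) hβ htb hx
    (fun L hL _ => (hL.add (TU.const 1)).sub hν)
    (fun a ha L => by have := (h a ha).1.two_le; omega)
    (fun a ha => ⟨by have := (h a ha).1.two_le; omega, le_rfl⟩) h hT

theorem synLTC {μ : ℕ → ℕ → ℕ} (hμ : M4.SpecConv μ) : SynLTC μ := by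
  intro ι _ D T Z ν β w tb x hZ hν hβ htb hx h hT
  exact tc_level hμ (s := fun a L => L + ν a - 2 ^ β a) hZ (hν.sub (TU.const 1)) hν hβ htb hx
    (fun L hL h2 => (hL.add hν).sub h2)
    (fun a ha L => by have := (h a ha).1.le_pow; omega)
    (fun a ha => ⟨by have := (h a ha).1.two_le; omega, Nat.sub_le _ _⟩) h hT

end Crest.Agent.X326.FB.Bk
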