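import Crest.Agent.X326.FB.TapsPT
import Crest.Agent.X326.FB.PolyDefs

/-!
# The filter tables `tabA`, `tabS` are computable in polynomial time
-/

set_option autoImplicit false

namespace Crest.Agent.X326.FB

open Crest.Agent.Lib.PT

variable {α : Type} [PTCode α]

theorem ptf_tabA {P γ δ B : α → ℕ} {h : α → ℤ → ℤ} (hP : PTU P) (hγ : PTF γ) (hδ : PTF δ)
    (hB : PTU B) (hh : PTF₂ h) : PTF (fun a => tabA (P a) (γ a) (δ a) (B a) (h a)) := by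
  refine PTF.tabulate (f := fun a ρ => tab (B a) fun m =>
    h a ((γ a : ℤ) * m - ρ + δ a - γ a * ((B a : ℤ) - 1))) hP ?_
  refine PTF.tabulate (f := fun (q : α × ℕ) m =>
    h q.1 ((γ q.1 : ℤ) * m - q.2 + δ q.1 - γ q.1 * ((B q.1 : ℤ) - 1))) (hB.comp PTF.fst) ?_
  have e : PTF (fun q : (α × ℕ) × ℕ => q.1.1) := PTF.fst.comp PTF.fst
  have h1 := PTF.intNatCast (hγ.comp e)
  exact hh.comp₂ e (PTF.intSub (PTF.intAdd (PTF.intSub (PTF.intMul h1 (PTF.intNatCast PTF.snd))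
    (PTF.intNatCast (PTF.snd.comp PTF.fst))) (PTF.intNatCast (hδ.comp e)))
    (PTF.intMul h1 (PTF.intSub (PTF.intNatCast (hB.toPTF.comp e)) (PTF.const 1))))

theorem ptf_tabS {P γ δ B : α → ℕ} {g : α → ℤ → ℤ} (hP : PTU P) (hγ : PTF γ) (hδ : PTF δ)
    (hB : PTU B) (hg : PTF₂ g) : PTF (fun a => tabS (P a) (γ a) (δ a) (B a) (g a)) := by
  refine PTF.tabulate (f := fun a ρ => tab (B a) fun m =>
    g a ((γ a : ℤ) * m + ρ + γ a - P a - 2 * δ a)) hP ?_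
  refine PTF.tabulate (f := fun (q : α × ℕ) m =>
    g q.1 ((γ q.1 : ℤ) * m + q.2 + γ q.1 - P q.1 - 2 * δ q.1)) (hB.comp PTF.fst) ?_
  have e : PTF (fun q : (α × ℕ) × ℕ => q.1.1) := PTF.fst.comp PTF.fst
  have h1 := PTF.intNatCast (hγ.comp e)
  exact hg.comp₂ e (PTF.intSub (PTF.intSub (PTF.intAdd (PTF.intAdd
    (PTF.intMul h1 (PTF.intNatCast PTF.snd)) (PTF.intNatCast (PTF.snd.comp PTF.fst))) h1)
    (PTF.intNatCast (hP.toPTF.comp e))) (PTF.intMul (PTF.const 2) (PTF.intNatCast (hδ.comp e))))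

/-- the analysis table of the actual taps; `2 ^ k`, `Q2`, `ν`, `p`, `B` unary -/
theorem ptf_tabA_hI {k Q2 ν p γ δ B : α → ℕ} (hk : PTU (fun a => 2 ^ k a)) (hQ : PTU Q2)
    (hν : PTU ν) (hp : PTU p) (hγ : PTF γ) (hδ : PTF δ) (hB : PTU B) :
    PTF (fun a => tabA (2 ^ k a) (γ a) (δ a) (B a) (hI (k a) (Q2 a) (ν a) (p a))) :=
  ptf_tabA (h := fun a => hI (k a) (Q2 a) (ν a) (p a)) hk hγ hδ hB
    (ptf_hI (k := fun q : α × ℤ => k q.1) (hk.comp PTF.fst) (hQ.comp PTF.fst) (hν.comp PTF.fst)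
      (hp.comp PTF.fst) PTF.snd)

/-- the synthesis table of the actual taps; `2 ^ k`, `ν`, `p`, `B` unary -/
theorem ptf_tabS_gI {k ν p γ δ B : α → ℕ} (hk : PTU (fun a => 2 ^ k a))
    (hν : PTU ν) (hp : PTU p) (hγ : PTF γ) (hδ : PTF δ) (hB : PTU B) :
    PTF (fun a => tabS (2 ^ k a) (γ a) (δ a) (B a) (gI (k a) (ν a) (p a))) :=
  ptf_tabS (g := fun a => gI (k a) (ν a) (p a)) hk hγ hδ hB
    (ptf_gI (k := fun q : α × ℤ => k q.1) (hk.comp PTF.fst) (hν.comp PTF.fst)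
      (hp.comp PTF.fst) PTF.snd)

end Crest.Agent.X326.FB
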