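import Crest.Agent.X326.FB.TapsDefs
import Crest.Agent.X326.FB.MajSup

/-!
# Filter bank: the integer taps have all the required properties
-/

set_option autoImplicit false

namespace Crest.Agent.X326.FB

theorem majStatement : MajStatement := by
  intro k Q2 ν e n hk hν hQ0 hQ hn
  have he : eps n ν ≤ 1 / 2 ^ e := eps_le e (by omega) hn.ge
  refine ⟨natDegree_GI_le n k, natDegree_HI_le n k Q2, fun z hz => norm_GI_le n k hz,
    fun z hz => norm_HI_le n Q2 hk hz, fun z hz => ?_, fun z w hz hw hw1 => ?_, GI_nyquist n k⟩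
  · exact (norm_GI_mul_HI_sub_le n hν hQ0 hQ hz).trans
      (mul_le_mul_of_nonneg_left he (Nat.cast_nonneg k))
  · exact (norm_GI_mul_HI_shift_le n hν hQ0 hQ hz hw hw1).trans he

theorem tapsStatement : TapsStatement := tapsStatement_of_maj majStatement

end Crest.Agent.X326.FB
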