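import Crest.Agent.X326.FB.Interp
import Crest.Agent.X326.FB.MajDefs

/-!
# Filter bank: the integer taps `gI`, `hI` and the statements about them
-/

set_option autoImplicit false
set_option linter.dupNamespace false

namespace Crest.Agent.X326.FB

open Polynomial

/-- order of the half-band filter -/
def nTap (ν p : ℕ) : ℕ := 4 * ν ^ 2 * p

/-- half-length `δ` of the analysis filter -/
def dTap (k ν p : ℕ) : ℕ := (2 * nTap ν p + 1) * 2 ^ k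

/-- the interpolation error is at most `2 ^ p * cTap` -/
def cTap (k ν p : ℕ) : ℕ := k * 4 ^ k + (2 * dTap k ν p + 1) * (2 * 2 ^ k + 1) + 1

/-- integer taps of the synthesis filter -/
noncomputable def gI (k ν p : ℕ) : ℤ → ℤ :=
  tap (GI (nTap ν p) k) (dG (nTap ν p) k) (2 ^ p * 2 ^ k) (sG (nTap ν p) k)

/-- integer taps of the analysis filter -/
noncomputable def hI (k Q2 ν p : ℕ) : ℤ → ℤ :=
  tap (HI (nTap ν p) k Q2) (dH (nTap ν p) k Q2) (2 ^ p * (2 * Q2)) (sG (nTap ν p) k)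

/-- the taps `gI`, `hI` have all the properties used by the filter bank -/
def TapsStatement : Prop :=
  ∀ k Q2 ν p : ℕ, 1 ≤ k → 2 ≤ ν → 0 < Q2 → 2 * Q2 * ν ≤ 2 ^ k * (ν - 1) →
    Taps (2 ^ k) (2 * Q2) p (dTap k ν p) (2 ^ p * cTap k ν p) (gI k ν p) (hI k Q2 ν p)

/-- the sup-norm properties of the filters `GI`, `HI` -/
def MajStatement : Prop :=
  ∀ k Q2 ν e n : ℕ, 1 ≤ k → 2 ≤ ν → 0 < Q2 → 2 * Q2 * ν ≤ 2 ^ k * (ν - 1) → n = 4 * ν ^ 2 * e →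
    (GI n k).natDegree ≤ 2 * dG n k ∧ (HI n k Q2).natDegree ≤ 2 * dH n k Q2 ∧
    (∀ z : ℂ, ‖z‖ = 1 → ‖aeval z (GI n k) / (sG n k : ℂ)‖ ≤ 1) ∧
    (∀ z : ℂ, ‖z‖ = 1 → ‖aeval z (HI n k Q2) / (sG n k : ℂ)‖ ≤ 1) ∧
    (∀ z : ℂ, ‖z‖ = 1 → ‖aeval z (GI n k) / (sG n k : ℂ) *
      (aeval z (HI n k Q2) / (sG n k : ℂ) - z ^ dH n k Q2)‖ ≤ k * (1 / 2 ^ e)) ∧
    (∀ z w : ℂ, ‖z‖ = 1 → w ^ (2 * Q2) = 1 → w ≠ 1 → ‖aeval z (GI n k) / (sG n k : ℂ) *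
      (aeval (w * z) (HI n k Q2) / (sG n k : ℂ))‖ ≤ 1 / 2 ^ e) ∧
    (∀ i : ℕ, i ≡ dG n k [MOD 2 ^ k] →
      2 ^ k * (GI n k).coeff i = if i = dG n k then (sG n k : ℤ) else 0)

theorem tapsStatement_of_maj (hmaj : MajStatement) : TapsStatement := by
  intro k Q2 ν p hk hν hQ hQP
  obtain ⟨d1, d2, A0g, A0h, A1, A2, A3⟩ := hmaj k Q2 ν p (nTap ν p) hk hν hQ hQP rfl
  have hQP' : 2 * Q2 ≤ 2 ^ k := by
    have : 2 * Q2 * ν ≤ 2 ^ k * ν := hQP.trans (Nat.mul_le_mul_left _ (Nat.sub_le _ _))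
    exact Nat.le_of_mul_le_mul_right this (by omega)
  obtain ⟨k', rfl⟩ : ∃ k', k = k' + 1 := ⟨k - 1, by omega⟩
  have hk1 : (1 : ℝ) ≤ ((k' + 1 : ℕ) : ℝ) := by exact_mod_cast hk
  refine taps_of_filters (ε := (k' + 1 : ℕ) * (1 / 2 ^ p)) _ _ (by unfold sG; positivity)
    (by omega) hQP' d1 d2 ?_ ?_ A0g A0h A1
    (fun z w hz h1 h2 => (A2 z w hz h1 h2).trans (le_mul_of_one_le_left (by positivity) hk1))
    (fun n => ?_) ?_
  · unfold dG dTap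
    have := Nat.mul_le_mul_left (2 * nTap ν p + 1) (Nat.sub_le (2 ^ (k' + 1)) 1)
    omega
  · unfold dH dG dTap
    rw [← mul_add, Nat.add_sub_cancel]
    refine Nat.mul_le_mul_left _ ?_
    rw [pow_succ] at hQP' ⊢
    omega
  · by_cases h : 0 ≤ n * ((2 ^ (k' + 1) : ℕ) : ℤ) + dG (nTap ν p) (k' + 1)
    · obtain ⟨i, hi⟩ := Int.eq_ofNat_of_zero_le h
      have hpos : (0 : ℤ) < ((2 ^ (k' + 1) : ℕ) : ℤ) := by positivity
      have hm : i ≡ dG (nTap ν p) (k' + 1) [MOD 2 ^ (k' + 1)] := by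
        rw [← Int.natCast_modEq_iff, ← hi]
        exact Int.modEq_iff_dvd.2 ⟨-n, by ring⟩
      have := A3 i hm
      rw [hi, cZ_natCast]
      push_cast
      rw [this]
      by_cases hn : n = 0
      · subst hn
        rw [if_pos rfl, if_pos (by omega)]
      · rw [if_neg hn, if_neg]
        intro e
        rw [e] at hi
        have : n * ((2 ^ (k' + 1) : ℕ) : ℤ) = 0 := by omega
        rcases mul_eq_zero.1 this with h | h <;> omega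
    · rw [cZ_of_neg _ (by omega), mul_zero, if_neg]
      rintro rfl
      omega
  · unfold cTap
    have h4 : (4 : ℝ) ^ (k' + 1) = 2 ^ (k' + 1) * 2 ^ (k' + 1) := by rw [← mul_pow]; norm_num
    have hQR : ((2 * Q2 : ℕ) : ℝ) ≤ 2 ^ (k' + 1) := by exact_mod_cast hQP'
    have h1 : (1 : ℝ) ≤ 2 ^ p := one_le_pow₀ (by norm_num)
    have e1 : (2 : ℝ) ^ p * 2 ^ p * ((2 ^ (k' + 1) : ℕ) : ℝ) * ((2 * Q2 : ℕ) : ℝ) *
        (((k' + 1 : ℕ) : ℝ) * (1 / 2 ^ p))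
        = 2 ^ p * (((k' + 1 : ℕ) : ℝ) * (2 ^ (k' + 1) * ((2 * Q2 : ℕ) : ℝ))) := by
      push_cast; field_simp
    rw [e1]
    have b1 : (2 : ℝ) ^ p * (((k' + 1 : ℕ) : ℝ) * (2 ^ (k' + 1) * ((2 * Q2 : ℕ) : ℝ)))
        ≤ 2 ^ p * (((k' + 1 : ℕ) : ℝ) * (2 ^ (k' + 1) * 2 ^ (k' + 1))) := by gcongr
    have b2 : (2 * (dTap (k' + 1) ν p : ℝ) + 1) * (2 * 2 ^ p * 2 ^ (k' + 1) + 1)
        ≤ (2 * (dTap (k' + 1) ν p : ℝ) + 1) * (2 * 2 ^ p * 2 ^ (k' + 1) + 2 ^ p) := by gcongr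
    push_cast at b1 b2 ⊢
    rw [h4]
    nlinarith

end Crest.Agent.X326.FB
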