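import Crest.Agent.X326.FB.MajPT
import Crest.Agent.X326.FB.TapsDefs

/-!
# The integer taps `gI`, `hI` are computable in polynomial time (unary `2 ^ k`, `Q2`, `ν`, `p`)
-/

set_option autoImplicit false

namespace Crest.Agent.X326.FB

open Polynomial Finset Crest.Agent.Lib.PT

variable {α : Type} [PTCode α]

theorem ptu_nTap {ν p : α → ℕ} (hν : PTU ν) (hp : PTU p) : PTU (fun a => nTap (ν a) (p a)) :=
  ((PTU.const 4).mul (hν.pow 2)).mul hp

theorem ptf_gI {k ν p : α → ℕ} {x : α → ℤ} (hk : PTU (fun a => 2 ^ k a)) (hν : PTU ν) (hp : PTU p)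
    (hx : PTF x) : PTF (fun a => gI (k a) (ν a) (p a) (x a)) :=
  ptf_tap (F := fun a => GI (nTap (ν a) (p a)) (k a))
    (ptf_coeff_GI (k := fun q : α × ℕ => k q.1) ((ptu_nTap hν hp).comp PTF.fst) (hk.comp PTF.fst)
      PTF.snd)
    (ptu_dG (ptu_nTap hν hp) hk).toPTF (PTF.natMul (PTF.natTwoPow hp) hk.toPTF)
    (ptf_sG (ptu_nTap hν hp) (ptu_of_two_pow hk)) hx

theorem ptf_hI {k Q2 ν p : α → ℕ} {x : α → ℤ} (hk : PTU (fun a => 2 ^ k a)) (hQ : PTU Q2)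
    (hν : PTU ν) (hp : PTU p) (hx : PTF x) : PTF (fun a => hI (k a) (Q2 a) (ν a) (p a) (x a)) :=
  ptf_tap (F := fun a => HI (nTap (ν a) (p a)) (k a) (Q2 a))
    (ptf_coeff_HI (k := fun q : α × ℕ => k q.1) ((ptu_nTap hν hp).comp PTF.fst) (hk.comp PTF.fst)
      (hQ.comp PTF.fst) PTF.snd)
    (ptu_dH (ptu_nTap hν hp) hk hQ).toPTF
    (PTF.natMul (PTF.natTwoPow hp) (PTF.natMul (PTF.const 2) hQ.toPTF))
    (ptf_sG (ptu_nTap hν hp) (ptu_of_two_pow hk)) hx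

theorem ptu_dTap {k ν p : α → ℕ} (hk : PTU (fun a => 2 ^ k a)) (hν : PTU ν) (hp : PTU p) :
    PTU (fun a => dTap (k a) (ν a) (p a)) :=
  (((PTU.const 2).mul (ptu_nTap hν hp)).succ).mul hk

end Crest.Agent.X326.FB
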